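import Crest.Agent.N218.P.Defs
import Crest.Agent.N218.A.Tot
import Crest.Agent.N218.Sk.Mid

/-!
# Row 218, block A4 (helper77): the shape of the example = interface to D3 and PIECE
-/

set_option autoImplicit false
open Set
open scoped ContDiff RealInnerProductSpace

namespace Crest.Agent.N218.P
open A Sh

noncomputable section

abbrev Sht := Sheet (E 8 × E 3) (E 8 × ℝ) (E 3 × E 3) (fun n => ‖n.2‖)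

/-- `TOT` for a given sheet -/
def TotOf (S : Sht) : Prop :=
  ∃ (m : E 8 →L[ℝ] E 8 →L[ℝ] E 8) (S1 : Sheet (E 8 × E 3) (E 8) (ℝ × E 3) norm)
    (S2 : Sheet (ℝ × E 3) ℝ (E 3 × E 3) (fun n => ‖n.2‖))
    (Ξ : (E 3 × E 3) × ℝ → (ℝ × E 3) × ℝ) (ρ : ℝ),
    (∀ s x, ‖m s x‖ = ‖s‖ * ‖x‖) ∧
    Relation.ReflTransGen Hb (S1.O, fun z => (S1.W z, S1.H z)) (hopf m) ∧
    ρ < S1.r ∧ Continuous Ξ ∧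
    (∀ z ∈ S2.O, ‖z.1‖ < ρ ∧ S2.W z ∈ N0 ∧ Ξ (S2.W z, S2.H z) = z) ∧
    (∀ n ∈ N0, ‖n.2‖ < S2.r → ∀ η, ‖η‖ < S2.r →
      Ξ (n, η) ∈ S2.O ∧ S2.W (Ξ (n, η)) = n ∧ S2.H (Ξ (n, η)) = η) ∧
    S.r = S2.r ∧ S2.r ≤ S1.r ∧
    S.O = {z | (z.1, z.2.1) ∈ S1.O ∧ ‖S1.H (z.1, z.2.1)‖ < S2.r ∧
      (S1.W (z.1, z.2.1), z.2.2) ∈ S2.O} ∧
    (∀ z, S.W z = S2.W (S1.W (z.1, z.2.1), z.2.2)) ∧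
    ∀ z, S.H z = (S1.H (z.1, z.2.1), S2.H (S1.W (z.1, z.2.1), z.2.2))

theorem TOT.of (h : TOT) : ∃ S, TotOf S := by
  obtain ⟨m, S1, S2, Ξ, S, ρ, h⟩ := h
  exact ⟨S, m, S1, S2, Ξ, ρ, h⟩

theorem TotOf.mem {S : Sht} (h : TotOf S) : ∀ z ∈ S.O, S.W z ∈ N0 := by
  obtain ⟨m, S1, S2, Ξ, ρ, -, -, -, -, a, -, -, -, e, b, -⟩ := h
  intro z hz
  rw [e] at hz
  rw [b]; exact (a _ hz.2.2).2.1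

theorem Hf_eq (a : V) : Hf a = Sk.hfv a := rfl

/-- the rescaled profile -/
def pl (ε : ℝ) (p : ℝ → ℝ) (u : ℝ) : ℝ := p (ε * u) / ε

/-- a label family, rescaled by `ε` and centred on the top `u₁ = 1` -/
def sc {W : Type} [SMul ℝ W] (j : Y ≃L[ℝ] (E 8 × ℝ) × ℝ) (ε : ℝ) (g : (E 3 × E 3) × Y → W)
    (z : (E 3 × E 3) × (E 8 × ℝ) × ℝ) : W := ε • g (z.1, ε⁻¹ • j.symm (z.2.1, z.2.2 - 1))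

/-- the label of a point of `S² × S²` near the diagonal -/
def nX (x : Sk.X22) : E 3 × E 3 := (x.1, ⟪(x.1 : E 3), (x.2 : E 3)⟫⁻¹ • (x.2 : E 3) - x.1)

/-- a label family as a family over `S² × S²` -/
def gX (g : (E 3 × E 3) × Y → Y) (z : Sk.X22 × Y) : Y :=
  if 0 < ⟪(z.1.1 : E 3), (z.1.2 : E 3)⟫ then g (nX z.1, z.2) else 0

/-- the shape of the example; `Λ` = how small the pieces are -/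
structure Shape (Φ : Fam) (Λ : ℝ) where
  M : ℂ × V → V
  σ : ℂ × ℂ → (Y →L[ℝ] Y)
  σ' : ℂ × ℂ → (Y →L[ℝ] Y)
  j : Y ≃L[ℝ] (E 8 × ℝ) × ℝ
  i : Y ≃ₗᵢ[ℝ] Eu 9
  S : Sht
  s : ℝ
  ε : ℝ
  w : ℝ
  C : ℝ
  C' : ℝ
  A : ℝ
  K : ℝ
  p : ℝ → ℝ
  rY : Y → Y
  R : (ℂ × ℂ × ℂ) × Y → Y
  g : (E 3 × E 3) × Y → Y
  π : Eu 11 →L[ℝ] E 8 × E 3
  e' : Eu 11
  hM : Mz M
  hL : LF (F M)
  hF : Fr σ σ' j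
  hS : TotOf S
  ε0 : 0 < ε
  ε1 : ε ≤ 1 / 100
  A1 : 1 ≤ A
  small : ε * A * Λ ≤ S.r / 4
  εA : ε * A ≤ 1 / 4
  εΛ : ε * A * Λ ≤ 1 / 4
  A30 : 30 ≤ A
  CA : C ≤ A
  w0 : 0 < w
  w1 : w ≤ 1 / 1000
  hb : BR ev (ε * w) C' p rY
  hp : Pp w 30 (pl ε p)
  hR : LR (F M) w C (pl ε p) R
  ov : ∀ n ∈ N0, ∃ a b, Ov n a b
  far : ∀ a b : V, ‖a‖ = 1 → ‖b‖ = 1 → ⟪Hf a, Hf b⟫ ≤ 0 → 3 ≤ ‖(lab s a b).1‖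
  al : ∀ n ∈ N0, ∀ a b, Ov n a b → 1 / 4 ≤ ‖(lab s a b).2‖ ∧ ‖(lab s a b).2‖ ≤ 1
  gs : ContDiff ℝ ∞ g
  g0 : ∀ n η, S.r / 2 ≤ ‖n.2‖ ∨ A ≤ ‖η‖ → g (n, η) = 0
  gb : ∀ n ∈ N0, ∀ η, ‖g (n, η)‖ ≤ A
  gv : ∀ n ∈ N0, ∀ a b η, Ov n a b → g (n, η) =
    σ' (lab s a b).2 (R (lab s a b, σ (lab s a b).2 η)) - piH (pl ε p) η
  e1 : ‖e'‖ = 1
  K0 : 0 < K
  πn : ∀ x, ‖(π x).1‖ ^ 2 + ‖(π x).2‖ ^ 2 = K ^ 2 * (‖x‖ ^ 2 - ⟪e', x⟫ ^ 2)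
  πs : Function.Surjective π
  sup : ∀ z ∈ S.O, ‖(S.W z).2‖ ≤ S.r / 2 → ‖S.H z‖ ≤ S.r / 2 →
    ‖z.1.1‖ ^ 2 + ‖z.1.2‖ ^ 2 ≤ K ^ 2 / 4
  r_eq : ∀ x η, ‖x‖ = 1 → Φ.r (x, i η) = i (rY η +
    if 0 < ⟪e', x⟫ then S.ex (sc j ε g) ((π x, (j η).1), (j η).2) else 0)

/-- block A4 -/
def A4 : Prop := ∀ Λ : ℝ, 1 ≤ Λ → ∃ Φ, Nonempty (Shape Φ Λ)

/-- the piece as a family of self-maps of `Y` over `S² × S²` -/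
def Shape.rX {Φ : Fam} {Λ : ℝ} (h : Shape Φ Λ) (z : Sk.X22 × Y) : Y :=
  piH (pl h.ε h.p) z.2 + gX h.g z

/-- the piece problem -/
def Shape.pc {Φ : Fam} {Λ : ℝ} (h : Shape Φ Λ) (k : ℕ) : Pm.Pb (Sk.X22 × ℝ) k Y :=
  Pm.Ec k univ h.rX

/-- block PIECE -/
def PIECE : Prop := ∀ (T : Pm.Th Sk.X22 Sk.QQ) (Φ : Fam) (h : Shape Φ (2 ^ 30)),
  Sk.Red T 21 Sk.Pcd (T.pa 21 (Pm.sp Y) (h.pc 21))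

/-- block D3 for the instances `I`, `J` -/
def D3 (I : Pm.Th Sk.S11 Sk.QQ) (J : Pm.Th Sk.X22 Sk.QQ) : Prop :=
  ∀ (Φ : Fam) (h : Shape Φ (2 ^ 30)), J.pa 21 (Pm.sp Y) (h.pc 21) = Sk.half →
    Sk.ev I 21 _ (Sk.fr Φ.r) = Sk.half

theorem px {I : Pm.Th Sk.S11 Sk.QQ} {J : Pm.Th Sk.X22 Sk.QQ} (h4 : A4) (hP : PIECE) (h3 : D3 I J) :
    Sk.PX I J 21 := by
  obtain ⟨Φ, ⟨h⟩⟩ := h4 (2 ^ 30) (by norm_num)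
  exact ⟨Φ, _, hP J Φ h, h3 Φ h⟩

end

end Crest.Agent.N218.P
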