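import Crest.Agent.N218.P.Defs

/-! Row 218 (helper50): leaf BO, the geometry of the convex body. -/

set_option autoImplicit false
open Set Real
open scoped ContDiff RealInnerProductSpace

namespace Crest.Agent.N218.P
namespace Bo

noncomputable section

variable {E : Type} [NormedAddCommGroup E] [InnerProductSpace ℝ E]

/-- the argument of the smooth maximum -/
def tt (e y : E) : ℝ := ‖y‖ ^ 2 / 10000 - 3 / 4 - (⟪e, y⟫ - 1)
/-- the weight of the round part -/
def sg (e y : E) : ℝ := st (500 * tt e y + 1 / 2)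
/-- the gradient of `bo e` -/
def gr (e y : E) : E := (1 - sg e y) • e + (sg e y / 5000) • y

theorem bo_eq (e y : E) : bo e y = (⟪e, y⟫ - 1) + Sm (tt e y) := rfl

theorem sg0 (e y : E) : 0 ≤ sg e y := Real.smoothTransition.nonneg _
theorem sg1 (e y : E) : sg e y ≤ 1 := Real.smoothTransition.le_one _

theorem tt_sm (e : E) : ContDiff ℝ ∞ (tt e) :=
  (((contDiff_norm_sq ℝ).div_const _).sub contDiff_const).sub
    ((contDiff_const.inner ℝ contDiff_id).sub contDiff_const)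

theorem sg_sm (e : E) : ContDiff ℝ ∞ (sg e) :=
  Real.smoothTransition.contDiff.comp ((contDiff_const.mul (tt_sm e)).add contDiff_const)

theorem gr_sm (e : E) : ContDiff ℝ ∞ (gr e) :=
  ((contDiff_const.sub (sg_sm e)).smul contDiff_const).add
    (((sg_sm e).div_const _).smul contDiff_id)

theorem Sm_sm (h : SM) : ContDiff ℝ ∞ Sm :=
  (h.sm.comp ((contDiff_const.mul contDiff_id).add contDiff_const)).div_const _

theorem Sm_d (h : SM) (t : ℝ) : HasDerivAt Sm (st (500 * t + 1 / 2)) t := by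
  have h1 : HasDerivAt (fun t : ℝ => 500 * t + 1 / 2) 500 t := by
    simpa using ((hasDerivAt_id t).const_mul 500).add_const (1 / 2 : ℝ)
  have h2 := ((h.d (500 * t + 1 / 2)).comp t h1).div_const 500
  exact HasDerivAt.congr_deriv h2 (by ring)

theorem Sm_z (h : SM) {t : ℝ} (ht : t ≤ -(1 / 1000)) : Sm t = 0 := by
  unfold Sm; rw [h.z _ (by linarith)]; simp

theorem Sm_mono (h : SM) : Monotone Sm := fun a b hab =>
  div_le_div_of_nonneg_right (h.mono (by linarith)) (by norm_num)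

theorem Sm_cv (h : SM) (x y a b : ℝ) (ha : 0 ≤ a) (hb : 0 ≤ b) (hab : a + b = 1) :
    Sm (a * x + b * y) ≤ a * Sm x + b * Sm y := by
  have h1 := h.conv.2 (mem_univ (500 * x + 1 / 2)) (mem_univ (500 * y + 1 / 2)) ha hb hab
  simp only [smul_eq_mul] at h1
  have h2 : a * (500 * x + 1 / 2) + b * (500 * y + 1 / 2) = 500 * (a * x + b * y) + 1 / 2 := by
    linear_combination (1 / 2 : ℝ) * hab
  rw [h2] at h1
  unfold Sm
  linarith

theorem bo_sm (h : SM) (e : E) : ContDiff ℝ ∞ (bo e) :=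
  ((contDiff_const.inner ℝ contDiff_id).sub contDiff_const).add ((Sm_sm h).comp (tt_sm e))

theorem bo_d (h : SM) (e y : E) : HasFDerivAt (bo e) (innerSL ℝ (gr e y)) y := by
  have h1 : HasFDerivAt (fun y : E => ⟪e, y⟫ - 1) (innerSL ℝ e) y :=
    (innerSL ℝ e).hasFDerivAt.sub_const 1
  have h2 : HasFDerivAt (fun y : E => ‖y‖ ^ 2) (2 • innerSL ℝ y) y :=
    (hasStrictFDerivAt_norm_sq y).hasFDerivAt
  have h3 : HasFDerivAt (tt e) ((1 / 10000 : ℝ) • (2 • innerSL ℝ y) - innerSL ℝ e) y := by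
    have := ((h2.const_mul (1 / 10000 : ℝ)).sub_const (3 / 4)).sub h1
    refine this.congr_of_eventuallyEq (Filter.Eventually.of_forall fun z => ?_)
    simp only [tt, Pi.sub_apply]; ring
  have h4 := h1.add ((Sm_d h (tt e y)).comp_hasFDerivAt y h3)
  refine HasFDerivAt.congr_fderiv h4 ?_
  ext v
  simp [gr, sg]
  ring

theorem bo_cv (h : SM) (e : E) : ConvexOn ℝ univ (bo e) := by
  refine ⟨convex_univ, fun x _ y _ a b ha hb hab => ?_⟩
  have h1 : ‖a • x + b • y‖ ^ 2 ≤ a * ‖x‖ ^ 2 + b * ‖y‖ ^ 2 := by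
    have h2 : ‖a • x + b • y‖ ≤ a * ‖x‖ + b * ‖y‖ := by
      refine (norm_add_le _ _).trans ?_
      rw [norm_smul, norm_smul, Real.norm_of_nonneg ha, Real.norm_of_nonneg hb]
    have h3 := pow_le_pow_left₀ (norm_nonneg _) h2 2
    obtain rfl : b = 1 - a := by linarith
    nlinarith [mul_nonneg (mul_nonneg ha hb) (sq_nonneg (‖x‖ - ‖y‖))]
  have h2 : ⟪e, a • x + b • y⟫ = a * ⟪e, x⟫ + b * ⟪e, y⟫ := by
    simp [inner_add_right, inner_smul_right]
  have h3 : tt e (a • x + b • y) ≤ a * tt e x + b * tt e y := by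
    unfold tt; rw [h2]
    obtain rfl : b = 1 - a := by linarith
    linarith
  have h4 := (Sm_mono h h3).trans (Sm_cv h _ _ a b ha hb hab)
  simp only [bo_eq, smul_eq_mul, h2]
  obtain rfl : b = 1 - a := by linarith
  linarith

theorem u_le (h : SM) (e y : E) : ⟪e, y⟫ - 1 ≤ bo e y := by
  have := (le_max_right _ _).trans (h.Sm_ge (tt e y))
  rw [bo_eq]; linarith

theorem q_le (h : SM) (e y : E) : ‖y‖ ^ 2 / 10000 - 3 / 4 ≤ bo e y := by
  have := (le_max_left _ _).trans (h.Sm_ge (tt e y))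
  rw [bo_eq]; unfold tt at *; linarith

theorem tt_le {e y : E} (hy : ‖y‖ ≤ 40) (hu : 1 / 2 ≤ ⟪e, y⟫) : tt e y ≤ -(1 / 1000) := by
  have := pow_le_pow_left₀ (norm_nonneg _) hy 2
  unfold tt; linarith

theorem bo_top (h : SM) {e y : E} (hy : ‖y‖ ≤ 40) (hu : 1 / 2 ≤ ⟪e, y⟫) :
    bo e y = ⟪e, y⟫ - 1 := by
  rw [bo_eq, Sm_z h (tt_le hy hu), add_zero]

theorem gr_top {e y : E} (hy : ‖y‖ ≤ 40) (hu : 1 / 2 ≤ ⟪e, y⟫) : gr e y = e := by
  have : sg e y = 0 := Real.smoothTransition.zero_of_nonpos (by linarith [tt_le hy hu])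
  simp [gr, this]

theorem bo_le (h : SM) (e y : E) :
    bo e y ≤ max (‖y‖ ^ 2 / 10000 - 3 / 4) (⟪e, y⟫ - 1) + 1 / 1000 := by
  have h1 := h.Sm_le (tt e y)
  have h2 := le_max_left (‖y‖ ^ 2 / 10000 - 3 / 4) (⟪e, y⟫ - 1)
  have h3 := le_max_right (‖y‖ ^ 2 / 10000 - 3 / 4) (⟪e, y⟫ - 1)
  rw [bo_eq]
  rcases max_cases (tt e y) 0 with h4 | h4 <;> rw [h4.1] at h1 <;> unfold tt at * <;> linarith

theorem bo_in (h : SM) {e y : E} (hy : ‖y‖ ≤ 40) (hu : ⟪e, y⟫ ≤ 1 / 2) : bo e y ≤ -(1 / 4) := by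
  have h1 := pow_le_pow_left₀ (norm_nonneg _) hy 2
  have h2 : max (‖y‖ ^ 2 / 10000 - 3 / 4) (⟪e, y⟫ - 1) ≤ -(1 / 2) :=
    max_le (by linarith) (by linarith)
  linarith [bo_le h e y]

theorem pos_of {e y : E} {A B : ℝ} (hA : 0 < ⟪e, y⟫ → 0 < A) (hB : 0 < B) :
    0 < (1 - sg e y) * A + sg e y / 5000 * B := by
  rcases (sg1 e y).eq_or_lt with h1 | h1
  · rw [h1]; linarith
  · have h2 : 500 * tt e y + 1 / 2 < 1 := by
      by_contra hc
      exact h1.ne (Real.smoothTransition.one_of_one_le (not_lt.1 hc))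
    have h3 : 0 < ⟪e, y⟫ := by
      have := sq_nonneg ‖y‖
      unfold tt at h2; linarith
    have := mul_pos (sub_pos.2 h1) (hA h3)
    have := mul_nonneg (div_nonneg (sg0 e y) (by norm_num : (0:ℝ) ≤ 5000)) hB.le
    linarith

end

end Bo

open Bo in
theorem bo_ (h : SM) : BO := fun E _ _ e he => by
  refine ⟨bo_sm h e, bo_cv h e, u_le h e, q_le h e, fun y => bo_top h, fun y => bo_in h,
    fun y hy => ?_⟩
  have hp : 0 < ‖y‖ ^ 2 := by positivity
  have hee : ⟪e, e⟫ = 1 := by rw [real_inner_self_eq_norm_sq, he]; norm_num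
  rw [(bo_d h e y).fderiv]
  constructor
  · have := pos_of (e := e) (y := y) id hp
    simpa [gr, inner_add_left, inner_smul_left, real_inner_self_eq_norm_sq] using this
  · have := pos_of (e := e) (y := y) (A := 2 * ⟪e, y⟫) (B := ‖y‖ ^ 2 + ⟪e, y⟫ ^ 2)
      (fun h => by linarith) (by positivity)
    have h2 : innerSL ℝ (gr e y) (y + ⟪e, y⟫ • e) =
        (1 - sg e y) * (2 * ⟪e, y⟫) + sg e y / 5000 * (‖y‖ ^ 2 + ⟪e, y⟫ ^ 2) := by
      simp only [gr, innerSL_apply_apply, inner_add_left, inner_add_right, real_inner_smul_left,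
        real_inner_smul_right, hee, real_inner_self_eq_norm_sq, real_inner_comm e y]
      ring
    rw [h2]; exact this

end Crest.Agent.N218.P
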