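import Crest.Agent.N218.P.Bd1

/-! Row 218 (helper50): leaf BODY, the retraction of the body by iterated gradient steps. -/

set_option autoImplicit false
open Set Real
open scoped ContDiff RealInnerProductSpace

namespace Crest.Agent.N218.P
namespace Bd
open Bo

noncomputable section

variable {E : Type} [NormedAddCommGroup E] [InnerProductSpace ℝ E] {e : E} {η : ℝ}

theorem it_sm {F : Type} [NormedAddCommGroup F] [NormedSpace ℝ F] {f : F → F}
    (hf : ContDiff ℝ ∞ f) : ∀ n, ContDiff ℝ ∞ f^[n]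
  | 0 => contDiff_id
  | n + 1 => by rw [Function.iterate_succ']; exact hf.comp (it_sm hf n)

theorem it_lip {F : Type} [NormedAddCommGroup F] {f : F → F} (hf : ∀ x y, ‖f x - f y‖ ≤ ‖x - y‖)
    (x y : F) : ∀ n, ‖f^[n] x - f^[n] y‖ ≤ ‖x - y‖
  | 0 => le_rfl
  | n + 1 => by
    rw [Function.iterate_succ_apply', Function.iterate_succ_apply']
    exact (hf _ _).trans (it_lip hf x y n)

theorem it_id {y : E} (hy : bo e y ≤ 0) (n : ℕ) : (T e η)^[n] y = y :=
  Function.iterate_fixed (T_id η hy) n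

theorem Good.nrm (h : SM) (g : Good e η) (y : E) (n : ℕ) : ‖(T e η)^[n] y‖ ≤ ‖y‖ := by
  have := it_lip g.one y 0 n
  rwa [it_id (y := 0) (by linarith [bo_zero h e]), sub_zero, sub_zero] at this

theorem Good.it (h : SM) (g : Good e η) {y : E} (hy : ‖y‖ ≤ 141) (hb : 0 < bo e y) :
    ∀ n, 0 < bo e ((T e η)^[n] y) ∧
      ‖(T e η)^[n] y - y‖ ≤ 1128 * (bo e y - bo e ((T e η)^[n] y))
  | 0 => ⟨hb, by simp⟩
  | n + 1 => by
    obtain ⟨a, b⟩ := Good.it h g hy hb n
    obtain ⟨c, d, -⟩ := g.step _ ((g.nrm h y n).trans hy) a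
    rw [Function.iterate_succ_apply']
    refine ⟨c, ?_⟩
    have := norm_sub_le_norm_sub_add_norm_sub (T e η ((T e η)^[n] y)) ((T e η)^[n] y) y
    linarith

theorem Good.lt (h : SM) (g : Good e η) {y : E} (hy : ‖y‖ ≤ 141) (hb : 0 < bo e y) (n : ℕ) :
    bo e ((T e η)^[n + 1] y) < bo e y := by
  obtain ⟨a, b⟩ := g.it h hy hb n
  obtain ⟨-, -, d⟩ := g.step _ ((g.nrm h y n).trans hy) a
  rw [Function.iterate_succ_apply']
  have := mul_pos g.pos (stp a)
  linarith [norm_nonneg ((T e η)^[n] y - y)]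

theorem Good.dn (h : SM) (g : Good e η) (he : ‖e‖ = 1) {y : E} (hy : ‖y‖ ≤ 141) {v : ℝ}
    (hv : 0 < v) : ∀ n : ℕ, bo e ((T e η)^[n] y) ≤ v ∨
      bo e ((T e η)^[n] y) ≤ 142 - n * (η * st v / 636192)
  | 0 => by
    have h1 := real_inner_le_norm e y
    rw [he, one_mul] at h1
    have h2 := pow_le_pow_left₀ (norm_nonneg _) hy 2
    have h3 : max (‖y‖ ^ 2 / 10000 - 3 / 4) (⟪e, y⟫ - 1) ≤ 141 :=
      max_le (by linarith) (by linarith)
    right; simp only [Function.iterate_zero, id, Nat.cast_zero]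
    linarith [bo_le h e y]
  | n + 1 => by
    have ih := Good.dn h g he hy hv n
    rw [Function.iterate_succ_apply']
    set z := (T e η)^[n] y
    rcases le_or_gt (bo e z) 0 with c | c
    · left; rw [T_id η c]; linarith
    obtain ⟨-, -, d⟩ := g.step z ((g.nrm h y n).trans hy) c
    have h1 := mul_pos g.pos (stp c)
    rcases le_or_gt (bo e z) v with c' | c'
    · left; linarith
    · have h2 := mul_le_mul_of_nonneg_left (stm c'.le) g.pos.le
      right; push_cast
      rcases ih with ih | ih <;> linarith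

/-- the profile of one step -/
def P1 (η u : ℝ) : ℝ := u - η * st u

theorem T_flat (h : SM) {y : E} (hy : ‖y‖ ≤ 40) :
    T e η y = y - (η * st (⟪e, y⟫ - 1)) • e := by
  rcases le_total ⟪e, y⟫ (1 / 2) with c | c
  · rw [T_id η (by linarith [bo_in h hy c]), st0 (by linarith)]; simp
  · rw [T, bo_top h hy c, gr_top hy c, smul_smul]

theorem Good.flat (h : SM) (g : Good e η) (he : ‖e‖ = 1) {y : E} (hy : ‖y‖ ≤ 40) :
    ∀ n, (T e η)^[n] y = y - (⟪e, y⟫ - 1 - (P1 η)^[n] (⟪e, y⟫ - 1)) • e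
  | 0 => by simp
  | n + 1 => by
    have ih := Good.flat h g he hy n
    have hee : ⟪e, e⟫ = 1 := by rw [real_inner_self_eq_norm_sq, he]; norm_num
    have h1 : ⟪e, (T e η)^[n] y⟫ - 1 = (P1 η)^[n] (⟪e, y⟫ - 1) := by
      rw [ih, inner_sub_right, real_inner_smul_right, hee]; ring
    rw [Function.iterate_succ_apply', Function.iterate_succ_apply',
      T_flat h ((g.nrm h y n).trans hy), h1, ih, P1]
    module

theorem Good.pit (g : Good e η) {u : ℝ} (hu : 0 < u) :
    ∀ n, 0 < (P1 η)^[n] u ∧ (P1 η)^[n] u ≤ u ∧ (P1 η)^[n + 1] u < u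
  | 0 => ⟨hu, le_rfl, by have := mul_pos g.pos (stp hu); simp [P1, this]⟩
  | n + 1 => by
    obtain ⟨a, b, c⟩ := Good.pit g hu n
    have h1 := g.p1 _ 0 a.le
    rw [st0 le_rfl] at h1
    have h2 : 0 < (P1 η)^[n + 1] u := by rw [Function.iterate_succ_apply', P1]; linarith
    refine ⟨h2, c.le, ?_⟩
    rw [Function.iterate_succ_apply', P1]
    linarith [mul_pos g.pos (stp h2)]

theorem Good.plip (g : Good e η) (u u' : ℝ) : ‖P1 η u - P1 η u'‖ ≤ ‖u - u'‖ := by
  wlog c : u' ≤ u generalizing u u'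
  · rw [norm_sub_rev, norm_sub_rev u]; exact this _ _ (not_le.1 c).le
  have h1 := g.p1 u u' c
  have h2 := mul_nonneg g.pos.le (sub_nonneg.2 (stm c))
  rw [Real.norm_of_nonneg (sub_nonneg.2 c), Real.norm_eq_abs, abs_le, P1, P1]
  constructor <;> linarith

end

end Bd

open Bo Bd in
theorem body (h : SM) : BODY := fun E _ _ _ e he w w0 w1 => by
  obtain ⟨η, g⟩ := good h he
  have d0 : 0 < η * st (w / 4) / 636192 := by
    have := mul_pos g.pos (stp (show 0 < w / 4 by linarith)); positivity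
  obtain ⟨n, hn⟩ := exists_nat_ge (142 / (η * st (w / 4) / 636192))
  rw [div_le_iff₀ d0] at hn
  have inn : ∀ y : E, ‖y‖ ≤ 141 → bo e ((T e η)^[n + 1] y) ≤ w / 4 := fun y hy => by
    rcases g.dn h he hy (show 0 < w / 4 by linarith) (n + 1) with c | c
    · exact c
    · push_cast at c; linarith
  have hee : ⟪e, e⟫ = 1 := by rw [real_inner_self_eq_norm_sq, he]; norm_num
  have pid : ∀ u : ℝ, u ≤ 0 → (P1 η)^[n + 1] u = u := fun u hu =>
    Function.iterate_fixed (by simp [P1, st0 hu]) _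
  refine ⟨1128, (P1 η)^[n + 1], fun y => (T e η)^[n + 1] (k1 y),
    ⟨it_sm (contDiff_id.sub (contDiff_const.mul sts)) _, pid, fun u hu => (g.pit hu _).1.le,
      fun u hu => (g.pit hu n).2.2, fun u hu => ?_, fun u u' => it_lip g.plip u u' _⟩,
    (it_sm (T_sm h e η) _).comp (k1_sm h), fun y y' => (it_lip g.one _ _ _).trans (k1_lip h y y'),
    fun y => (g.nrm h _ _).trans ((k1_le h y).trans (by norm_num)), fun A hA y => ?_,
    fun y hy => ?_, fun y hy => ?_, fun y hy => ?_, fun y hy => ?_, fun y hy hw => ?_,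
    fun y => inn _ (k1_le h y)⟩
  · rcases le_total u 0 with c | c
    · rw [pid u c]; linarith
    · have h1 : ‖(u + 1) • e‖ ≤ 40 := by
        rw [norm_smul, he, Real.norm_of_nonneg (by linarith)]; linarith
      have h2 := (u_le h e _).trans (inn _ (h1.trans (by norm_num)))
      rw [g.flat h he h1, inner_sub_right, real_inner_smul_right, real_inner_smul_right, hee,
        mul_one, mul_one, add_sub_cancel_right] at h2
      linarith
  · have h1 : k1 (A y) = A (k1 y) := by simp [k1]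
    have h2 : Function.Semiconj A (T e η) (T e η) := fun z => (T_eqv η A hA z).symm
    show (T e η)^[n + 1] (k1 (A y)) = A ((T e η)^[n + 1] (k1 y))
    rw [h1, h2.iterate_right (n + 1)]
  · show (T e η)^[n + 1] (k1 y) = _
    rw [k1_id h (by linarith), g.flat h he (by linarith)]
  · show (T e η)^[n + 1] (k1 y) = _
    rw [k1_id h (small h (by linarith : bo e y ≤ 1)), it_id hy]
  · obtain ⟨a, b⟩ := k1_bo h e y hy
    exact (g.lt h (k1_le h y) a n).trans_le b
  · exact (g.it h (k1_le h y) (k1_bo h e y hy).1 _).1.le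
  · have h1 := small h (hw.trans w1)
    show ‖(T e η)^[n + 1] (k1 y) - y‖ ≤ 1128 * (bo e y - bo e ((T e η)^[n + 1] (k1 y)))
    rw [k1_id h h1]
    exact (g.it h (by linarith) hy _).2

end Crest.Agent.N218.P
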