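import Crest.Agent.N218.P.Defs

/-! Row 218, leaf CRIT (helper3): the derivative and the low critical points of the tube function. -/

set_option autoImplicit false
open Set Real
open scoped ContDiff RealInnerProductSpace

namespace Crest.Agent.N218.P

noncomputable section

theorem Ee_dC (h : SM) (x : ℝ) : HasDerivAt Ee (1000 * st (10 * x)) x := by
  have a := ((h.d (10 * x)).comp x ((hasDerivAt_id x).const_mul 10)).const_mul 100
  refine (a.congr_deriv (by ring)).congr_of_eventuallyEq (Filter.Eventually.of_forall fun y => ?_)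
  simp [Ee]

theorem tau_diff : Differentiable ℝ tau := by
  unfold tau
  exact (differentiable_fst.norm_sq ℝ).add (differentiable_snd.fst.norm_sq ℝ)

theorem G_diff (h : SM) {M : V → V} (hM : Differentiable ℝ M) (c b : ℝ) :
    Differentiable ℝ (G M c b) := by
  have a : Differentiable ℝ fun z => th (tau z) :=
    Differentiable.comp (g := th) (fun x => (h.th_d x).differentiableAt) tau_diff
  have e : Differentiable ℝ fun z => Ee (tau z - c) :=
    Differentiable.comp (g := Ee) (fun x => (Ee_dC h x).differentiableAt) (tau_diff.sub_const c)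
  have n1 : Differentiable ℝ fun z : V × V × ℝ × ℝ => ‖z.1‖ ^ 2 := differentiable_fst.norm_sq ℝ
  have n2 : Differentiable ℝ fun z : V × V × ℝ × ℝ => ‖z.2.1‖ ^ 2 :=
    differentiable_snd.fst.norm_sq ℝ
  have n3 : Differentiable ℝ fun z : V × V × ℝ × ℝ => ⟪M z.1, z.2.1⟫ :=
    (hM.comp differentiable_fst).inner ℝ differentiable_snd.fst
  have t := tau_diff
  unfold G
  fun_prop

/-- the coefficient of `dτ` in `dG` coming from the angle and the last terms -/
def TT (M : V → V) (c : ℝ) (z : V × V × ℝ × ℝ) : ℝ :=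
  -(π / 2 * (st (3 - tau z) - st (2 - tau z))) *
    (2 * sin (th (tau z)) * cos (th (tau z)) * (‖z.2.1‖ ^ 2 - ‖z.1‖ ^ 2) -
      2 * (cos (th (tau z)) ^ 2 - sin (th (tau z)) ^ 2) * ⟪M z.1, z.2.1⟫) - 1 / 1000 +
    1000 * st (10 * (tau z - c))

/-- **the derivative of `G`** -/
theorem G_fderiv (h : SM) {M : V → V} (hM : Differentiable ℝ M) (c b : ℝ) (z ξ : V × V × ℝ × ℝ) :
    fderiv ℝ (G M c b) z ξ =
      2 * (cos (th (tau z)) ^ 2 + TT M c z) * ⟪z.1, ξ.1⟫ +
      2 * (sin (th (tau z)) ^ 2 + TT M c z) * ⟪z.2.1, ξ.2.1⟫ -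
      2 * sin (th (tau z)) * cos (th (tau z)) * (⟪fderiv ℝ M z.1 ξ.1, z.2.1⟫ + ⟪M z.1, ξ.2.1⟫) +
      2 * z.2.2.1 * ξ.2.2.1 + 2 * (z.2.2.2 - b * (3 * tau z - 1)) *
        (ξ.2.2.2 - 6 * b * (⟪z.1, ξ.1⟫ + ⟪z.2.1, ξ.2.1⟫)) := by
  have γ : HasDerivAt (fun t : ℝ => z + t • ξ) ξ 0 := by
    simpa using ((hasDerivAt_id (0:ℝ)).smul_const ξ).const_add z
  have z0 : z + (0:ℝ) • ξ = z := by simp
  have g0 : HasDerivAt (fun t : ℝ => G M c b (z + t • ξ)) (fderiv ℝ (G M c b) z ξ) 0 :=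
    HasFDerivAt.comp_hasDerivAt_of_eq (0:ℝ) (G_diff h hM c b z).hasFDerivAt γ z0.symm
  have v : HasDerivAt (fun t : ℝ => (z + t • ξ).1) ξ.1 0 := γ.fst
  have w : HasDerivAt (fun t : ℝ => (z + t • ξ).2.1) ξ.2.1 0 := γ.snd.fst
  have p : HasDerivAt (fun t : ℝ => (z + t • ξ).2.2.1) ξ.2.2.1 0 := γ.snd.snd.fst
  have q : HasDerivAt (fun t : ℝ => (z + t • ξ).2.2.2) ξ.2.2.2 0 := γ.snd.snd.snd
  have n1 := v.norm_sq
  have n2 := w.norm_sq
  have mv : HasDerivAt (fun t : ℝ => M (z + t • ξ).1) (fderiv ℝ M z.1 ξ.1) 0 :=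
    HasFDerivAt.comp_hasDerivAt_of_eq (0:ℝ) (hM z.1).hasFDerivAt v (by simp)
  have n3 := mv.inner ℝ w
  have t : HasDerivAt (fun t : ℝ => tau (z + t • ξ)) _ 0 := n1.add n2
  have a : HasDerivAt (fun t : ℝ => th (tau (z + t • ξ))) _ 0 :=
    HasDerivAt.comp_of_eq (h₂ := th) (0:ℝ) (h.th_d (tau z)) t (by rw [z0])
  have e : HasDerivAt (fun t : ℝ => Ee (tau (z + t • ξ) - c)) _ 0 :=
    HasDerivAt.comp_of_eq (h₂ := Ee) (0:ℝ) (Ee_dC h (tau z - c)) (t.sub_const c) (by rw [z0])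
  have g1 : HasDerivAt (fun t : ℝ => G M c b (z + t • ξ)) _ 0 :=
    ((((((((a.cos.pow 2).mul n1).add ((a.sin.pow 2).mul n2)).sub
      (((a.sin.const_mul 2).mul a.cos).mul n3)).add (p.pow 2)).add
      ((q.sub (((t.const_mul 3).sub_const 1).const_mul b)).pow 2)).sub (t.div_const 1000)).add
      e).sub_const (1 / 100)
  rw [g0.unique g1]
  simp only [z0, TT, Pi.pow_apply, Pi.mul_apply, Pi.sub_apply]
  push_cast
  ring

theorem st_posC {x : ℝ} (hx : 0 < st x) : 0 < x := by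
  by_contra n
  exact hx.ne' (Real.smoothTransition.zero_of_nonpos (not_lt.1 n))

/-- the last terms on the critical sphere -/
theorem Ee_leC (h : SM) {τ c : ℝ} (hc : 0 ≤ c) (e : st (10 * (τ - c)) = 1 / 1000000) :
    c < τ ∧ Ee (τ - c) ≤ τ / 1000 := by
  have a := st_posC (x := 10 * (τ - c)) (by rw [e]; norm_num)
  have b := h.le _ a.le
  rw [e] at b
  exact ⟨by linarith, by unfold Ee; linarith⟩

/-- the algebra of the thin case -/
theorem thin {S C D x y m θ : ℝ} (hS : 0 < S) (hC : 0 < C) (h1 : S ^ 2 + C ^ 2 = 1)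
    (hx0 : 0 ≤ x) (hx : x ≤ 1 / 10000) (hy0 : 0 ≤ y) (lo : 1 < x ^ 2 + y ^ 2)
    (hi : x ^ 2 + y ^ 2 < 3) (hm : |m| ≤ x * y) (hD : D ≤ 2) (hs : S ≤ θ)
    (hθ : S ≤ 1 / 5 → θ ≤ D)
    (hG : C ^ 2 * x ^ 2 + S ^ 2 * y ^ 2 - 2 * S * C * m - (x ^ 2 + y ^ 2) / 1000 - 1 / 100 ≤ 1 / 100)
    (hW : (S ^ 2 + (-D * (2 * S * C * (y ^ 2 - x ^ 2) - 2 * (C ^ 2 - S ^ 2) * m) - 1 / 1000)) *
      y ^ 2 = S * C * m) : False := by
  have x2 : x ^ 2 ≤ 1 / 100000000 := by nlinarith only [hx0, hx]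
  have y2 : y ≤ 2 := by nlinarith only [hi, hy0, sq_nonneg x]
  have yy : 99 / 100 ≤ y ^ 2 := by linarith
  have m1 : |m| ≤ 2 / 10000 := hm.trans (by nlinarith only [hx0, hx, hy0, y2])
  obtain ⟨ma, mb⟩ := abs_le.1 m1
  have sc : 2 * S * C ≤ 1 := by nlinarith only [sq_nonneg (S - C), h1]
  have sc0 : 0 < S * C := mul_pos hS hC
  have scm : 2 * S * C * m ≤ 2 / 10000 := by nlinarith only [sc, sc0, mb]
  have scm' : -(1 / 10000) ≤ S * C * m := by nlinarith only [sc, sc0, ma]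
  have s3 : S ^ 2 * y ^ 2 ≤ 3 / 100 := by nlinarith only [sq_nonneg (C * x), hG, scm, hi]
  have s2 : S ^ 2 ≤ 1 / 25 := by nlinarith only [s3, yy, sq_nonneg S]
  have s1 : S ≤ 1 / 5 := by nlinarith only [s2, hS]
  have c1 : 9 / 10 ≤ C := by nlinarith only [s2, h1, hC]
  have d1 : S ≤ D := hs.trans (hθ s1)
  have k1 : S ≤ 2 * S * C * (y ^ 2 - x ^ 2) := by
    have : 1 ≤ 2 * C * (y ^ 2 - x ^ 2) := by nlinarith only [c1, yy, x2]
    nlinarith only [this, hS]
  have k2 : S * S ≤ D * (2 * S * C * (y ^ 2 - x ^ 2)) :=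
    mul_le_mul d1 k1 hS.le (hS.le.trans d1)
  have k3 : (C ^ 2 - S ^ 2) * m ≤ 2 / 10000 := by
    have a : 0 ≤ C ^ 2 - S ^ 2 := by linarith
    have b : C ^ 2 - S ^ 2 ≤ 1 := by linarith [sq_nonneg S]
    nlinarith only [a, b, mb]
  have k4 : D * (2 * (C ^ 2 - S ^ 2) * m) ≤ 8 / 10000 := by
    nlinarith only [k3, hD, hS.le.trans d1]
  have k5 : S ^ 2 + (-D * (2 * S * C * (y ^ 2 - x ^ 2) - 2 * (C ^ 2 - S ^ 2) * m) - 1 / 1000) ≤
      -(2 / 10000) := by linarith
  nlinarith only [k5, yy, hW, scm']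

theorem crit (h : SM) : CRIT := by
  rintro M c b ⟨v, w, p, q⟩ hM h0 hG
  have D := fun ξ => G_fderiv h hM.d c b (v, w, p, q) ξ
  simp only [h0, zero_apply] at D
  set τ := tau (v, w, p, q) with hτ
  have τe : τ = ‖v‖ ^ 2 + ‖w‖ ^ 2 := rfl
  set S := sin (th τ) with hS
  set C := cos (th τ) with hC
  set T := TT M c (v, w, p, q) with hT
  have p0 : p = 0 := by
    have := D (0, 0, 1, 0)
    simp at this; exact this
  have q0 : q - b * (3 * τ - 1) = 0 := by
    have := D (0, 0, 0, 1)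
    simp at this; linarith
  have W : ∀ β, (S ^ 2 + T) * ⟪w, β⟫ = S * C * ⟪M v, β⟫ := fun β => by
    have := D (0, β, 0, 0)
    simp only [q0, p0, inner_zero_right, map_zero, inner_zero_left] at this
    linarith
  have Vv : ∀ a, (C ^ 2 + T) * ⟪v, a⟫ = S * C * ⟪fderiv ℝ M v a, w⟫ := fun a => by
    have := D (a, 0, 0, 0)
    simp only [q0, p0, inner_zero_right, map_zero, inner_zero_left] at this
    linarith
  have Gv : G M c b (v, w, p, q) = C ^ 2 * ‖v‖ ^ 2 + S ^ 2 * ‖w‖ ^ 2 - 2 * S * C * ⟪M v, w⟫ -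
      τ / 1000 + Ee (τ - c) - 1 / 100 := by
    simp only [G, ← hτ, ← hS, ← hC]; rw [q0, p0]; ring
  have Te : T = -(π / 2 * (st (3 - τ) - st (2 - τ))) * (2 * S * C * (‖w‖ ^ 2 - ‖v‖ ^ 2) -
      2 * (C ^ 2 - S ^ 2) * ⟪M v, w⟫) - 1 / 1000 + 1000 * st (10 * (τ - c)) := rfl
  have one : S ^ 2 + C ^ 2 = 1 := sin_sq_add_cos_sq _
  have Ww := W w
  have Vr := Vv v
  rw [real_inner_self_eq_norm_sq] at Ww Vr
  have s0 := Real.smoothTransition.nonneg (10 * (τ - c))
  have E0 : 0 ≤ Ee (τ - c) := by have := h.nn (10 * (τ - c)); unfold Ee; linarith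
  obtain ⟨t0, t1⟩ := h.th_mem τ
  rcases t0.eq_or_lt with t0 | t0
  · -- `θ = 0`
    have a : S = 0 := by rw [hS, ← t0, sin_zero]
    have a' : C = 1 := by rw [hC, ← t0, cos_zero]
    rw [h.th_d0 τ (Or.inl t0.symm)] at Te
    rw [a, a'] at Ww Vr Gv
    have v0 : v = 0 := by
      have : ‖v‖ ^ 2 = 0 := by
        have : 0 < 1 ^ 2 + T := by rw [Te]; linarith
        nlinarith [sq_nonneg ‖v‖]
      simpa using this
    have T0 : T = 0 := by
      by_contra n
      have : ‖w‖ ^ 2 = 0 := by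
        have : T * ‖w‖ ^ 2 = 0 := by linarith
        exact (mul_eq_zero.1 this).resolve_left n
      have u := h.th_lo τ (by rw [τe, this, v0]; simp)
      linarith [pi_pos]
    have e : st (10 * (τ - c)) = 1 / 1000000 := by rw [T0] at Te; linarith
    have := Ee_leC h hM.c0 e
    refine Or.inr ⟨?_, fun c4 => ⟨v0, p0, by linarith, c4 ▸ e⟩⟩
    rw [Gv, v0]; simp only [norm_zero]; linarith [this.2]
  rcases t1.eq_or_lt with t1 | t1
  · -- `θ = π/2`
    have a : S = 1 := by rw [hS, t1, sin_pi_div_two]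
    have a' : C = 0 := by rw [hC, t1, cos_pi_div_two]
    rw [h.th_d0 τ (Or.inr t1)] at Te
    rw [a, a'] at Ww Vr Gv
    have w0 : w = 0 := by
      have : ‖w‖ ^ 2 = 0 := by
        have : 0 < 1 ^ 2 + T := by rw [Te]; linarith
        nlinarith [sq_nonneg ‖w‖]
      simpa using this
    by_cases T0 : T = 0
    · have e : st (10 * (τ - c)) = 1 / 1000000 := by rw [T0] at Te; linarith
      have := Ee_leC h hM.c0 e
      refine Or.inr ⟨?_, fun c4 => ?_⟩
      · rw [Gv, w0]; simp only [norm_zero]; linarith [this.2]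
      · have u := h.th_hi τ (by linarith [this.1])
        linarith [pi_pos]
    · have : ‖v‖ ^ 2 = 0 := by
        have : T * ‖v‖ ^ 2 = 0 := by linarith
        exact (mul_eq_zero.1 this).resolve_left T0
      have v0 : v = 0 := by simpa using this
      have : τ = 0 := by rw [τe, v0, w0]; simp
      rw [this] at q0
      refine Or.inl ?_
      rw [v0, w0, p0, show q = -b by linarith]
  have lo : 1 < τ := by
    by_contra n
    exact t1.ne (h.th_lo τ (not_lt.1 n))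
  have hi : τ < 3 := by
    by_contra n
    exact t0.ne' (h.th_hi τ (not_lt.1 n))
  have S0 : 0 < S := sin_pos_of_pos_of_lt_pi t0 (by linarith [pi_pos])
  have C0 : 0 < C := cos_pos_of_mem_Ioo ⟨by linarith [pi_pos], t1⟩
  -- the rigid case
  have rig : v ≠ 0 → ‖M v‖ = ‖v‖ → fderiv ℝ M v v = M v →
      G M c b (v, w, p, q) ≤ -(9 / 1000) ∧ c ≠ 4 := fun v0 n1 n2 => by
    have Wm := W (M v)
    rw [real_inner_self_eq_norm_sq, n1, real_inner_comm] at Wm
    rw [n2] at Vr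
    set m := ⟪M v, w⟫
    have vp : 0 < ‖v‖ ^ 2 := by positivity
    have k : T * (1 + T) = 0 := by
      have : (T * (1 + T)) * ‖v‖ ^ 2 = 0 := by
        linear_combination (S ^ 2 + T) * Vr + S * C * Wm - T * ‖v‖ ^ 2 * one
      exact (mul_eq_zero.1 this).resolve_right vp.ne'
    rcases mul_eq_zero.1 k with k | k
    · rw [k] at Vr Ww
      have a : C * ‖v‖ ^ 2 = S * m := mul_left_cancel₀ C0.ne' (by linarith)
      have a' : S * ‖w‖ ^ 2 = C * m := mul_left_cancel₀ S0.ne' (by linarith)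
      have br : 2 * S * C * (‖w‖ ^ 2 - ‖v‖ ^ 2) - 2 * (C ^ 2 - S ^ 2) * m = 0 := by
        linear_combination 2 * C * a' - 2 * S * a
      rw [br, k] at Te
      have e : st (10 * (τ - c)) = 1 / 1000000 := by linarith
      have := Ee_leC h hM.c0 e
      exact ⟨by rw [Gv]; linarith [this.2], fun c4 => by linarith [this.1]⟩
    · have k : T = -1 := by linarith
      rw [k] at Vr Ww
      have : C ^ 2 * ‖v‖ ^ 2 + S ^ 2 * ‖w‖ ^ 2 - 2 * S * C * m = τ := by
        rw [τe]; linear_combination Vr + Ww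
      rw [Gv, this] at hG
      linarith
  suffices a : G M c b (v, w, p, q) ≤ -(9 / 1000) ∧ c ≠ 4 from
    Or.inr ⟨a.1, fun c4 => absurd c4 a.2⟩
  rcases hM.alt with ⟨c4, hA⟩ | ⟨J, rfl⟩
  · by_cases n : 1 / 10000 < ‖v‖
    · exact rig (by rintro rfl; norm_num at n) (hA v n).1 (hA v n).2
    · exfalso
      have z1 : st (10 * (τ - c)) = 0 := Real.smoothTransition.zero_of_nonpos (by linarith)
      rw [z1] at Te
      have d1 := Real.smoothTransition.le_one (3 - τ)
      have d2 := Real.smoothTransition.nonneg (2 - τ)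
      refine thin (D := π / 2 * (st (3 - τ) - st (2 - τ))) (θ := th τ) (m := ⟪M v, w⟫) S0 C0 one
        (norm_nonneg v) (not_lt.1 n) (norm_nonneg w) (τe ▸ lo) (τe ▸ hi)
        ((abs_real_inner_le_norm _ _).trans (mul_le_mul_of_nonneg_right (hM.le v) (norm_nonneg _)))
        (by nlinarith [pi_le_four, pi_pos]) (sin_le t0.le) (fun s => h.th_sm τ ?_)
        (by rw [← τe]; linarith) (by rw [← Ww, Te]; ring)
      by_contra n'
      have a := sin_le_sin_of_le_of_le_pi_div_two (by linarith [pi_pos]) t1.le (not_lt.1 n')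
      rw [sin_pi_div_four] at a
      have : 1 ≤ √2 := Real.one_le_sqrt.2 (by norm_num)
      linarith
  · have fd : ∀ a, fderiv ℝ (J : V → V) v a = J a := fun a => by
      rw [show (J : V → V) = J.toContinuousLinearEquiv.toContinuousLinearMap from rfl,
        ContinuousLinearMap.fderiv]
    by_cases v0 : v = 0
    · exfalso
      have a := Vv (J.symm w)
      rw [fd, v0, inner_zero_left, J.apply_symm_apply, real_inner_self_eq_norm_sq] at a
      have : ‖w‖ ^ 2 = 0 := by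
        have : S * C * ‖w‖ ^ 2 = 0 := by linarith
        exact (mul_eq_zero.1 this).resolve_left (mul_pos S0 C0).ne'
      rw [τe, this, v0] at lo
      norm_num at lo
    · exact rig v0 (J.norm_map v) (fd v)

end

end Crest.Agent.N218.P
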