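import Crest.Agent.N218.P.Defs

/-!
# Row 218, leaf DESC (helper99): invariant functions descend to the labels
-/

set_option autoImplicit false
open Set Real Filter Topology
open scoped ContDiff RealInnerProductSpace ComplexConjugate

namespace Crest.Agent.N218.P
open A Sh

namespace Ds

theorem nV (a : V) : ‖a‖ ^ 2 =
    (a 0).re ^ 2 + (a 0).im ^ 2 + ((a 1).re ^ 2 + (a 1).im ^ 2) := by
  rw [EuclideanSpace.norm_sq_eq, Fin.sum_univ_two, Complex.sq_norm, Complex.sq_norm,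
    Complex.normSq_apply, Complex.normSq_apply]; ring

theorem nC (z : ℂ) : ‖z‖ ^ 2 = z.re ^ 2 + z.im ^ 2 := by
  rw [Complex.sq_norm, Complex.normSq_apply]; ring

theorem n3 (y : E 3) : ‖y‖ ^ 2 = y 0 ^ 2 + y 1 ^ 2 + y 2 ^ 2 := by
  rw [EuclideanSpace.norm_sq_eq, Fin.sum_univ_three]; simp

theorem i3 (x y : E 3) : ⟪x, y⟫ = x 0 * y 0 + x 1 * y 1 + x 2 * y 2 := by
  rw [PiLp.inner_apply, Fin.sum_univ_three]; simp; ring

theorem H0 (a : V) : Hf a 0 = 2 * ((a 0).re * (a 1).re + (a 0).im * (a 1).im) := by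
  simp [Hf]
theorem H1 (a : V) : Hf a 1 = 2 * ((a 0).re * (a 1).im - (a 0).im * (a 1).re) := by
  simp [Hf]; ring
theorem H2 (a : V) : Hf a 2 =
    (a 0).re ^ 2 + (a 0).im ^ 2 - ((a 1).re ^ 2 + (a 1).im ^ 2) := by
  have : Hf a 2 = ‖a 0‖ ^ 2 - ‖a 1‖ ^ 2 := by simp [Hf]
  rw [this, nC, nC]

theorem det (a b : V) :
    2 * ‖a 0 * b 1 - a 1 * b 0‖ ^ 2 = ‖a‖ ^ 2 * ‖b‖ ^ 2 - ⟪Hf a, Hf b⟫ := by
  rw [nC, nV, nV, i3, H0, H0, H1, H1, H2, H2]; simp; ring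

theorem her (a b : V) :
    2 * ‖conj (a 0) * b 0 + conj (a 1) * b 1‖ ^ 2 = ‖a‖ ^ 2 * ‖b‖ ^ 2 + ⟪Hf a, Hf b⟫ := by
  rw [nC, nV, nV, i3, H0, H0, H1, H1, H2, H2]; simp; ring

theorem nH (a : V) : ‖Hf a‖ = ‖a‖ ^ 2 := by
  have h : ‖Hf a‖ ^ 2 = (‖a‖ ^ 2) ^ 2 := by rw [n3, nV, H0, H1, H2]; ring
  exact (pow_left_inj₀ (norm_nonneg _) (by positivity) two_ne_zero).1 h

theorem Hsm (t : ℝ) (a : V) : Hf (t • a) = t ^ 2 • Hf a := by
  ext i; fin_cases i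
  · show Hf (t • a) 0 = t ^ 2 * Hf a 0
    rw [H0, H0]; simp; ring
  · show Hf (t • a) 1 = t ^ 2 * Hf a 1
    rw [H1, H1]; simp; ring
  · show Hf (t • a) 2 = t ^ 2 * Hf a 2
    rw [H2, H2]; simp; ring

/-- `a` is a unit spinor over the direction of `y` -/
def Up (y : E 3) (a : V) : Prop := ‖a‖ = 1 ∧ ‖y‖ • Hf a = y

theorem up_of {y : E 3} {p : V} {l : ℝ} (hy : y ≠ 0) (hl : 0 < l) (h : Hf p = l • y) :
    p ≠ 0 ∧ Up y (‖p‖⁻¹ • p) := by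
  have hy' : 0 < ‖y‖ := norm_pos_iff.2 hy
  have e : ‖p‖ ^ 2 = l * ‖y‖ := by rw [← nH, h, norm_smul, Real.norm_of_nonneg hl.le]
  have hp : ‖p‖ ≠ 0 := by
    intro h0; rw [h0] at e; have := mul_pos hl hy'; linarith [e]
  refine ⟨norm_ne_zero_iff.1 hp, ?_, ?_⟩
  · rw [norm_smul, norm_inv, norm_norm, inv_mul_cancel₀ hp]
  · rw [Hsm, h, smul_smul, smul_smul, inv_pow, e]
    have : ‖y‖ * (l * ‖y‖)⁻¹ * l = 1 := by field_simp
    rw [this, one_smul]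

noncomputable def p0 (y : E 3) : V := !₂[((‖y‖ + y 2 : ℝ) : ℂ), (y 0 : ℂ) + (y 1 : ℂ) * Complex.I]
noncomputable def p1 (y : E 3) : V := !₂[(y 0 : ℂ) - (y 1 : ℂ) * Complex.I, ((‖y‖ - y 2 : ℝ) : ℂ)]

theorem Hp0 (y : E 3) : Hf (p0 y) = (2 * (‖y‖ + y 2)) • y := by
  have := n3 y
  ext i; fin_cases i
  · show Hf (p0 y) 0 = (2 * (‖y‖ + y 2)) * y 0
    rw [H0]; simp [p0]; ring
  · show Hf (p0 y) 1 = (2 * (‖y‖ + y 2)) * y 1
    rw [H1]; simp [p0]; ring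
  · show Hf (p0 y) 2 = (2 * (‖y‖ + y 2)) * y 2
    rw [H2]; simp [p0]; nlinarith

theorem Hp1 (y : E 3) : Hf (p1 y) = (2 * (‖y‖ - y 2)) • y := by
  have := n3 y
  ext i; fin_cases i
  · show Hf (p1 y) 0 = (2 * (‖y‖ - y 2)) * y 0
    rw [H0]; simp [p1]; ring
  · show Hf (p1 y) 1 = (2 * (‖y‖ - y 2)) * y 1
    rw [H1]; simp [p1]; ring
  · show Hf (p1 y) 2 = (2 * (‖y‖ - y 2)) * y 2
    rw [H2]; simp [p1]; nlinarith

theorem cR : ContDiff ℝ ∞ (fun t : ℝ => (t : ℂ)) := Complex.ofRealCLM.contDiff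

theorem cy (i : Fin 3) : ContDiff ℝ ∞ (fun y : E 3 => y i) := contDiff_piLp_apply 2

theorem sm0 {y : E 3} (hy : y ≠ 0) : ContDiffAt ℝ ∞ p0 y := by
  refine contDiffAt_piLp' 2 (fun i => ?_)
  fin_cases i
  · exact cR.contDiffAt.comp y ((contDiffAt_norm ℝ hy).add (cy 2).contDiffAt)
  · exact ((cR.comp (cy 0)).add ((cR.comp (cy 1)).mul contDiff_const)).contDiffAt

theorem sm1 {y : E 3} (hy : y ≠ 0) : ContDiffAt ℝ ∞ p1 y := by
  refine contDiffAt_piLp' 2 (fun i => ?_)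
  fin_cases i
  · exact ((cR.comp (cy 0)).sub ((cR.comp (cy 1)).mul contDiff_const)).contDiffAt
  · exact cR.contDiffAt.comp y ((contDiffAt_norm ℝ hy).sub (cy 2).contDiffAt)

theorem loc_of {y : E 3} (hy : y ≠ 0) (p : E 3 → V) (l : E 3 → ℝ) (hp : ContDiffAt ℝ ∞ p y)
    (hl : Continuous l) (h0 : 0 < l y) (h : ∀ x, Hf (p x) = l x • x) :
    ∃ σ : E 3 → V, ContDiffAt ℝ ∞ σ y ∧ ∀ᶠ x in 𝓝 y, Up x (σ x) := by
  have hne := (up_of hy h0 (h y)).1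
  refine ⟨fun x => ‖p x‖⁻¹ • p x, ?_, ?_⟩
  · exact ((hp.norm ℝ hne).inv (norm_ne_zero_iff.2 hne)).smul hp
  · filter_upwards [isOpen_ne.mem_nhds hy, (isOpen_lt continuous_const hl).mem_nhds h0] with x h1 h2
    exact (up_of h1 h2 (h x)).2

theorem loc {y : E 3} (hy : y ≠ 0) :
    ∃ σ : E 3 → V, ContDiffAt ℝ ∞ σ y ∧ ∀ᶠ x in 𝓝 y, Up x (σ x) := by
  have hy' : 0 < ‖y‖ := norm_pos_iff.2 hy
  rcases le_total 0 (y 2) with h | h
  · exact loc_of hy p0 (fun x => 2 * (‖x‖ + x 2)) (sm0 hy) (by fun_prop) (by positivity) Hp0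
  · exact loc_of hy p1 (fun x => 2 * (‖x‖ - x 2)) (sm1 hy) (by fun_prop) (by
      show 0 < 2 * (‖y‖ - y 2); linarith) Hp1

theorem ex {y : E 3} (hy : y ≠ 0) : ∃ a, Up y a := by
  obtain ⟨σ, -, h⟩ := loc hy
  exact ⟨_, h.self_of_nhds⟩

theorem Up.inn {y y' : E 3} {a b : V} (h : Up y a) (h' : Up y' b) :
    ‖y‖ * ‖y'‖ * ⟪Hf a, Hf b⟫ = ⟪y, y'⟫ := by
  conv_rhs => rw [← h.2, ← h'.2]
  rw [real_inner_smul_left, real_inner_smul_right]; ring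

theorem uniq {y : E 3} {a b : V} (hy : y ≠ 0) (h : Up y a) (h' : Up y b) :
    ∃ c : ℂ, ‖c‖ = 1 ∧ b 0 = c * a 0 ∧ b 1 = c * a 1 := by
  have hy' : 0 < ‖y‖ := norm_pos_iff.2 hy
  have e : ⟪Hf a, Hf b⟫ = (1 : ℝ) := by
    have := h.inn h'
    rw [real_inner_self_eq_norm_mul_norm] at this
    have h2 : ‖y‖ * ‖y‖ * (⟪Hf a, Hf b⟫ - 1) = 0 := by linarith
    rcases mul_eq_zero.1 h2 with h3 | h3
    · exact absurd h3 (by positivity)
    · linarith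
  have d := det a b
  have k := her a b
  rw [h.1, h'.1, e] at d k
  have d0 : a 0 * b 1 - a 1 * b 0 = 0 := by
    have : ‖a 0 * b 1 - a 1 * b 0‖ ^ 2 = 0 := by linarith
    simpa using this
  have n1 : conj (a 0) * a 0 + conj (a 1) * a 1 = 1 := by
    have := nV a
    rw [h.1] at this
    apply Complex.ext <;> simp <;> nlinarith
  refine ⟨conj (a 0) * b 0 + conj (a 1) * b 1, ?_, ?_, ?_⟩
  · have : ‖conj (a 0) * b 0 + conj (a 1) * b 1‖ ^ 2 = 1 ^ 2 := by linarith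
    exact (pow_left_inj₀ (norm_nonneg _) zero_le_one two_ne_zero).1 this
  · linear_combination (-b 0) * n1 - conj (a 1) * d0
  · linear_combination (-b 1) * n1 + conj (a 0) * d0

theorem le1 {a : V} (h : ‖a‖ = 1) (i : Fin 2) : ‖a i‖ ≤ 1 := h ▸ PiLp.norm_apply_le a i

theorem bd {y y' : E 3} {a b : V} (s : ℝ) (h : Up y a) (h' : Up y' b) (hp : 0 < ⟪y, y'⟫) :
    1 / 4 ≤ ‖(lab s a b).2‖ ∧ ‖(lab s a b).2‖ ≤ 1 := by
  have e : 0 ≤ ⟪Hf a, Hf b⟫ := by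
    by_contra hn
    have := h.inn h'
    have h2 := mul_nonneg (norm_nonneg y) (norm_nonneg y')
    nlinarith
  have k := her a b
  rw [h.1, h'.1] at k
  have t : ‖conj (a 0) * b 0 + conj (a 1) * b 1‖ ≤ ‖a 0 * b 0‖ + ‖a 1 * b 1‖ := by
    refine (norm_add_le _ _).trans (le_of_eq ?_)
    simp
  have m0 : ‖a 0 * b 0‖ ≤ ‖(lab s a b).2‖ := norm_fst_le (lab s a b).2
  have m1 : ‖a 1 * b 1‖ ≤ ‖(lab s a b).2‖ := norm_snd_le (lab s a b).2
  constructor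
  · by_contra hn
    have := norm_nonneg (conj (a 0) * b 0 + conj (a 1) * b 1)
    nlinarith
  · show max ‖a 0 * b 0‖ ‖a 1 * b 1‖ ≤ 1
    rw [norm_mul, norm_mul]
    exact max_le (mul_le_one₀ (le1 h.1 0) (norm_nonneg _) (le1 h'.1 0))
      (mul_le_one₀ (le1 h.1 1) (norm_nonneg _) (le1 h'.1 1))

theorem N0_inn {n : E 3 × E 3} (hn : n ∈ N0) : ⟪n.1, n.1 + n.2⟫ = (1 : ℝ) := by
  rw [inner_add_right, real_inner_self_eq_norm_sq, hn.1, hn.2]; norm_num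

theorem ne_of {y y' : E 3} (h : 0 < ⟪y, y'⟫) : y ≠ 0 ∧ y' ≠ 0 := by
  constructor <;> rintro rfl <;> simp at h

theorem ov_iff {n : E 3 × E 3} (hn : n ∈ N0) {a b : V} :
    Ov n a b ↔ Up n.1 a ∧ Up (n.1 + n.2) b := by
  unfold Ov Up; rw [hn.1, one_smul]; tauto

theorem le_of_sq_le_sq' {a b : ℝ} (h : a ^ 2 ≤ b ^ 2) (hb : 0 ≤ b) : a ≤ b :=
  (abs_le_of_sq_le_sq' h hb).2

theorem far0 {δ : ℝ} (hδ : 0 < δ) : ∃ s : ℝ, 3 ≤ s ∧ ∀ a b : V, ‖a‖ = 1 → ‖b‖ = 1 →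
    ⟪Hf a, Hf b⟫ ≤ 1 - δ → 3 ≤ ‖(lab s a b).1‖ := by
  refine ⟨3 + 18 / δ, by have := div_pos (by norm_num : (0:ℝ) < 18) hδ; linarith,
    fun a b h h' e2 => ?_⟩
  have d := det a b
  rw [h, h'] at d
  set t := 18 / δ with ht
  have t0 : 0 < t := div_pos (by norm_num) hδ
  have t1 : t * δ = 18 := div_mul_cancel₀ _ hδ.ne'
  show 3 ≤ ‖((3 + t : ℝ) : ℂ) * (a 0 * b 1 - a 1 * b 0)‖
  rw [norm_mul, Complex.norm_real, Real.norm_of_nonneg (by linarith)]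
  set D := ‖a 0 * b 1 - a 1 * b 0‖
  have D0 : 0 ≤ D := norm_nonneg _
  have D2 : 9 ≤ t * D ^ 2 := by nlinarith
  refine le_of_sq_le_sq' ?_ (by positivity)
  nlinarith [mul_nonneg t0.le (sq_nonneg D), mul_nonneg (mul_nonneg t0.le t0.le) (sq_nonneg D)]

theorem far {ρ : ℝ} (hρ : 0 < ρ) : ∃ s : ℝ, 3 ≤ s ∧ (∀ a b : V, ‖a‖ = 1 → ‖b‖ = 1 →
    ⟪Hf a, Hf b⟫ ≤ 0 → 3 ≤ ‖(lab s a b).1‖) ∧ ∀ n ∈ N0, ∀ a b, Ov n a b → ρ ≤ ‖n.2‖ →
    3 ≤ ‖(lab s a b).1‖ := by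
  set q := √(1 + ρ ^ 2) with hq
  have q1 : 1 < q := by rw [hq, Real.lt_sqrt zero_le_one]; nlinarith
  have q2 : q ^ 2 = 1 + ρ ^ 2 := Real.sq_sqrt (by positivity)
  have hδ : 0 < 1 - q⁻¹ := by have := inv_lt_one_of_one_lt₀ q1; linarith
  obtain ⟨s, s3, hs⟩ := far0 hδ
  have q0 : 0 < q⁻¹ := inv_pos.2 (by linarith)
  refine ⟨s, s3, fun a b h h' e => hs a b h h' (by linarith), fun n hn a b ho hz => ?_⟩
  obtain ⟨h, h'⟩ := (ov_iff hn).1 ho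
  have e := h.inn h'
  rw [N0_inn hn, hn.1, one_mul] at e
  have R2 : ‖n.1 + n.2‖ ^ 2 = 1 + ‖n.2‖ ^ 2 := by
    rw [norm_add_sq_real, hn.1, hn.2]; ring
  have Rq : q ≤ ‖n.1 + n.2‖ := by
    refine le_of_sq_le_sq' ?_ (norm_nonneg _); nlinarith
  have e2 : ⟪Hf a, Hf b⟫ ≤ q⁻¹ := by
    have : ⟪Hf a, Hf b⟫ = ‖n.1 + n.2‖⁻¹ := (eq_inv_of_mul_eq_one_right e)
    rw [this]; exact inv_anti₀ (by linarith) Rq
  exact hs a b h.1 h'.1 (by linarith)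

theorem cv (i : Fin 2) : ContDiff ℝ ∞ (fun a : V => a i) := contDiff_piLp_apply 2

theorem lab_sm (s : ℝ) : ContDiff ℝ ∞ (fun p : V × V => lab s p.1 p.2) := by
  have a := fun i => (cv i).comp (contDiff_fst : ContDiff ℝ ∞ (Prod.fst : V × V → V))
  have b := fun i => (cv i).comp (contDiff_snd : ContDiff ℝ ∞ (Prod.snd : V × V → V))
  exact (contDiff_const.mul (((a 0).mul (b 1)).sub ((a 1).mul (b 0)))).prodMk
    (((a 0).mul (b 0)).prodMk ((a 1).mul (b 1)))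

open Classical in
/-- some unit spinor over `y` -/
noncomputable def ch (y : E 3) : V := if h : y ≠ 0 then (ex h).choose else 0

theorem ch_up {y : E 3} (h : y ≠ 0) : Up y (ch y) := by
  unfold ch; rw [dif_pos h]; exact (ex h).choose_spec

/-- the cutoff on the labels -/
noncomputable def cut (ρ : ℝ) (n : E 3 × E 3) : ℝ :=
  Real.smoothTransition (2 * ⟪n.1, n.1 + n.2⟫ - 1) *
    Real.smoothTransition ((4 * ρ ^ 2 - ‖n.2‖ ^ 2) / (3 * ρ ^ 2))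

theorem ci : ContDiff ℝ ∞ (fun n : E 3 × E 3 => ⟪n.1, n.1 + n.2⟫) :=
  contDiff_fst.inner ℝ (contDiff_fst.add contDiff_snd)

theorem cut_sm (ρ : ℝ) : ContDiff ℝ ∞ (cut ρ) :=
  (Real.smoothTransition.contDiff.comp ((contDiff_const.mul ci).sub contDiff_const)).mul
    (Real.smoothTransition.contDiff.comp
      ((contDiff_const.sub (contDiff_snd.norm_sq ℝ)).div_const _))

theorem cut_lo (ρ : ℝ) {n : E 3 × E 3} (h : ⟪n.1, n.1 + n.2⟫ ≤ (1 / 2 : ℝ)) : cut ρ n = 0 := by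
  unfold cut; rw [Real.smoothTransition.zero_of_nonpos (x := _ - _) (by linarith), zero_mul]

end Ds
open Ds

theorem desc : DESC := by
  intro ρ hρ
  obtain ⟨s, s3, hs0, hs⟩ := far hρ
  have pos : ∀ n ∈ N0, 0 < ⟪n.1, n.1 + n.2⟫ := fun n hn => by rw [N0_inn hn]; exact one_pos
  refine ⟨s, s3, fun n hn => ?_, hs0, fun n hn a b ho => ⟨hs n hn a b ho, ?_⟩,
    fun U W _ _ _ _ Φ hΦ hi hz => ?_⟩
  · exact ⟨_, _, (ov_iff hn).2 ⟨ch_up (ne_of (pos n hn)).1, ch_up (ne_of (pos n hn)).2⟩⟩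
  · exact bd s ((ov_iff hn).1 ho).1 ((ov_iff hn).1 ho).2 (pos n hn)
  have key : ∀ (y y' : E 3) a a' b b' u, y ≠ 0 → y' ≠ 0 → Up y a → Up y a' → Up y' b → Up y' b' →
      Φ (lab s a' b', u) = Φ (lab s a b, u) := by
    intro y y' a a' b b' u hy hy' h1 h2 h3 h4
    obtain ⟨c, hc, c0, c1⟩ := uniq hy h1 h2
    obtain ⟨d, hd, d0, d1⟩ := uniq hy' h3 h4
    have := hi (c * d) (lab s a b).1 (lab s a b).2.1 (lab s a b).2.2 u (by rw [norm_mul, hc, hd, one_mul])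
    refine Eq.trans ?_ this
    congr 2
    simp only [lab, c0, c1, d0, d1, Prod.mk.injEq]
    refine ⟨by ring, by ring, by ring⟩
  refine ⟨fun z => cut ρ z.1 • Φ (lab s (ch z.1.1) (ch (z.1.1 + z.1.2)), z.2), ?_, ?_, ?_, ?_⟩
  · rw [contDiff_iff_contDiffAt]
    rintro ⟨n, u⟩
    have cc : Continuous (fun z : (E 3 × E 3) × U => ⟪z.1.1, z.1.1 + z.1.2⟫) :=
      ci.continuous.comp continuous_fst
    by_cases h : 0 < ⟪n.1, n.1 + n.2⟫
    · obtain ⟨h1, h2⟩ := ne_of h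
      obtain ⟨σ, hσ, eσ⟩ := loc h1
      obtain ⟨τ, hτ, eτ⟩ := loc h2
      have f1 : ContDiff ℝ ∞ (fun z : (E 3 × E 3) × U => z.1.1) := contDiff_fst.fst
      have f2 : ContDiff ℝ ∞ (fun z : (E 3 × E 3) × U => z.1.1 + z.1.2) :=
        contDiff_fst.fst.add contDiff_fst.snd
      have g1 : ContDiffAt ℝ ∞ (fun z : (E 3 × E 3) × U =>
          (lab s (σ z.1.1) (τ (z.1.1 + z.1.2)), z.2)) (n, u) :=
        ((lab_sm s).contDiffAt.comp (n, u)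
          ((hσ.comp (n, u) f1.contDiffAt).prodMk (hτ.comp (n, u) f2.contDiffAt))).prodMk
          contDiffAt_snd
      have ne : (lab s (σ n.1) (τ (n.1 + n.2))).2 ≠ 0 := by
        intro h0
        have := (bd s eσ.self_of_nhds eτ.self_of_nhds h).1
        rw [h0, norm_zero] at this; norm_num at this
      have op : IsOpen {z : (ℂ × ℂ × ℂ) × U | z.1.2 ≠ 0} :=
        isOpen_ne.preimage (continuous_fst.snd)
      have g2 := (hΦ.contDiffAt (op.mem_nhds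
        (show (lab s (σ n.1) (τ (n.1 + n.2)), u) ∈ {z : (ℂ × ℂ × ℂ) × U | z.1.2 ≠ 0} from ne))).comp
          (n, u) g1
      refine ((((cut_sm ρ).comp contDiff_fst).contDiffAt).smul g2).congr_of_eventuallyEq ?_
      filter_upwards [f1.continuous.continuousAt.eventually eσ,
        f2.continuous.continuousAt.eventually eτ,
        (isOpen_lt continuous_const cc).mem_nhds (show (n, u) ∈ _ from h)] with z z1 z2 z3
      obtain ⟨k1, k2⟩ := ne_of z3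
      show _ = cut ρ z.1 • Φ (lab s (σ z.1.1) (τ (z.1.1 + z.1.2)), z.2)
      rw [key _ _ _ _ _ _ z.2 k1 k2 z1 (ch_up k1) z2 (ch_up k2)]
    · refine (contDiffAt_const (c := (0 : W))).congr_of_eventuallyEq ?_
      filter_upwards [(isOpen_lt cc (continuous_const (y := (1 / 2 : ℝ)))).mem_nhds
        (show (n, u) ∈ _ from lt_of_le_of_lt (not_lt.1 h) (by norm_num))] with z hz'
      rw [cut_lo ρ (le_of_lt hz'), zero_smul]
  · intro n u h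
    have : cut ρ n = 0 := by
      unfold cut
      rw [Real.smoothTransition.zero_of_nonpos (x := _ / _)
        (div_nonpos_of_nonpos_of_nonneg (by nlinarith) (by positivity)), mul_zero]
    show cut ρ n • _ = 0
    rw [this, zero_smul]
  · intro n u h
    show cut ρ n • Φ (lab s (ch n.1) (ch (n.1 + n.2)), u) = 0
    by_cases hp : 0 < ⟪n.1, n.1 + n.2⟫
    · obtain ⟨k1, k2⟩ := ne_of hp
      have := bd s (ch_up k1) (ch_up k2) hp
      rw [h _ this.1 this.2, smul_zero]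
    · rw [cut_lo ρ ((not_lt.1 hp).trans (by norm_num)), zero_smul]
  · intro n hn a b u ho
    show cut ρ n • Φ (lab s (ch n.1) (ch (n.1 + n.2)), u) = _
    obtain ⟨k1, k2⟩ := ne_of (pos n hn)
    obtain ⟨h1, h2⟩ := (ov_iff hn).1 ho
    rw [key _ _ _ _ _ _ u k1 k2 h1 (ch_up k1) h2 (ch_up k2)]
    rcases le_total ρ ‖n.2‖ with h | h
    · rw [hz _ u (hs n hn a b ho h), smul_zero]
    · have : cut ρ n = 1 := by
        unfold cut
        rw [N0_inn hn, Real.smoothTransition.one_of_one_le (x := 2 * 1 - 1) (by norm_num),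
          Real.smoothTransition.one_of_one_le (x := _ / _), one_mul]
        rw [le_div_iff₀ (by positivity)]
        nlinarith [norm_nonneg n.2]
      rw [this, one_smul]

end Crest.Agent.N218.P
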