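import Crest.Agent.N218.P.Shape

/-!
# Row 218, block A4 (helper77): the data before the family is assembled
-/

set_option autoImplicit false
open Set
open scoped ContDiff RealInnerProductSpace

namespace Crest.Agent.N218.P
open A Sh

noncomputable section

/-- all data of `Shape` but the family, plus the descended function `f` and the pole `e` -/
structure Pre (Λ : ℝ) where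
  M : ℂ × V → V
  σ : ℂ × ℂ → (Y →L[ℝ] Y)
  σ' : ℂ × ℂ → (Y →L[ℝ] Y)
  j : Y ≃L[ℝ] (E 8 × ℝ) × ℝ
  i : Y ≃ₗᵢ[ℝ] Eu 9
  S : Sht
  s : ℝ
  ε : ℝ
  w : ℝ
  C : ℝ
  C' : ℝ
  A : ℝ
  K : ℝ
  p : ℝ → ℝ
  rY : Y → Y
  R : (ℂ × ℂ × ℂ) × Y → Y
  g : (E 3 × E 3) × Y → Y
  π : Eu 11 →L[ℝ] E 8 × E 3
  e' : Eu 11
  hM : Mz M
  hL : LF (F M)
  hF : Fr σ σ' j
  hS : TotOf S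
  ε0 : 0 < ε
  ε1 : ε ≤ 1 / 100
  A1 : 1 ≤ A
  small : ε * A * Λ ≤ S.r / 4
  εA : ε * A ≤ 1 / 4
  εΛ : ε * A * Λ ≤ 1 / 4
  A30 : 30 ≤ A
  CA : C ≤ A
  w0 : 0 < w
  w1 : w ≤ 1 / 1000
  hb : BR ev (ε * w) C' p rY
  hp : Pp w 30 (pl ε p)
  hR : LR (F M) w C (pl ε p) R
  ov : ∀ n ∈ N0, ∃ a b, Ov n a b
  far : ∀ a b : V, ‖a‖ = 1 → ‖b‖ = 1 → ⟪Hf a, Hf b⟫ ≤ 0 → 3 ≤ ‖(lab s a b).1‖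
  al : ∀ n ∈ N0, ∀ a b, Ov n a b → 1 / 4 ≤ ‖(lab s a b).2‖ ∧ ‖(lab s a b).2‖ ≤ 1
  gs : ContDiff ℝ ∞ g
  g0 : ∀ n η, S.r / 2 ≤ ‖n.2‖ ∨ A ≤ ‖η‖ → g (n, η) = 0
  gb : ∀ n ∈ N0, ∀ η, ‖g (n, η)‖ ≤ A
  gv : ∀ n ∈ N0, ∀ a b η, Ov n a b → g (n, η) =
    σ' (lab s a b).2 (R (lab s a b, σ (lab s a b).2 η)) - piH (pl ε p) η
  e1 : ‖e'‖ = 1
  K0 : 0 < K
  πn : ∀ x, ‖(π x).1‖ ^ 2 + ‖(π x).2‖ ^ 2 = K ^ 2 * (‖x‖ ^ 2 - ⟪e', x⟫ ^ 2)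
  πs : Function.Surjective π
  sup : ∀ z ∈ S.O, ‖(S.W z).2‖ ≤ S.r / 2 → ‖S.H z‖ ≤ S.r / 2 →
    ‖z.1.1‖ ^ 2 + ‖z.1.2‖ ^ 2 ≤ K ^ 2 / 4
  f : (E 3 × E 3) × Y → ℝ
  e : Eu 11
  KF : ℝ
  C0 : 0 ≤ C
  hK : ∀ α, 1 / 4 ≤ ‖α‖ → ‖α‖ ≤ 1 → ‖σ α‖ ≤ KF ∧ ‖σ' α‖ ≤ KF
  ee : ‖e‖ = 1
  oe : ⟪e, e'⟫ = 0
  Ar : ε * A ≤ S.r / 4
  fs : ContDiff ℝ ∞ f
  f0 : ∀ n η, S.r / 2 ≤ ‖n.2‖ ∨ A ≤ ‖η‖ → f (n, η) = 0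
  fv : ∀ n ∈ N0, ∀ a b η, Ov n a b → f (n, η) = F M ((lab s a b).1, σ (lab s a b).2 η) - u1 η

/-- leaf FAM -/
def FAM : Prop := BO → ∀ (Λ : ℝ) (h : Pre Λ), ∃ Φ : Fam, ∀ x η, ‖x‖ = 1 →
  Φ.r (x, h.i η) = h.i (h.rY η + if 0 < ⟪h.e', x⟫ then
    h.S.ex (sc h.j h.ε h.g) ((h.π x, (h.j η).1), (h.j η).2) else 0)

/-- leaf PRE -/
def PRE : Prop := ∀ Λ : ℝ, 1 ≤ Λ → Nonempty (Pre Λ)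

theorem a4_of (hB : BO) (hF : FAM) (hP : PRE) : A4 := fun Λ h1 => by
  obtain ⟨h⟩ := hP Λ h1
  obtain ⟨Φ, e⟩ := hF hB Λ h
  exact ⟨Φ, ⟨⟨h.M, h.σ, h.σ', h.j, h.i, h.S, h.s, h.ε, h.w, h.C, h.C', h.A, h.K, h.p, h.rY, h.R,
    h.g, h.π, h.e', h.hM, h.hL, h.hF, h.hS, h.ε0, h.ε1, h.A1, h.small, h.εA, h.εΛ, h.A30, h.CA, h.w0, h.w1, h.hb,
    h.hp, h.hR, h.ov, h.far, h.al, h.gs, h.g0, h.gb, h.gv, h.e1, h.K0, h.πn, h.πs, h.sup, e⟩⟩⟩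

end

end Crest.Agent.N218.P
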