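import Crest.Agent.N218.P.Defs

/-!
# Row 218, block P: the frame `FR` (helper17)
-/

set_option autoImplicit false
open Set Real
open scoped ContDiff RealInnerProductSpace ComplexConjugate

namespace Crest.Agent.N218.P
open A Sh

noncomputable section

namespace FrK

/-- the frame as a function -/
def sf (α : ℂ × ℂ) (η : Y) : Y :=
  !₂[α.1 ^ 2 * η 1 + α.2 ^ 2 * η 2, α.1 ^ 3 * η 2 + α.2 ^ 3 * η 3, α.1 * η 0 + α.2 * η 1,
    -α.2 ^ 6 * conj (η 0) + α.1 * α.2 ^ 5 * conj (η 1) - α.1 ^ 3 * α.2 ^ 3 * conj (η 2) +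
      α.1 ^ 6 * conj (η 3), η 4]

def sl (α : ℂ × ℂ) : Y →ₗ[ℝ] Y where
  toFun := sf α
  map_add' x y := by
    ext i; fin_cases i <;> simp [sf] <;> ring
  map_smul' t x := by
    ext i; fin_cases i <;> simp [sf] <;> ring

def sg (α : ℂ × ℂ) : Y →L[ℝ] Y := LinearMap.toContinuousLinearMap (sl α)

lemma sg_apply (α : ℂ × ℂ) (η : Y) : sg α η = sf α η := rfl

lemma sg_sm : ContDiff ℝ ∞ sg := by
  rw [contDiff_clm_apply_iff]
  intro η
  rw [contDiff_piLp]
  intro i
  fin_cases i <;> simp [sg_apply, sf] <;> fun_prop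

lemma sf_inj (α : ℂ × ℂ) (hα : α ≠ 0) (η : Y) (h : sf α η = 0) : η = 0 := by
  obtain ⟨a, b⟩ := α
  have h0 : a ^ 2 * η 1 + b ^ 2 * η 2 = 0 := by simpa [sf] using congrArg (fun z : Y => z 0) h
  have h1 : a ^ 3 * η 2 + b ^ 3 * η 3 = 0 := by simpa [sf] using congrArg (fun z : Y => z 1) h
  have h2 : a * η 0 + b * η 1 = 0 := by simpa [sf] using congrArg (fun z : Y => z 2) h
  have h3 : -b ^ 6 * conj (η 0) + a * b ^ 5 * conj (η 1) - a ^ 3 * b ^ 3 * conj (η 2) +
      a ^ 6 * conj (η 3) = 0 := by simpa [sf] using congrArg (fun z : Y => z 3) h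
  have h4 : η 4 = 0 := by simpa [sf] using congrArg (fun z : Y => z 4) h
  have h3' : -conj b ^ 6 * η 0 + conj a * conj b ^ 5 * η 1 - conj a ^ 3 * conj b ^ 3 * η 2 +
      conj a ^ 6 * η 3 = 0 := by simpa using congrArg conj h3
  have hne : a ≠ 0 ∨ b ≠ 0 := by
    by_contra hc
    push Not at hc
    exact hα (by simp [hc.1, hc.2])
  set N : ℂ := (b * conj b) ^ 6 + (a * conj a) * (b * conj b) ^ 5 +
    (a * conj a) ^ 3 * (b * conj b) ^ 3 + (a * conj a) ^ 6 with hN
  have hN0 : N ≠ 0 := by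
    have : N = ((Complex.normSq b ^ 6 + Complex.normSq a * Complex.normSq b ^ 5 +
        Complex.normSq a ^ 3 * Complex.normSq b ^ 3 + Complex.normSq a ^ 6 : ℝ) : ℂ) := by
      rw [hN, Complex.mul_conj, Complex.mul_conj]; push_cast; ring
    rw [this, Complex.ofReal_ne_zero]
    have ha := Complex.normSq_nonneg a
    have hb := Complex.normSq_nonneg b
    rcases hne with h' | h'
    · have := Complex.normSq_pos.2 h'
      positivity
    · have := Complex.normSq_pos.2 h'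
      positivity
  have e3 : η 3 = 0 := by
    have : η 3 * N = 0 := by
      rw [hN]
      linear_combination a ^ 6 * h3' + conj b ^ 6 * a ^ 5 * h2 -
        (conj b ^ 6 * a ^ 3 * b + conj a * conj b ^ 5 * a ^ 4) * h0 +
        (conj b ^ 6 * b ^ 3 + conj a * conj b ^ 5 * a * b ^ 2 +
          conj a ^ 3 * conj b ^ 3 * a ^ 3) * h1
    exact (mul_eq_zero.1 this).resolve_right hN0
  have e0 : η 0 = 0 := by
    have : η 0 * N = 0 := by
      rw [hN]
      linear_combination -b ^ 6 * h3' + conj a ^ 6 * b ^ 3 * h1 -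
        (conj a ^ 6 * a ^ 3 * b + conj a ^ 3 * conj b ^ 3 * b ^ 4) * h0 +
        (conj a ^ 6 * a ^ 5 + conj a ^ 3 * conj b ^ 3 * a ^ 2 * b ^ 3 +
          conj a * conj b ^ 5 * b ^ 5) * h2
    exact (mul_eq_zero.1 this).resolve_right hN0
  rw [e3] at h1
  rw [e0] at h2
  have e2 : η 2 = 0 := by
    rcases hne with h' | h'
    · have : a ^ 3 * η 2 = 0 := by linear_combination h1
      simpa [h'] using this
    · have : b ^ 3 * η 2 = 0 := by linear_combination b * h0 - a ^ 2 * h2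
      simpa [h'] using this
  rw [e2] at h0
  have e1 : η 1 = 0 := by
    rcases hne with h' | h'
    · have : a ^ 2 * η 1 = 0 := by linear_combination h0
      simpa [h'] using this
    · have : b * η 1 = 0 := by linear_combination h2
      simpa [h'] using this
  ext i; fin_cases i <;> simp [e0, e1, e2, e3, h4]

lemma sg_unit (α : ℂ × ℂ) (hα : α ≠ 0) : IsUnit (sg α) := by
  rw [ContinuousLinearMap.isUnit_iff_bijective]
  have hi : Function.Injective (sl α) := (injective_iff_map_eq_zero _).2 (sf_inj α hα)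
  exact ⟨hi, LinearMap.injective_iff_surjective.1 hi⟩

def si (α : ℂ × ℂ) : Y →L[ℝ] Y := Ring.inverse (sg α)

lemma si_sm : ContDiffOn ℝ ∞ si {α | α ≠ 0} := by
  intro α hα
  obtain ⟨u, hu⟩ := sg_unit α hα
  have h1 : ContDiffAt ℝ ∞ (Ring.inverse : (Y →L[ℝ] Y) → (Y →L[ℝ] Y)) (sg α) := by
    rw [← hu]; exact contDiffAt_ringInverse ℝ u
  exact (h1.comp α sg_sm.contDiffAt).contDiffWithinAt

def jl : Y ≃ₗ[ℝ] (E 8 × ℝ) × ℝ where
  toFun η := ((!₂[(η 0).re, (η 0).im, (η 1).re, (η 1).im, (η 2).re, (η 2).im, (η 3).re, (η 3).im],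
    (η 4).re), (η 4).im)
  invFun x := !₂[⟨x.1.1 0, x.1.1 1⟩, ⟨x.1.1 2, x.1.1 3⟩, ⟨x.1.1 4, x.1.1 5⟩, ⟨x.1.1 6, x.1.1 7⟩,
    ⟨x.1.2, x.2⟩]
  map_add' x y := by
    refine Prod.ext (Prod.ext ?_ ?_) ?_
    · ext i; fin_cases i <;> simp
    · simp
    · simp
  map_smul' t x := by
    refine Prod.ext (Prod.ext ?_ ?_) ?_
    · ext i; fin_cases i <;> simp
    · simp
    · simp
  left_inv η := by
    ext i; fin_cases i <;> simp
  right_inv x := by
    refine Prod.ext (Prod.ext ?_ ?_) ?_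
    · ext i; fin_cases i <;> simp
    · simp
    · simp

end FrK

open FrK in
theorem fr : FR := by
  refine ⟨sg, si, jl.toContinuousLinearEquiv, sg_sm, si_sm, ?_, ?_, ?_, ?_, ?_, ?_, ?_, ?_, ?_, ?_⟩
  · intro c a b η _
    ext i; fin_cases i <;> simp [sg_apply, sf, act] <;> ring
  · intro α η; simp [sg_apply, sf]
  · intro α
    ext i; fin_cases i <;> simp [sg_apply, sf, ev]
  · intro α η hα
    have := Ring.inverse_mul_cancel _ (sg_unit α hα)
    exact congrArg (fun T : Y →L[ℝ] Y => T η) this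
  · intro α η hα
    have := Ring.mul_inverse_cancel _ (sg_unit α hα)
    exact congrArg (fun T : Y →L[ℝ] Y => T η) this
  · have hK : IsCompact {α : ℂ × ℂ | 1 / 4 ≤ ‖α‖ ∧ ‖α‖ ≤ 1} := by
      refine (isCompact_closedBall (0 : ℂ × ℂ) 1).of_isClosed_subset ?_ ?_
      · exact (isClosed_le continuous_const continuous_norm).inter
          (isClosed_le continuous_norm continuous_const)
      · intro α hα; simpa using hα.2
    have hs : {α : ℂ × ℂ | 1 / 4 ≤ ‖α‖ ∧ ‖α‖ ≤ 1} ⊆ {α | α ≠ 0} := by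
      rintro α hα rfl
      have := hα.1
      norm_num at this
    obtain ⟨K1, h1⟩ := hK.exists_bound_of_continuousOn sg_sm.continuous.continuousOn
    obtain ⟨K2, h2⟩ := hK.exists_bound_of_continuousOn (si_sm.continuousOn.mono hs)
    exact ⟨max K1 K2, fun α ha hb =>
      ⟨(h1 α ⟨ha, hb⟩).trans (le_max_left _ _), (h2 α ⟨ha, hb⟩).trans (le_max_right _ _)⟩⟩
  · intro η; rfl
  · intro η; rfl
  · intro η
    rw [EuclideanSpace.norm_sq_eq, EuclideanSpace.norm_sq_eq]
    simp [jl, u1, u2, Fin.sum_univ_succ, Complex.sq_norm, Complex.normSq_apply]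
    ring
  · refine Prod.ext (Prod.ext ?_ ?_) ?_
    · ext i; fin_cases i <;> simp [jl, ev]
    · simp [jl, ev]
    · simp [jl, ev]

end

end Crest.Agent.N218.P
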