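import Crest.Agent.N218.A.Defs
import Crest.Agent.N218.A.Sh

/-!
# Row 218, block A1/A4 (helper77): the local piece, its retraction, the body, the total family
-/

set_option autoImplicit false
open Set Real
open scoped ContDiff RealInnerProductSpace ComplexConjugate

namespace Crest.Agent.N218.P
open A Sh

noncomputable section

abbrev st : ℝ → ℝ := Real.smoothTransition
/-- primitive of `st`: `0` on `x ≤ 0`, `x - 1/2` on `1 ≤ x`, convex -/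
def S1 (x : ℝ) : ℝ := ∫ t in (0:ℝ)..x, st t
/-- smooth positive part: `0` on `t ≤ -1/1000`, `t` on `1/1000 ≤ t` -/
def Sm (t : ℝ) : ℝ := S1 (500 * t + 1 / 2) / 500
def smin (a b : ℝ) : ℝ := a - Sm (a - b)
/-- angle: `π/2` on `τ ≤ 1`, `0` on `3 ≤ τ` -/
def th (τ : ℝ) : ℝ := π / 2 * (S1 (3 - τ) - S1 (2 - τ))
def Ee (x : ℝ) : ℝ := 100 * S1 (10 * x)

/-- leaf SM -/
structure SM : Prop where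
  sm : ContDiff ℝ ∞ S1
  d : ∀ x, HasDerivAt S1 (st x) x
  z : ∀ x, x ≤ 0 → S1 x = 0
  o : ∀ x, 1 ≤ x → S1 x = x - 1 / 2
  nn : ∀ x, 0 ≤ S1 x
  ge : ∀ x, x - 1 / 2 ≤ S1 x
  le : ∀ x, 0 ≤ x → S1 x ≤ x * st x
  mono : Monotone S1
  conv : ConvexOn ℝ univ S1
  Sm_le : ∀ t, Sm t ≤ max t 0 + 1 / 1000
  Sm_ge : ∀ t, max t 0 ≤ Sm t
  th_d : ∀ τ, HasDerivAt th (-(π / 2 * (st (3 - τ) - st (2 - τ)))) τ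
  th_mem : ∀ τ, 0 ≤ th τ ∧ th τ ≤ π / 2
  th_lo : ∀ τ, τ ≤ 1 → th τ = π / 2
  th_hi : ∀ τ, 3 ≤ τ → th τ = 0
  th_d0 : ∀ τ, th τ = 0 ∨ th τ = π / 2 → st (3 - τ) - st (2 - τ) = 0
  th_sm : ∀ τ, th τ < π / 4 → th τ ≤ π / 2 * (st (3 - τ) - st (2 - τ))

abbrev V := EuclideanSpace ℂ (Fin 2)
/-- `Y = V₁ ⊕ V₂ ⊕ ℝ²`, coordinates `(v, w, u₂ + i u₁)`, circle weights `(2,3,1,6,0)` -/
abbrev Y := EuclideanSpace ℂ (Fin 5)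
def pv (η : Y) : V := !₂[η 0, η 1]
def pw (η : Y) : V := !₂[η 2, η 3]
def u2 (η : Y) : ℝ := (η 4).re
def u1 (η : Y) : ℝ := (η 4).im
/-- the vertical unit vector -/
def ev : Y := !₂[0, 0, 0, 0, Complex.I]
def aV (c : ℂ) (v : V) : V := !₂[c ^ 2 * v 0, c ^ 3 * v 1]
def aW (c : ℂ) (w : V) : V := !₂[c * w 0, c ^ 6 * w 1]
def act (c : ℂ) (η : Y) : Y := !₂[c ^ 2 * η 0, c ^ 3 * η 1, c * η 2, c ^ 6 * η 3, η 4]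

def tau (z : V × V × ℝ × ℝ) : ℝ := ‖z.1‖ ^ 2 + ‖z.2.1‖ ^ 2
/-- the tube function; `z = (v, w, u₂, u₁)` -/
def G (M : V → V) (c b : ℝ) (z : V × V × ℝ × ℝ) : ℝ :=
  cos (th (tau z)) ^ 2 * ‖z.1‖ ^ 2 + sin (th (tau z)) ^ 2 * ‖z.2.1‖ ^ 2 -
    2 * sin (th (tau z)) * cos (th (tau z)) * ⟪M z.1, z.2.1⟫ + z.2.2.1 ^ 2 +
    (z.2.2.2 - b * (3 * tau z - 1)) ^ 2 - tau z / 1000 + Ee (tau z - c) - 1 / 100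
def co (η : Y) : V × V × ℝ × ℝ := (pv η, pw η, u2 η, u1 η)

/-- admissible attaching maps -/
structure GM (M : V → V) (c : ℝ) : Prop where
  d : Differentiable ℝ M
  le : ∀ v, ‖M v‖ ≤ ‖v‖
  c0 : 0 ≤ c
  c4 : c ≤ 4
  alt : (c = 4 ∧ ∀ v, 1 / 10000 < ‖v‖ → ‖M v‖ = ‖v‖ ∧ fderiv ℝ M v v = M v) ∨
    ∃ J : V ≃ₗᵢ[ℝ] V, M = J

/-- leaf CRIT: the critical points of `G` below `1/100` -/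
def CRIT : Prop := ∀ M c b z, GM M c → fderiv ℝ (G M c b) z = 0 → G M c b z ≤ 1 / 100 →
  z = (0, 0, 0, -b) ∨ (G M c b z ≤ -(9 / 1000) ∧ (c = 4 → z.1 = 0 ∧ z.2.2.1 = 0 ∧
    z.2.2.2 = b * (3 * tau z - 1) ∧ st (10 * (tau z - 4)) = 1 / 1000000))

/-- the family of attaching maps over `ζ ∈ ℂ` -/
structure Mz (M : ℂ × V → V) : Prop where
  sm : ContDiff ℝ ∞ M
  eqv : ∀ c ζ v, ‖c‖ = 1 → M (c * ζ, aV c v) = aW c (M (ζ, v))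
  le : ∀ ζ v, ‖M (ζ, v)‖ ≤ ‖v‖
  nrm : ∀ ζ v, 1 / 10000 < ‖v‖ → ‖M (ζ, v)‖ = ‖v‖
  hom : ∀ ζ v (t : ℝ), 1 / 10000 < ‖v‖ → 1 ≤ t → M (ζ, t • v) = t • M (ζ, v)
  flat : ∀ ζ v, 3 ≤ ‖ζ‖ ^ 2 → M (ζ, v) = !₂[conj (ζ / ‖ζ‖) * v 0, (ζ / ‖ζ‖) ^ 3 * v 1]
/-- leaf MZ (from `Pt.H`) -/
def MZ : Prop := ∃ M, Mz M

def c0 (ζ : ℂ) : ℝ := 4 * st (4 - ‖ζ‖ ^ 2)
/-- the local piece -/
def F (M : ℂ × V → V) (p : ℂ × Y) : ℝ :=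
  smin (u1 p.2) (G (fun v => M (p.1, v)) (c0 p.1) 1 (co p.2))
/-- the Lyapunov function of PIECE -/
def LL (M : ℂ × V → V) (p : ℂ × Y) : ℝ := G (fun v => M (p.1, v)) 4 0 (co p.2)

structure LF (F : ℂ × Y → ℝ) : Prop where
  sm : ContDiff ℝ ∞ F
  inv : ∀ c ζ η, ‖c‖ = 1 → F (c * ζ, act c η) = F (ζ, η)
  out : ∀ ζ η, 2 ≤ ‖ζ‖ ∨ 25 ≤ ‖η‖ ∨ u1 η ≤ -(1 / 2) → F (ζ, η) = u1 η
  le : ∀ ζ η, F (ζ, η) ≤ u1 η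
  reg : ∀ ζ η, |F (ζ, η)| ≤ 1 / 1000 → ∃ ξ, fderiv ℝ F (ζ, η) (0, ξ) ≠ 0
/-- leaf REG -/
def REG : Prop := ∀ M, Mz M → LF (F M)

/-- profile of the vertical retraction -/
structure Pp (w A : ℝ) (p : ℝ → ℝ) : Prop where
  sm : ContDiff ℝ ∞ p
  id : ∀ u, u ≤ 0 → p u = u
  nn : ∀ u, 0 < u → 0 ≤ p u
  lt : ∀ u, 0 < u → p u < u
  le : ∀ u, u ≤ A → p u ≤ w / 4
  lip : ∀ u u', |p u - p u'| ≤ |u - u'|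
def piH (p : ℝ → ℝ) (η : Y) : Y := η - (u1 η - p (u1 η)) • ev

/-- the local retraction over `(ζ, α₁, α₂)`, `α ≠ 0`, all of weight one -/
structure LR (F : ℂ × Y → ℝ) (w C : ℝ) (p : ℝ → ℝ) (R : (ℂ × ℂ × ℂ) × Y → Y) : Prop where
  sm : ContDiffOn ℝ ∞ R {z | z.1.2 ≠ 0}
  eqv : ∀ c ζ a b η, ‖c‖ = 1 → R ((c * ζ, c * a, c * b), act c η) = act c (R ((ζ, a, b), η))
  out : ∀ l η, 3 ≤ ‖l.1‖ ∨ 30 ≤ ‖η‖ → R (l, η) = piH p η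
  bd : ∀ l η, ‖R (l, η) - piH p η‖ ≤ C
  id : ∀ l η, F (l.1, η) ≤ 0 → R (l, η) = η
  lt : ∀ l η, 0 < F (l.1, η) → F (l.1, η) ≤ w → F (l.1, R (l, η)) < F (l.1, η)
  low : ∀ l η, 0 < F (l.1, η) → F (l.1, η) ≤ w → -(w / 4) ≤ F (l.1, R (l, η))
  lip : ∀ l η, 0 < F (l.1, η) → F (l.1, η) ≤ w →
    ‖R (l, η) - η‖ ≤ C * (F (l.1, η) - F (l.1, R (l, η)))
  inn : ∀ l η, l.2 ≠ 0 → u1 η ≤ 30 → F (l.1, R (l, η)) ≤ w / 2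

/-- leaf ISOP: isotopy extension with a parameter -/
def ISOP : Prop := ∀ (f : ℝ × ℂ × Y → ℝ) (a β : ℝ), ContDiff ℝ ∞ f →
  (∀ t b z, a ≤ ‖z‖ → f (t, b, z) = f (0, b, z)) → (∀ t b z, t ≤ 0 → f (t, b, z) = f (0, b, z)) →
  (∀ t b z, 1 ≤ t → f (t, b, z) = f (1, b, z)) →
  (∀ t b z, f (t, b, z) = 0 → ∃ ξ, fderiv ℝ f (t, b, z) (0, 0, ξ) ≠ 0) →
  ∃ w : ℝ, 0 < w ∧ ∃ D D' : ℝ × ℂ × Y → Y, ContDiff ℝ ∞ D ∧ ContDiff ℝ ∞ D' ∧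
    (∀ t b z, D' (t, b, D (t, b, z)) = z) ∧ (∀ t b z, D (t, b, D' (t, b, z)) = z) ∧
    (∀ t b z, t ≤ 0 ∨ a ≤ ‖z‖ → D (t, b, z) = z) ∧
    (∀ t b z, 1 ≤ t → D (t, b, z) = D (1, b, z)) ∧
    (∀ t b z, ‖b‖ ≤ β → (|f (0, b, z)| ≤ w → f (t, b, D (t, b, z)) = f (0, b, z)) ∧
      (w < f (0, b, z) → w < f (t, b, D (t, b, z))) ∧
      (f (0, b, z) < -w → f (t, b, D (t, b, z)) < -w)) ∧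
    ((∀ c t b z, ‖c‖ = 1 → f (t, c * b, act c z) = f (t, b, z)) →
      ∀ c t b z, ‖c‖ = 1 → D (t, c * b, act c z) = act c (D (t, b, z)))

/-- leaf STEP: the Newton step on the collar -/
def STEP : Prop := ∀ F, LF F → ∃ w0 > 0, ∃ C, ∀ w, 0 < w → w ≤ w0 → ∀ p, Pp w 30 p →
  ∃ k : ℂ × Y → Y, ContDiff ℝ ∞ k ∧ (∀ c ζ η, ‖c‖ = 1 → k (c * ζ, act c η) = act c (k (ζ, η))) ∧
    (∀ ζ η, 3 ≤ ‖ζ‖ ∨ 26 ≤ ‖η‖ → k (ζ, η) = piH p η) ∧ (∀ ζ η, F (ζ, η) ≤ 0 → k (ζ, η) = η) ∧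
    ∀ ζ η, 0 < F (ζ, η) → F (ζ, η) ≤ 2 * w → ‖k (ζ, η) - η‖ ≤ 1 ∧
      F (ζ, k (ζ, η)) < F (ζ, η) ∧ -(w / 4) ≤ F (ζ, k (ζ, η)) ∧ F (ζ, k (ζ, η)) ≤ w / 2 ∧
      ‖k (ζ, η) - η‖ ≤ C * (F (ζ, η) - F (ζ, k (ζ, η)))

/-- leaf RET (from ISOP and STEP) -/
def RET : Prop := ∀ F, LF F → ∃ w0 > 0, ∃ C > 0, ∀ w, 0 < w → w ≤ w0 → ∀ p, Pp w 30 p →
  ∃ R, LR F w C p R

section body
variable {E : Type} [NormedAddCommGroup E] [InnerProductSpace ℝ E]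
/-- the convex body: centre `0`, flat top at height `⟪e, y⟫ = 1` -/
def bo (e y : E) : ℝ := (⟪e, y⟫ - 1) + Sm (‖y‖ ^ 2 / 10000 - 3 / 4 - (⟪e, y⟫ - 1))

/-- the retraction of the body -/
structure BR (e : E) (w C : ℝ) (p : ℝ → ℝ) (r : E → E) : Prop where
  pp : Pp w 20 p
  sm : ContDiff ℝ ∞ r
  one : ∀ y y', ‖r y - r y'‖ ≤ ‖y - y'‖
  bd : ∀ y, ‖r y‖ ≤ 200
  eqv : ∀ A : E ≃ₗᵢ[ℝ] E, A e = e → ∀ y, r (A y) = A (r y)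
  flat : ∀ y, ‖y‖ ≤ 20 → r y = y - (⟪e, y⟫ - 1 - p (⟪e, y⟫ - 1)) • e
  id : ∀ y, bo e y ≤ 0 → r y = y
  lt : ∀ y, 0 < bo e y → bo e (r y) < bo e y
  low : ∀ y, 0 < bo e y → 0 ≤ bo e (r y)
  lip : ∀ y, 0 < bo e y → bo e y ≤ w → ‖r y - y‖ ≤ C * (bo e y - bo e (r y))
  inn : ∀ y, bo e (r y) ≤ w / 4
end body

/-- leaf BO: geometry of the body -/
def BO : Prop := ∀ (E : Type) [NormedAddCommGroup E] [InnerProductSpace ℝ E] (e : E), ‖e‖ = 1 →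
  ContDiff ℝ ∞ (bo e) ∧ ConvexOn ℝ univ (bo e) ∧ (∀ y, ⟪e, y⟫ - 1 ≤ bo e y) ∧
    (∀ y, ‖y‖ ^ 2 / 10000 - 3 / 4 ≤ bo e y) ∧
    (∀ y, ‖y‖ ≤ 40 → 1 / 2 ≤ ⟪e, y⟫ → bo e y = ⟪e, y⟫ - 1) ∧
    (∀ y, ‖y‖ ≤ 40 → ⟪e, y⟫ ≤ 1 / 2 → bo e y ≤ -(1 / 4)) ∧
    ∀ y, y ≠ 0 → 0 < fderiv ℝ (bo e) y y ∧ 0 < fderiv ℝ (bo e) y (y + ⟪e, y⟫ • e)

/-- leaf BODY -/
def BODY : Prop := ∀ (E : Type) [NormedAddCommGroup E] [InnerProductSpace ℝ E]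
  [FiniteDimensional ℝ E] (e : E), ‖e‖ = 1 → ∀ w, 0 < w → w ≤ 1 → ∃ C p r, BR e w C p r

/-- the body of size `s ≥ 1` in `Y`, top at `u₁ = 0` -/
def boY (s : ℝ) (η : Y) : ℝ := s * bo ev (s⁻¹ • η + ev)

/-- leaf PATH: from body + piece to `LL`, through regular invariant domains -/
def PATH : Prop := ∀ M, Mz M → ∀ s, 1 ≤ s → ∃ (f : ℝ × ℂ × Y → ℝ) (a : ℝ), ContDiff ℝ ∞ f ∧
  (∀ t b z, a ≤ ‖z‖ → f (t, b, z) = 3 / 4) ∧ (∀ t b z, t ≤ 0 → f (t, b, z) = f (0, b, z)) ∧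
  (∀ t b z, 1 ≤ t → f (t, b, z) = f (1, b, z)) ∧
  (∀ t b z, f (t, b, z) = 0 → ∃ ξ, fderiv ℝ f (t, b, z) (0, 0, ξ) ≠ 0) ∧
  (∀ c t b z, ‖c‖ = 1 → f (t, c * b, act c z) = f (t, b, z)) ∧
  (∀ b z, f (0, b, z) = smin (3 / 4) (boY s z + (F M (b, z) - u1 z))) ∧
  ∀ b z, (f (1, b, z) ≤ 1 / 2 ∨ LL M (b, z) ≤ 1 / 2) → f (1, b, z) = LL M (b, z)

/-- the frame of `V₁ ⊕ V₂` attached to `α ≠ 0`, and splitting coordinates of `Y` -/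
structure Fr (σ σ' : ℂ × ℂ → (Y →L[ℝ] Y)) (j : Y ≃L[ℝ] (E 8 × ℝ) × ℝ) : Prop where
  sm : ContDiff ℝ ∞ σ
  sm' : ContDiffOn ℝ ∞ σ' {α | α ≠ 0}
  eqv : ∀ c a b η, ‖c‖ = 1 → σ (c * a, c * b) η = act c (σ (a, b) η)
  vert : ∀ α η, σ α η 4 = η 4
  up : ∀ α, σ α ev = ev
  li : ∀ α η, α ≠ 0 → σ' α (σ α η) = η
  ri : ∀ α η, α ≠ 0 → σ α (σ' α η) = η
  bd : ∃ K, ∀ α, 1 / 4 ≤ ‖α‖ → ‖α‖ ≤ 1 → ‖σ α‖ ≤ K ∧ ‖σ' α‖ ≤ K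
  j1 : ∀ η, (j η).2 = u1 η
  j2 : ∀ η, (j η).1.2 = u2 η
  jn : ∀ η, ‖(j η).1.1‖ ^ 2 + u2 η ^ 2 + u1 η ^ 2 = ‖η‖ ^ 2
  je : j ev = (0, 1)
/-- leaf FR -/
def FR : Prop := ∃ σ σ' j, Fr σ σ' j

/-- the projector onto the line of `x ∈ S²` -/
def Hf (a : V) : E 3 := !₂[2 * (conj (a 0) * a 1).re, 2 * (conj (a 0) * a 1).im,
  ‖a 0‖ ^ 2 - ‖a 1‖ ^ 2]
/-- the weight-one data of a pair of unit spinors -/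
def lab (s : ℝ) (a b : V) : ℂ × ℂ × ℂ := (s * (a 0 * b 1 - a 1 * b 0), a 0 * b 0, a 1 * b 1)
/-- `(a,b)` lies over the label `n = (x, z)`: `a` over `x`, `b` over `(x+z)/|x+z|` -/
def Ov (n : E 3 × E 3) (a b : V) : Prop :=
  ‖a‖ = 1 ∧ ‖b‖ = 1 ∧ Hf a = n.1 ∧ ‖n.1 + n.2‖ • Hf b = n.1 + n.2

/-- leaf DESC: invariant functions descend to the labels -/
def DESC : Prop := ∀ ρ > 0, ∃ s ≥ 3, (∀ n ∈ N0, ∃ a b, Ov n a b) ∧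
  (∀ a b : V, ‖a‖ = 1 → ‖b‖ = 1 → ⟪Hf a, Hf b⟫ ≤ 0 → 3 ≤ ‖(lab s a b).1‖) ∧
  (∀ n ∈ N0, ∀ a b, Ov n a b → (ρ ≤ ‖n.2‖ → 3 ≤ ‖(lab s a b).1‖) ∧
    1 / 4 ≤ ‖(lab s a b).2‖ ∧ ‖(lab s a b).2‖ ≤ 1) ∧
  ∀ (U W : Type) [NormedAddCommGroup U] [NormedSpace ℝ U] [NormedAddCommGroup W] [NormedSpace ℝ W]
    (Φ : (ℂ × ℂ × ℂ) × U → W), ContDiffOn ℝ ∞ Φ {z | z.1.2 ≠ 0} →
    (∀ c ζ a b u, ‖c‖ = 1 → Φ ((c * ζ, c * a, c * b), u) = Φ ((ζ, a, b), u)) →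
    (∀ l u, 3 ≤ ‖l.1‖ → Φ (l, u) = 0) →
    ∃ g : (E 3 × E 3) × U → W, ContDiff ℝ ∞ g ∧ (∀ n u, 2 * ρ ≤ ‖n.2‖ → g (n, u) = 0) ∧
      (∀ n u, (∀ l, 1 / 4 ≤ ‖l.2‖ → ‖l.2‖ ≤ 1 → Φ (l, u) = 0) → g (n, u) = 0) ∧
      ∀ n ∈ N0, ∀ a b u, Ov n a b → g (n, u) = Φ (lab s a b, u)

end

end Crest.Agent.N218.P
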