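import Crest.Agent.N218.A.Dt
import Crest.Agent.N218.P.Defs

/-!
# Row 218, block A (helper69): equivariant isotopy extension with a parameter
-/

set_option autoImplicit false
set_option linter.unusedSectionVars false

open Set Filter Topology
open scoped ContDiff InnerProductSpace

noncomputable section

namespace Crest.Agent.N218.Par

variable {B : Type} [NormedAddCommGroup B] [InnerProductSpace ℝ B] [FiniteDimensional ℝ B]
variable {Z : Type} [NormedAddCommGroup Z] [InnerProductSpace ℝ Z] [FiniteDimensional ℝ Z]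

/-- the vertical gradient -/
def vgP (F : ℝ × B × Z → ℝ) (p : ℝ × B × Z) : Z :=
  ∑ i, fderiv ℝ F p (0, 0, stdOrthonormalBasis ℝ Z i) • stdOrthonormalBasis ℝ Z i

theorem inner_vgP (F : ℝ × B × Z → ℝ) (p : ℝ × B × Z) (w : Z) :
    ⟪vgP F p, w⟫_ℝ = fderiv ℝ F p (0, 0, w) := by
  have e : (((0 : ℝ), (0 : B), w) : ℝ × B × Z) =
      ∑ i, ⟪stdOrthonormalBasis ℝ Z i, w⟫_ℝ • ((0 : ℝ), (0 : B), stdOrthonormalBasis ℝ Z i) := by
    refine Prod.ext (by simp [Prod.fst_sum]) (Prod.ext (by simp [Prod.fst_sum, Prod.snd_sum]) ?_)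
    simp [Prod.snd_sum, (stdOrthonormalBasis ℝ Z).sum_repr']
  rw [e, map_sum, vgP, sum_inner]
  refine Finset.sum_congr rfl fun i _ => ?_
  rw [map_smul, real_inner_smul_left, smul_eq_mul, mul_comm]

theorem vgP_smooth {F : ℝ × B × Z → ℝ} (hF : ContDiff ℝ ∞ F) : ContDiff ℝ ∞ (vgP F) :=
  ContDiff.sum fun _ _ =>
    ((hF.fderiv_right (m := ∞) (by simp)).clm_apply contDiff_const).smul contDiff_const

theorem dt_zeroP {W : Type} [NormedAddCommGroup W] [NormedSpace ℝ W] {F : ℝ × W → ℝ}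
    (hF : ContDiff ℝ ∞ F) {p : ℝ × W} {s : Set ℝ}
    (hs : UniqueDiffWithinAt ℝ s p.1) (hp : p.1 ∈ s) {c : ℝ} (h : ∀ t ∈ s, F (t, p.2) = c) :
    fderiv ℝ F p (1, 0) = 0 := by
  have h1 : HasDerivAt (fun t : ℝ => ((t, p.2) : ℝ × W)) (1, 0) p.1 :=
    (hasDerivAt_id p.1).prodMk (hasDerivAt_const _ _)
  have h2 := ((hF.differentiable (by simp) p).hasFDerivAt.comp_hasDerivAt_of_eq p.1 h1
    rfl).hasDerivWithinAt (s := s)
  have h3 : HasDerivWithinAt (F ∘ fun t : ℝ => ((t, p.2) : ℝ × W)) 0 s p.1 :=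
    (hasDerivWithinAt_const p.1 s c).congr (fun t ht => h t ht) (h _ hp)
  exact hs.eq_deriv _ h2 h3

theorem isoP {F : ℝ × B × Z → ℝ} (hF : ContDiff ℝ ∞ F) {a : ℝ} (β : ℝ)
    (hout : ∀ t b z, a ≤ ‖z‖ → F (t, b, z) = F (0, b, z))
    (h0 : ∀ t b z, t ≤ 0 → F (t, b, z) = F (0, b, z))
    (h1 : ∀ t b z, 1 ≤ t → F (t, b, z) = F (1, b, z))
    (reg : ∀ t b z, F (t, b, z) = 0 → ∃ w, fderiv ℝ F (t, b, z) (0, 0, w) ≠ 0) :
    ∃ w : ℝ, 0 < w ∧ ∃ D D' : ℝ × B × Z → Z, ContDiff ℝ ∞ D ∧ ContDiff ℝ ∞ D' ∧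
      (∀ t b z, D' (t, b, D (t, b, z)) = z) ∧ (∀ t b z, D (t, b, D' (t, b, z)) = z) ∧
      (∀ t b z, t ≤ 0 ∨ a ≤ ‖z‖ → D (t, b, z) = z) ∧
      (∀ t b z, 1 ≤ t → D (t, b, z) = D (1, b, z)) ∧
      (∀ t b z, ‖b‖ ≤ β → (|F (0, b, z)| ≤ w → F (t, b, D (t, b, z)) = F (0, b, z)) ∧
        (w < F (0, b, z) → w < F (t, b, D (t, b, z))) ∧
        (F (0, b, z) < -w → F (t, b, D (t, b, z)) < -w)) ∧
      ∀ (A0 : B ≃ₗᵢ[ℝ] B) (A : Z ≃ₗᵢ[ℝ] Z), (∀ t b z, F (t, A0 b, A z) = F (t, b, z)) →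
        ∀ t b z, D (t, A0 b, A z) = A (D (t, b, z)) := by
  have : ProperSpace Z := FiniteDimensional.proper ℝ Z
  have : ProperSpace B := FiniteDimensional.proper ℝ B
  have hD : ContDiff ℝ ∞ (fderiv ℝ F) := hF.fderiv_right (m := ∞) (by simp)
  have Fd := hF.differentiable (by simp)
  have gs := vgP_smooth hF
  set χ : B → ℝ := fun b => Real.smoothTransition (β ^ 2 + 1 - ‖b‖ ^ 2) with hχ
  have χs : ContDiff ℝ ∞ χ :=
    Real.smoothTransition.contDiff.comp (contDiff_const.sub (contDiff_norm_sq ℝ))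
  have χ1 : ∀ b, ‖b‖ ≤ β → χ b = 1 := fun b hb =>
    Real.smoothTransition.one_of_one_le (by nlinarith [norm_nonneg b])
  have χ0 : ∀ b, |β| + 1 ≤ ‖b‖ → χ b = 0 := fun b hb =>
    Real.smoothTransition.zero_of_nonpos (by nlinarith [abs_nonneg β, sq_abs β])
  set h : ℝ × B × Z → ℝ := fun p => χ p.2.1 * fderiv ℝ F p (1, 0) with hh
  have hs : ContDiff ℝ ∞ h := (χs.comp contDiff_snd.fst).mul (hD.clm_apply contDiff_const)
  set K : Set (ℝ × B × Z) := Icc 0 1 ×ˢ Metric.closedBall 0 (|β| + 1) ×ˢ Metric.closedBall 0 a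
    with hK
  have Kc : IsCompact K :=
    isCompact_Icc.prod ((isCompact_closedBall _ _).prod (isCompact_closedBall _ _))
  have hz1 : ∀ p : ℝ × B × Z, a ≤ ‖p.2.2‖ → h p = 0 := fun p hp => by
    simp only [hh]
    rw [dt_zeroP hF uniqueDiffWithinAt_univ (mem_univ _) fun t _ => hout t _ _ hp, mul_zero]
  have hz2 : ∀ p : ℝ × B × Z, p.1 ≤ 0 → h p = 0 := fun p hp => by
    simp only [hh]
    rw [dt_zeroP hF (uniqueDiffOn_Iic 0 _ hp) hp fun t ht => h0 t _ _ ht, mul_zero]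
  have hz3 : ∀ p : ℝ × B × Z, 1 ≤ p.1 → h p = 0 := fun p hp => by
    simp only [hh]
    rw [dt_zeroP hF (uniqueDiffOn_Ici 1 _ hp) hp fun t ht => h1 t _ _ ht, mul_zero]
  have hz : ∀ p ∉ K, h p = 0 := fun p hp => by
    by_contra hne
    exact hp ⟨⟨le_of_not_ge fun h => hne (hz2 p h), le_of_not_ge fun h => hne (hz3 p h)⟩,
      mem_closedBall_zero_iff.2 (le_of_not_ge fun h => hne (by simp only [hh, χ0 _ h, zero_mul])),
      mem_closedBall_zero_iff.2 (le_of_not_ge fun h => hne (hz1 p h))⟩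
  -- the width
  obtain ⟨w, hw, hwK⟩ : ∃ w > 0, ∀ p ∈ K, vgP F p = 0 → 2 * w < |F p| := by
    have hc : IsCompact (K ∩ {p | vgP F p = 0}) :=
      Kc.inter_right (isClosed_eq gs.continuous continuous_const)
    obtain ⟨m, hm, hm'⟩ := hc.exists_forall_le' (f := fun p => |F p|) (a := 0)
      hF.continuous.abs.continuousOn fun p hp => abs_pos.2 fun h0 => by
        obtain ⟨u, hu⟩ := reg p.1 p.2.1 p.2.2 h0
        exact hu (by rw [← inner_vgP, show vgP F (p.1, p.2.1, p.2.2) = 0 from hp.2, inner_zero_left])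
    exact ⟨m / 3, by positivity, fun p hp h0 => by linarith [hm' p ⟨hp, h0⟩]⟩
  set n : ℝ × B × Z → ℝ := fun p =>
    ⟪vgP F p, vgP F p⟫_ℝ + expNegInvGlue (F p ^ 2 - (2 * w) ^ 2) with hn
  have ns : ContDiff ℝ ∞ n :=
    (gs.inner ℝ gs).add (expNegInvGlue.contDiff.comp ((hF.pow 2).sub contDiff_const))
  have npos : ∀ p ∈ K, n p ≠ 0 := fun p hp => by
    by_cases hg : vgP F p = 0
    · have := hwK p hp hg
      have h2 : 0 < F p ^ 2 - (2 * w) ^ 2 := by rw [← sq_abs (F p)]; nlinarith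
      exact (add_pos_of_nonneg_of_pos real_inner_self_nonneg (expNegInvGlue.pos_of_pos h2)).ne'
    · exact (add_pos_of_pos_of_nonneg (real_inner_self_pos.2 hg) (expNegInvGlue.nonneg _)).ne'
  set c : ℝ × B × Z → ℝ := fun p => h p / n p with hc
  have c0 : ∀ p, h p = 0 → c p = 0 := fun p hp => by simp [hc, hp]
  have cs : ContDiff ℝ ∞ c := by
    refine contDiff_iff_contDiffAt.2 fun p => ?_
    by_cases hp : p ∈ K
    · exact hs.contDiffAt.div ns.contDiffAt (npos p hp)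
    · refine (contDiffAt_const (c := (0 : ℝ))).congr_of_eventuallyEq ?_
      filter_upwards [Kc.isClosed.isOpen_compl.mem_nhds hp] with q hq using c0 q (hz q hq)
  set u : ℝ × B × Z → Z := fun p => -(c p) • vgP F p with hu
  have us : ContDiff ℝ ∞ u := cs.neg.smul gs
  have u0 : ∀ p, h p = 0 → u p = 0 := fun p hp => by simp [hu, c0 p hp]
  obtain ⟨C, hC⟩ := Kc.exists_bound_of_continuousOn us.continuous.continuousOn
  set v : ℝ × B × Z → ℝ × B × Z := fun p => (1, 0, u p) with hv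
  have vs : ContDiff ℝ ∞ v := contDiff_const.prodMk (contDiff_const.prodMk us)
  have vb : ∀ p, ‖v p‖ ≤ max 1 C := fun p => by
    rw [Prod.norm_def, Prod.norm_def]
    refine max_le (by simp [hv]) (max_le (by simp [hv]) ?_)
    by_cases hp : p ∈ K
    · exact (hC p hp).trans (le_max_right _ _)
    · simp [hv, u0 p (hz p hp)]
  obtain ⟨Φ, Φs, Φ0, Φd, Φa⟩ := exists_flow vs vb
  have Φ1 : ∀ p s, (Φ (p, s)).1 = p.1 + s := by
    intro p s
    have := const_of_deriv (f := fun s => (Φ (p, s)).1 - s)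
      (fun s => by
        have h2 : HasDerivAt (fun s => (Φ (p, s)).1) 1 s :=
          (ContinuousLinearMap.fst ℝ ℝ (B × Z)).hasFDerivAt.comp_hasDerivAt s (Φd p s)
        have h3 := h2.fun_sub (hasDerivAt_id' s)
        rwa [sub_self] at h3) s 0
    simp only [Φ0, sub_zero] at this
    linarith
  have Φb : ∀ p s, (Φ (p, s)).2.1 = p.2.1 := by
    intro p s
    have h2 : ∀ s, HasDerivAt (fun s => (Φ (p, s)).2.1) 0 s := fun s =>
      ((ContinuousLinearMap.fst ℝ B Z).comp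
        (ContinuousLinearMap.snd ℝ ℝ (B × Z))).hasFDerivAt.comp_hasDerivAt s (Φd p s)
    have := is_const_of_deriv_eq_zero (fun s => (h2 s).differentiableAt) (fun s => (h2 s).deriv) s 0
    rwa [Φ0] at this
  have e1 : ∀ t b z, Φ ((0, b, z), t) = (t, b, (Φ ((0, b, z), t)).2.2) := fun t b z =>
    Prod.ext (by simp [Φ1]) (Prod.ext (Φb _ _) rfl)
  have e2 : ∀ t b z, Φ ((t, b, z), -t) = (0, b, (Φ ((t, b, z), -t)).2.2) := fun t b z =>
    Prod.ext (by simp [Φ1]) (Prod.ext (Φb _ _) rfl)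
  have Φ2 : ∀ p s, HasDerivAt (fun s => (Φ (p, s)).2.2) (u (Φ (p, s))) s := fun p s =>
    ((ContinuousLinearMap.snd ℝ B Z).comp
      (ContinuousLinearMap.snd ℝ ℝ (B × Z))).hasFDerivAt.comp_hasDerivAt s (Φd p s)
  have cst : ∀ (p : ℝ × B × Z) (x y : ℝ), x ≤ y → (∀ s ∈ Icc x y, h (Φ (p, s)) = 0) →
      (Φ (p, y)).2.2 = (Φ (p, x)).2.2 := fun p x y hxy hs => by
    have := (convex_Icc x y).norm_image_sub_le_of_norm_hasDerivWithin_le (C := 0)
      (f := fun s => (Φ (p, s)).2.2) (fun r _ => (Φ2 p r).hasDerivWithinAt)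
      (fun r hr => by simp [u0 _ (hs r hr)]) (left_mem_Icc.2 hxy) (right_mem_Icc.2 hxy)
    simpa [sub_eq_zero] using this
  have hd : ∀ b z s, HasDerivAt (fun s => F (Φ ((0, b, z), s)))
      (fderiv ℝ F (Φ ((0, b, z), s)) (v (Φ ((0, b, z), s)))) s := fun b z s =>
    (Fd _).hasFDerivAt.comp_hasDerivAt s (Φd _ s)
  have hd0 : ∀ q : ℝ × B × Z, ‖q.2.1‖ ≤ β → |F q| ≤ 2 * w → fderiv ℝ F q (v q) = 0 :=
      fun q hb hq => by
    have : v q = (1, 0) + (-(c q)) • ((0 : ℝ), (0 : B), vgP F q) := by simp [hv, hu]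
    rw [this, map_add, map_smul, ← inner_vgP]
    have h3 : fderiv ℝ F q (1, 0) = h q := by simp only [hh, χ1 _ hb, one_mul]
    rw [h3]
    show h q + -(h q / n q) * ⟪vgP F q, vgP F q⟫_ℝ = 0
    by_cases hp : q ∈ K
    · have h2 : n q = ⟪vgP F q, vgP F q⟫_ℝ := by
        simp only [hn]
        rw [expNegInvGlue.zero_of_nonpos, add_zero]
        rw [← sq_abs (F q)]; nlinarith [abs_nonneg (F q)]
      rw [← h2]
      field_simp [npos q hp]
      ring
    · simp [hz q hp]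
  refine ⟨w, hw, fun p => (Φ ((0, p.2), p.1)).2.2, fun p => (Φ (p, -p.1)).2.2,
    (Φs.comp ((contDiff_const.prodMk contDiff_snd).prodMk contDiff_fst)).snd.snd,
    (Φs.comp (contDiff_id.prodMk contDiff_fst.neg)).snd.snd, fun t b z => ?_, fun t b z => ?_,
    fun t b z ht => ht.elim (fun ht => ?_) fun hz => ?_, fun t b z ht => ?_,
    fun t b z hb => ⟨fun hz => ?_, fun hz => ?_, fun hz => ?_⟩, fun A0 A hA t b z => ?_⟩
  · show (Φ ((t, b, (Φ ((0, b, z), t)).2.2), -t)).2.2 = z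
    rw [← e1, ← Φa, add_neg_cancel, Φ0]
  · show (Φ ((0, b, (Φ ((t, b, z), -t)).2.2), t)).2.2 = z
    rw [← e2, ← Φa, neg_add_cancel, Φ0]
  · have := cst (0, b, z) t 0 ht fun s hs => hz2 _ (by simpa [Φ1] using hs.2)
    rw [Φ0] at this
    exact this.symm
  · have := flow_unique vs (Φd (0, b, z)) (c' := fun s => (s, b, z)) (fun s => by
      have h2 : v (s, b, z) = (1, 0) := by simp [hv, u0 _ (hz1 (s, b, z) hz)]
      rw [h2]
      exact (hasDerivAt_id s).prodMk (hasDerivAt_const _ _)) (Φ0 _) t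
    exact congrArg (fun q => q.2.2) this
  · exact cst (0, b, z) 1 t ht fun s hs => hz3 _ (by simpa [Φ1] using hs.1)
  · have := stay (hd b z) (fun s hs => hd0 _ (by rwa [Φb]) hs) hw (a := 0)
      (by simpa only [Φ0] using hz) t
    rw [e1] at this
    simpa only [Φ0] using this
  · have := stay_gt (hd b z) (fun s hs => hd0 _ (by rwa [Φb]) hs) hw (a := 0)
      (by simpa only [Φ0] using hz) t
    rwa [e1] at this
  · have := stay_gt (fun s => (hd b z s).fun_neg) (fun s hs => by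
      rw [hd0 _ (by rwa [Φb]) (by simpa using hs), neg_zero]) hw (a := 0)
      (by simp only [Φ0]; linarith) t
    rw [e1] at this
    show F (t, b, (Φ ((0, b, z), t)).2.2) < -w
    linarith
  · set L : ℝ × B × Z →L[ℝ] ℝ × B × Z :=
      (ContinuousLinearMap.id ℝ ℝ).prodMap ((A0.toContinuousLinearEquiv : B →L[ℝ] B).prodMap
        (A.toContinuousLinearEquiv : Z →L[ℝ] Z)) with hL
    have FL : ∀ p x, fderiv ℝ F (L p) (L x) = fderiv ℝ F p x := fun p x => by
      have h2 : F ∘ L = F := funext fun q => hA q.1 q.2.1 q.2.2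
      have h3 := ((Fd (L p)).hasFDerivAt.comp p L.hasFDerivAt).fderiv
      rw [h2] at h3
      rw [h3]; rfl
    have gL : ∀ p, vgP F (L p) = A (vgP F p) := fun p => by
      refine ext_inner_right ℝ fun y => ?_
      obtain ⟨x, rfl⟩ := A.surjective y
      rw [A.inner_map_map, inner_vgP, inner_vgP, ← FL p (0, 0, x)]
      simp [hL]
    have vL : ∀ p, v (L p) = L (v p) := fun p => by
      have h2 : h (L p) = h p := by
        have e : L (1, 0) = (1, 0) := by
          rw [show ((1, 0) : ℝ × B × Z) = (1, 0, 0) from rfl]; simp [hL]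
        have e' : χ (L p).2.1 = χ p.2.1 := by simp [hL, hχ]
        simp only [hh]
        rw [← FL p (1, 0), e, e']
      have h3 : n (L p) = n p := by
        simp only [hn]
        rw [gL, A.inner_map_map, show F (L p) = F p from hA p.1 p.2.1 p.2.2]
      show ((1 : ℝ), (0 : B), -(h (L p) / n (L p)) • vgP F (L p)) =
        L (1, 0, -(h p / n p) • vgP F p)
      rw [h2, h3, gL]
      simp [hL]
    have := flow_unique vs (Φd (0, A0 b, A z)) (c' := fun s => L (Φ ((0, b, z), s))) (fun s => by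
      rw [vL]
      exact L.hasFDerivAt.comp_hasDerivAt s (Φd _ s)) (by rw [Φ0, Φ0]; rfl) t
    exact congrArg (fun q => q.2.2) this

end Crest.Agent.N218.Par

namespace Crest.Agent.N218.P

/-- multiplication by a unit complex number -/
def mulI (c : ℂ) (hc : ‖c‖ = 1) : ℂ ≃ₗᵢ[ℝ] ℂ :=
  LinearIsometry.toLinearIsometryEquiv
    ⟨(LinearMap.mulLeft ℂ c).restrictScalars ℝ, fun z => by simp [hc]⟩ rfl

theorem mulI_apply (c : ℂ) (hc : ‖c‖ = 1) (z : ℂ) : mulI c hc z = c * z := rfl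

/-- the circle action as a linear isometry -/
def actI (c : ℂ) (hc : ‖c‖ = 1) : Y ≃ₗᵢ[ℝ] Y :=
  LinearIsometry.toLinearIsometryEquiv
    ⟨⟨⟨act c, fun x y => by ext i; fin_cases i <;> simp [act, mul_add]⟩,
      fun r x => by ext i; fin_cases i <;> simp [act, mul_left_comm]⟩, fun z => by
        simp [EuclideanSpace.norm_eq, Fin.sum_univ_five, act, hc]⟩ rfl

theorem actI_apply (c : ℂ) (hc : ‖c‖ = 1) (z : Y) : actI c hc z = act c z := rfl

theorem isop : ISOP := by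
  intro f a β hf h1 h2 h3 h4
  obtain ⟨w, hw, D, D', a1, a2, a3, a4, a5, a6, a7, a8⟩ := Par.isoP hf β h1 h2 h3 h4
  exact ⟨w, hw, D, D', a1, a2, a3, a4, a5, a6, a7, fun h c t b z hc =>
    a8 (mulI c hc) (actI c hc) (fun t b z => h c t b z hc) t b z⟩

end Crest.Agent.N218.P
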