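import Crest.Agent.N218.P.Defs
import Crest.Agent.N218.Pt.Pt

/-!
# Row 218 (helper88): the family of attaching maps
-/

set_option autoImplicit false
open Set Real Filter Topology
open scoped ContDiff ComplexConjugate

namespace Crest.Agent.N218.P

noncomputable section

namespace Mk

/-- the phase -/
def ph (ζ : ℂ) : ℂ := if ζ = 0 then 1 else ζ / ‖ζ‖

theorem ph_ne {ζ : ℂ} (h : ζ ≠ 0) : ph ζ = ζ / ‖ζ‖ := if_neg h

theorem ph_norm (ζ : ℂ) : ‖ph ζ‖ = 1 := by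
  unfold ph
  split_ifs with h
  · simp
  · simp [h]

theorem cc {c : ℂ} (h : ‖c‖ = 1) : conj c * c = 1 := by
  rw [← Complex.normSq_eq_conj_mul_self, Complex.normSq_eq_norm_sq, h]; simp

theorem ph_mul {c ζ : ℂ} (hc : ‖c‖ = 1) (h : ζ ≠ 0) : ph (c * ζ) = c * ph ζ := by
  have : c ≠ 0 := by rintro rfl; simp at hc
  rw [ph_ne h, ph_ne (mul_ne_zero this h), norm_mul, hc, one_mul, mul_div_assoc]

theorem ext2 {v w : V} (a : v 0 = w 0) (b : v 1 = w 1) : v = w := by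
  ext i; fin_cases i
  · exact a
  · exact b

theorem nrm2 {v w : V} (a : ‖v 0‖ = ‖w 0‖) (b : ‖v 1‖ = ‖w 1‖) : ‖v‖ = ‖w‖ := by
  simp only [EuclideanSpace.norm_eq, Fin.sum_univ_two, a, b]

theorem aV_norm {c : ℂ} (h : ‖c‖ = 1) (v : V) : ‖aV c v‖ = ‖v‖ :=
  nrm2 (by simp [aV, h]) (by simp [aV, h])
theorem aW_norm {c : ℂ} (h : ‖c‖ = 1) (v : V) : ‖aW c v‖ = ‖v‖ :=
  nrm2 (by simp [aW, h]) (by simp [aW, h])
theorem aV_smul (c : ℂ) (t : ℝ) (v : V) : aV c (t • v) = t • aV c v :=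
  ext2 (by simp [aV]; ring) (by simp [aV]; ring)
theorem aW_smul (c : ℂ) (t : ℝ) (v : V) : aW c (t • v) = t • aW c v :=
  ext2 (by simp [aW]; ring) (by simp [aW]; ring)
theorem aW_add (c : ℂ) (v w : V) : aW c (v + w) = aW c v + aW c w :=
  ext2 (by simp [aW]; ring) (by simp [aW]; ring)

/-- the linear map at infinity -/
def J (ζ : ℂ) (v : V) : V := !₂[conj (ph ζ) * v 0, ph ζ ^ 3 * v 1]
/-- the transported path -/
def A (ζ : ℂ) (u : V) : V :=
  !₂[ph ζ * (Pt.H (‖ζ‖ ^ 2 - 1) (conj (ph ζ) ^ 2 * u 0, conj (ph ζ) ^ 3 * u 1)).1,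
    ph ζ ^ 6 * (Pt.H (‖ζ‖ ^ 2 - 1) (conj (ph ζ) ^ 2 * u 0, conj (ph ζ) ^ 3 * u 1)).2]

theorem J_norm (ζ : ℂ) (v : V) : ‖J ζ v‖ = ‖v‖ :=
  nrm2 (by simp [J, ph_norm]) (by simp [J, ph_norm])

theorem J_smul (ζ : ℂ) (t : ℝ) (v : V) : J ζ (t • v) = t • J ζ v :=
  ext2 (by simp [J]; ring) (by simp [J]; ring)

theorem J_eqv {c ζ : ℂ} (hc : ‖c‖ = 1) (h : ζ ≠ 0) (v : V) : J (c * ζ) (aV c v) = aW c (J ζ v) := by
  refine ext2 ?_ ?_ <;> simp only [J, aV, aW, ph_mul hc h] <;> simp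
  · linear_combination (c * conj (ph ζ) * v 0) * cc hc
  · ring

theorem A_lo {ζ : ℂ} (h : ‖ζ‖ ^ 2 ≤ 1) (u : V) :
    A ζ u = !₂[(Pt.P (u 0, u 1)).1, (Pt.P (u 0, u 1)).2] := by
  have e := Pt.P_equiv (conj (ph ζ)) (by simp [ph_norm]) (u 0, u 1)
  have k := cc (ph_norm ζ)
  unfold A
  rw [Pt.H_of_le (by linarith), e]
  refine ext2 ?_ ?_ <;> simp
  · linear_combination (Pt.P (u 0, u 1)).1 * k
  · rw [← mul_assoc, ← mul_pow, mul_comm (ph ζ), k]; simp

theorem A_hi {ζ : ℂ} (h : 2 ≤ ‖ζ‖ ^ 2) (u : V) : A ζ u = J ζ u := by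
  have k := cc (ph_norm ζ)
  unfold A J
  rw [Pt.H_of_ge (by linarith)]
  refine ext2 ?_ ?_ <;> simp
  · linear_combination (conj (ph ζ) * u 0) * k
  · linear_combination (ph ζ ^ 3 * u 1 * ((conj (ph ζ) * ph ζ) ^ 2 + conj (ph ζ) * ph ζ + 1)) * k

theorem A_eqv {c : ℂ} (hc : ‖c‖ = 1) (ζ : ℂ) (u : V) : A (c * ζ) (aV c u) = aW c (A ζ u) := by
  by_cases h : ζ = 0
  · subst h
    have e := Pt.P_equiv c hc (u 0, u 1)
    rw [A_lo (by simp), A_lo (by simp)]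
    refine ext2 ?_ ?_
    · simpa [aV, aW] using congrArg Prod.fst e
    · simpa [aV, aW] using congrArg Prod.snd e
  have k := cc hc
  have a : conj (c * ph ζ) ^ 2 * aV c u 0 = conj (ph ζ) ^ 2 * u 0 := by
    simp [aV]; linear_combination (conj (ph ζ) ^ 2 * u 0 * (conj c * c + 1)) * k
  have b : conj (c * ph ζ) ^ 3 * aV c u 1 = conj (ph ζ) ^ 3 * u 1 := by
    simp [aV]; linear_combination (conj (ph ζ) ^ 3 * u 1 * ((conj c * c) ^ 2 + conj c * c + 1)) * k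
  unfold A
  rw [ph_mul hc h, a, b, norm_mul, hc, one_mul]
  refine ext2 ?_ ?_ <;> simp [aW] <;> ring

theorem A_ne (ζ : ℂ) {u : V} (h : u ≠ 0) : A ζ u ≠ 0 := fun e => by
  have p : ph ζ ≠ 0 := fun z => by simpa [z] using ph_norm ζ
  refine Pt.H_ne (‖ζ‖ ^ 2 - 1) (z := (conj (ph ζ) ^ 2 * u 0, conj (ph ζ) ^ 3 * u 1))
    (fun z => h (ext2 ?_ ?_)) (Prod.ext ?_ ?_)
  · simpa [p] using congrArg Prod.fst z
  · simpa [p] using congrArg Prod.snd z
  · simpa [A, p] using congrArg (fun w : V => w 0) e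
  · simpa [A, p] using congrArg (fun w : V => w 1) e

section sm
variable {X : Type} [NormedAddCommGroup X] [NormedSpace ℝ X] {x : X}

theorem sm2 {f g : X → ℂ} (a : ContDiffAt ℝ ∞ f x) (b : ContDiffAt ℝ ∞ g x) :
    ContDiffAt ℝ ∞ (fun y => (!₂[f y, g y] : V)) x :=
  (contDiffAt_piLp 2).2 fun i => by
    fin_cases i
    · exact a
    · exact b

theorem smc {f : X → V} (a : ContDiffAt ℝ ∞ f x) (i : Fin 2) : ContDiffAt ℝ ∞ (fun y => f y i) x :=
  (contDiffAt_piLp 2).1 a i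

theorem smj {f : X → ℂ} (a : ContDiffAt ℝ ∞ f x) : ContDiffAt ℝ ∞ (fun y => conj (f y)) x :=
  Complex.conjCLE.contDiff.contDiffAt.comp x a
end sm

theorem ph_sm {p : ℂ × V} (h : p.1 ≠ 0) : ContDiffAt ℝ ∞ (fun q : ℂ × V => ph q.1) p := by
  have a : ContDiffAt ℝ ∞ (fun q : ℂ × V => (‖q.1‖⁻¹ : ℝ) • q.1) p :=
    ((contDiffAt_fst.norm ℂ h).inv (norm_ne_zero_iff.2 h)).smul contDiffAt_fst
  refine a.congr_of_eventuallyEq ?_
  filter_upwards [continuous_fst.continuousAt.eventually_ne h] with q k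
  rw [ph_ne k, Complex.real_smul, div_eq_inv_mul]; simp

theorem A_sm (p : ℂ × V) : ContDiffAt ℝ ∞ (fun q : ℂ × V => A q.1 q.2) p := by
  have s : ContDiffAt ℝ ∞ (fun q : ℂ × V => q.2) p := contDiffAt_snd
  by_cases h : p.1 = 0
  · have a := Pt.P_smooth.contDiffAt.comp p ((smc s 0).prodMk (smc s 1))
    refine (sm2 a.fst a.snd).congr_of_eventuallyEq ?_
    have : ∀ᶠ q : ℂ × V in 𝓝 p, ‖q.1‖ ^ 2 < 1 :=
      (continuous_fst.norm.pow 2).continuousAt.eventually_lt continuousAt_const (by simp [h])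
    filter_upwards [this] with q k using A_lo k.le _
  have f := ph_sm h
  have a := Pt.H_smooth.contDiffAt.comp p (((contDiffAt_fst.norm_sq ℂ).sub
    (contDiffAt_const (c := (1 : ℝ)))).prodMk ((((smj f).pow 2).mul (smc s 0)).prodMk
      (((smj f).pow 3).mul (smc s 1))))
  exact sm2 (f.mul a.fst) ((f.pow 6).mul a.snd)

/-- the homogeneous extension -/
def N (ζ : ℂ) (v : V) : V := (‖v‖ / ‖A ζ (‖v‖⁻¹ • v)‖) • A ζ (‖v‖⁻¹ • v)

theorem un_ne {v : V} (h : v ≠ 0) : ‖v‖⁻¹ • v ≠ 0 :=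
  smul_ne_zero (inv_ne_zero (norm_ne_zero_iff.2 h)) h

theorem N_norm (ζ : ℂ) (v : V) : ‖N ζ v‖ = ‖v‖ := by
  by_cases h : v = 0
  · simp [N, h]
  rw [N, norm_smul, norm_div, norm_norm, norm_norm,
    div_mul_cancel₀ _ (norm_ne_zero_iff.2 (A_ne ζ (un_ne h)))]

theorem N_hi {ζ : ℂ} (h : 2 ≤ ‖ζ‖ ^ 2) (v : V) : N ζ v = J ζ v := by
  by_cases z : v = 0
  · rw [z, ← norm_sub_eq_zero_iff]
    refine le_antisymm ((norm_sub_le _ _).trans ?_) (norm_nonneg _)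
    simp [N_norm, J_norm]
  have := norm_ne_zero_iff.2 z
  rw [N, A_hi h, J_norm, J_smul, norm_smul, norm_inv, norm_norm, smul_smul, inv_mul_cancel₀ this,
    div_one, mul_inv_cancel₀ this, one_smul]

theorem N_smul (ζ : ℂ) {t : ℝ} (h : 0 < t) (v : V) : N ζ (t • v) = t • N ζ v := by
  have e : ‖t • v‖⁻¹ • t • v = ‖v‖⁻¹ • v := by
    rw [norm_smul, Real.norm_of_nonneg h.le, smul_smul, mul_inv, mul_right_comm,
      inv_mul_cancel₀ h.ne', one_mul]
  rw [N, e, N, smul_smul, norm_smul, Real.norm_of_nonneg h.le, mul_div_assoc]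

theorem N_eqv {c : ℂ} (hc : ‖c‖ = 1) (ζ : ℂ) (v : V) : N (c * ζ) (aV c v) = aW c (N ζ v) := by
  rw [N, aV_norm hc, ← aV_smul, A_eqv hc, aW_norm hc, N, aW_smul]

theorem N_sm {p : ℂ × V} (h : p.2 ≠ 0) : ContDiffAt ℝ ∞ (fun q : ℂ × V => N q.1 q.2) p := by
  have n : ContDiffAt ℝ ∞ (fun q : ℂ × V => ‖q.2‖) p := contDiffAt_snd.norm ℂ h
  have a := (A_sm _).comp p (contDiffAt_fst.prodMk
    ((n.inv (norm_ne_zero_iff.2 h)).smul contDiffAt_snd))
  exact (n.div (a.norm ℂ (A_ne _ (un_ne h))) (norm_ne_zero_iff.2 (A_ne _ (un_ne h)))).smul a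

/-- cut-off in the fibre -/
def al (v : V) : ℝ := smoothTransition (200000000 * ‖v‖ ^ 2 - 1)
/-- cut-off in the base -/
def be (ζ : ℂ) : ℝ := smoothTransition (‖ζ‖ ^ 2 - 2)
/-- the family -/
def M (p : ℂ × V) : V := al p.2 • N p.1 p.2 + ((1 - al p.2) * be p.1) • J p.1 p.2

theorem al_one {v : V} (h : 1 / 10000 < ‖v‖) : al v = 1 :=
  smoothTransition.one_of_one_le (by nlinarith)

theorem M_sm : ContDiff ℝ ∞ M := by
  have a : ContDiff ℝ ∞ fun q : ℂ × V => al q.2 := smoothTransition.contDiff.comp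
    ((contDiff_const.mul (contDiff_snd.norm_sq ℂ)).sub contDiff_const)
  have b : ContDiff ℝ ∞ fun q : ℂ × V => be q.1 := smoothTransition.contDiff.comp
    ((contDiff_fst.norm_sq ℂ).sub contDiff_const)
  refine contDiff_iff_contDiffAt.2 fun p => ContDiffAt.add ?_ ?_
  · by_cases h : p.2 = 0
    · refine (contDiffAt_const (c := (0 : V))).congr_of_eventuallyEq ?_
      have : ∀ᶠ q : ℂ × V in 𝓝 p, 200000000 * ‖q.2‖ ^ 2 - 1 < 0 :=
        ContinuousAt.eventually_lt (by fun_prop) continuousAt_const (by simp [h])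
      filter_upwards [this] with q k
      rw [al, smoothTransition.zero_of_nonpos k.le, zero_smul]
    · exact a.contDiffAt.smul (N_sm h)
  · by_cases h : p.1 = 0
    · refine (contDiffAt_const (c := (0 : V))).congr_of_eventuallyEq ?_
      have : ∀ᶠ q : ℂ × V in 𝓝 p, ‖q.1‖ ^ 2 - 2 < 0 :=
        ContinuousAt.eventually_lt (by fun_prop) continuousAt_const (by simp [h])
      filter_upwards [this] with q k
      rw [be, smoothTransition.zero_of_nonpos k.le, mul_zero, zero_smul]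
    · exact ((contDiff_const.sub a).mul b).contDiffAt.smul (sm2
        ((smj (ph_sm h)).mul (smc contDiffAt_snd 0)) (((ph_sm h).pow 3).mul (smc contDiffAt_snd 1)))

end Mk

open Mk in
theorem mz : MZ := by
  refine ⟨M, M_sm, fun c ζ v hc => ?_, fun ζ v => ?_, fun ζ v h => ?_, fun ζ v t h ht => ?_,
    fun ζ v h => ?_⟩
  · simp only [M, al, be, aV_norm hc, norm_mul, hc, one_mul, N_eqv hc, aW_add, aW_smul]
    by_cases z : ζ = 0
    · rw [smoothTransition.zero_of_nonpos (x := ‖ζ‖ ^ 2 - 2) (by simp [z])]; simp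
    · rw [J_eqv hc z]
  · have a : 0 ≤ al v := smoothTransition.nonneg _
    have a' : al v ≤ 1 := smoothTransition.le_one _
    have b : 0 ≤ be ζ := smoothTransition.nonneg _
    have b' : be ζ ≤ 1 := smoothTransition.le_one _
    refine (norm_add_le _ _).trans ?_
    rw [norm_smul, norm_smul, N_norm, J_norm, Real.norm_of_nonneg a,
      Real.norm_of_nonneg (mul_nonneg (sub_nonneg.2 a') b)]
    nlinarith [mul_nonneg (mul_nonneg (sub_nonneg.2 a') (sub_nonneg.2 b')) (norm_nonneg v)]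
  · simp [M, al_one h, N_norm]
  · have h' : 1 / 10000 < ‖t • v‖ := by
      rw [norm_smul, Real.norm_of_nonneg (by linarith)]; nlinarith
    simp [M, al_one h, al_one h', N_smul ζ (zero_lt_one.trans_le ht)]
  · have z : ζ ≠ 0 := by rintro rfl; norm_num at h
    have b : be ζ = 1 := smoothTransition.one_of_one_le (by linarith)
    rw [M, N_hi (by linarith), b, mul_one, ← add_smul, add_sub_cancel, one_smul, J, ph_ne z]

end

end Crest.Agent.N218.P
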