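import Crest.Agent.N218.P.Defs

/-!
# Row 218 (helper67): the path from body + piece to the Lyapunov function
-/

set_option autoImplicit false
open Set Real Filter Topology
open scoped ContDiff RealInnerProductSpace ComplexConjugate

namespace Crest.Agent.N218.P
open A Sh

noncomputable section

namespace Pa

theorem st_mem (x : ℝ) : 0 ≤ st x ∧ st x ≤ 1 :=
  ⟨smoothTransition.nonneg x, smoothTransition.le_one x⟩

theorem Sm_z (h : SM) {t : ℝ} (ht : t ≤ -(1 / 1000)) : Sm t = 0 := by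
  rw [Sm, h.z _ (by linarith), zero_div]

theorem Sm_o (h : SM) {t : ℝ} (ht : 1 / 1000 ≤ t) : Sm t = t := by
  rw [Sm, h.o _ (by linarith)]; ring

theorem smin_l (h : SM) {a b : ℝ} (e : a + 1 / 1000 ≤ b) : smin a b = a := by
  rw [smin, Sm_z h (by linarith), sub_zero]

theorem smin_r (h : SM) {a b : ℝ} (e : b + 1 / 1000 ≤ a) : smin a b = b := by
  rw [smin, Sm_o h (by linarith)]; ring

theorem smin_le (h : SM) (a b : ℝ) : smin a b ≤ a ∧ smin a b ≤ b := by
  have := h.Sm_ge (a - b)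
  have := le_max_left (a - b) 0
  have := le_max_right (a - b) 0
  constructor <;> (rw [smin]; linarith)

theorem smin_ge (h : SM) (a b : ℝ) : a - 1 / 1000 ≤ smin a b ∨ b - 1 / 1000 ≤ smin a b := by
  have := h.Sm_le (a - b)
  rw [smin]
  rcases le_total (a - b) 0 with e | e
  · rw [max_eq_right e] at this; left; linarith
  · rw [max_eq_left e] at this; right; linarith

theorem smin_d (h : SM) {A B : ℝ → ℝ} {α β x : ℝ} (hA : HasDerivAt A α x) (hB : HasDerivAt B β x) :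
    HasDerivAt (fun r => smin (A r) (B r)) (α - st (500 * (A x - B x) + 1 / 2) * (α - β)) x := by
  have := hA.sub (((h.d _).comp x (((hA.sub hB).const_mul 500).add_const (1 / 2))).div_const 500)
  refine this.congr_deriv ?_
  change α - st (500 * (A x - B x) + 1 / 2) * (500 * (α - β)) / 500 = _
  ring

theorem smin_sm (h : SM) {E : Type} [NormedAddCommGroup E] [NormedSpace ℝ E] {A B : E → ℝ}
    (hA : ContDiff ℝ ∞ A) (hB : ContDiff ℝ ∞ B) : ContDiff ℝ ∞ fun r => smin (A r) (B r) :=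
  hA.sub ((h.sm.comp ((contDiff_const.mul (hA.sub hB)).add contDiff_const)).div_const 500)

/-- the coordinates as a continuous linear map -/
def coL : Y →L[ℝ] V × V × ℝ × ℝ := LinearMap.toContinuousLinearMap
  { toFun := co
    map_add' := fun x y => by
      refine Prod.ext ?_ (Prod.ext ?_ (Prod.ext ?_ ?_))
      · ext i; fin_cases i <;> simp [co, pv]
      · ext i; fin_cases i <;> simp [co, pw]
      · simp [co, u2]
      · simp [co, u1]
    map_smul' := fun c y => by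
      refine Prod.ext ?_ (Prod.ext ?_ (Prod.ext ?_ ?_))
      · ext i; fin_cases i <;> simp [co, pv]
      · ext i; fin_cases i <;> simp [co, pw]
      · simp [co, u2]
      · simp [co, u1] }

theorem coL_eq (y : Y) : coL y = co y := rfl

theorem co_surj (z : V × V × ℝ × ℝ) : ∃ y, co y = z := by
  refine ⟨!₂[z.1 0, z.1 1, z.2.1 0, z.2.1 1, ⟨z.2.2.1, z.2.2.2⟩], ?_⟩
  refine Prod.ext ?_ (Prod.ext ?_ (Prod.ext ?_ ?_))
  · ext i; fin_cases i <;> simp [co, pv]
  · ext i; fin_cases i <;> simp [co, pw]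
  · simp [co, u2]
  · simp [co, u1]

theorem co_ev : co ev = (0, 0, 0, 1) := by
  refine Prod.ext ?_ (Prod.ext ?_ (Prod.ext ?_ ?_))
  · ext i; fin_cases i <;> simp [co, pv, ev]
  · ext i; fin_cases i <;> simp [co, pw, ev]
  · simp [co, u2, ev]
  · simp [co, u1, ev]

theorem nsq (y : Y) : ‖y‖ ^ 2 = tau (co y) + u2 y ^ 2 + u1 y ^ 2 := by
  simp only [tau, co, EuclideanSpace.norm_sq_eq, Fin.sum_univ_five, Fin.sum_univ_two, pv, pw, u2,
    u1, Complex.sq_norm (y 4), Complex.normSq_apply]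
  simp; ring

theorem inner_ev (y : Y) : ⟪ev, y⟫ = u1 y := by
  simp [PiLp.inner_apply, Fin.sum_univ_five, ev, u1, Complex.inner]

theorem norm_ev : ‖ev‖ = 1 := by
  have := nsq ev
  rw [co_ev] at this
  simp only [tau, u2, u1, ev] at this
  exact (sq_eq_sq₀ (norm_nonneg _) zero_le_one).1 (this.trans (by simp))

theorem u1_aff (s : ℝ) (y : Y) : u1 (s • y + ev) = s * u1 y + 1 := by simp [u1, ev]

theorem nV (v : V) : ‖v‖ ^ 2 = ‖v 0‖ ^ 2 + ‖v 1‖ ^ 2 := by
  rw [EuclideanSpace.norm_sq_eq, Fin.sum_univ_two]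

theorem n_aV {c : ℂ} (hc : ‖c‖ = 1) (v : V) : ‖aV c v‖ ^ 2 = ‖v‖ ^ 2 := by
  simp [nV, aV, hc]

theorem n_aW {c : ℂ} (hc : ‖c‖ = 1) (v : V) : ‖aW c v‖ ^ 2 = ‖v‖ ^ 2 := by
  simp [nV, aW, hc]

theorem i_aW {c : ℂ} (hc : ‖c‖ = 1) (v w : V) : ⟪aW c v, aW c w⟫ = ⟪v, w⟫ := by
  have e : aW c v + aW c w = aW c (v + w) := by ext i; fin_cases i <;> simp [aW, mul_add]
  have a := norm_add_sq_real (aW c v) (aW c w)
  have b := norm_add_sq_real v w
  rw [e, n_aW hc, n_aW hc, n_aW hc] at a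
  linarith

theorem co_act (c : ℂ) (y : Y) : co (act c y) = (aV c (pv y), aW c (pw y), u2 y, u1 y) := by
  refine Prod.ext ?_ (Prod.ext ?_ (Prod.ext ?_ ?_))
  · ext i; fin_cases i <;> simp [co, pv, act, aV]
  · ext i; fin_cases i <;> simp [co, pw, act, aW]
  · simp [co, u2, act]
  · simp [co, u1, act]

theorem tau_act {c : ℂ} (hc : ‖c‖ = 1) (y : Y) : tau (co (act c y)) = tau (co y) := by
  rw [co_act]; simp only [tau, co, n_aV hc, n_aW hc]

theorem act_aff (c : ℂ) (s : ℝ) (y : Y) : s • act c y + ev = act c (s • y + ev) := by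
  ext i; fin_cases i <;> simp [act, ev] <;> ring

theorem bo_act {c : ℂ} (hc : ‖c‖ = 1) (y : Y) : bo ev (act c y) = bo ev y := by
  have a : u1 (act c y) = u1 y := by simp [u1, act]
  have b : u2 (act c y) = u2 y := by simp [u2, act]
  simp only [bo, inner_ev, nsq, tau_act hc, a, b]

theorem G_act {M : ℂ × V → V} (hM : Mz M) {c : ℂ} (hc : ‖c‖ = 1) (ζ : ℂ) (x b : ℝ) (y : Y) :
    G (fun v => M (c * ζ, v)) x b (co (act c y)) = G (fun v => M (ζ, v)) x b (co y) := by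
  simp only [G, tau_act hc]
  rw [co_act]
  simp only [co, n_aV hc, n_aW hc, hM.eqv c ζ _ hc, i_aW hc]

theorem th_sm (h : SM) : ContDiff ℝ ∞ th :=
  contDiff_const.mul ((h.sm.comp (contDiff_const.sub contDiff_id)).sub
    (h.sm.comp (contDiff_const.sub contDiff_id)))

theorem G_sm (h : SM) {M : ℂ × V → V} (hM : ContDiff ℝ ∞ M) {E : Type} [NormedAddCommGroup E]
    [NormedSpace ℝ E] {ζ : E → ℂ} {x b : E → ℝ} {z : E → V × V × ℝ × ℝ} (hζ : ContDiff ℝ ∞ ζ)
    (hx : ContDiff ℝ ∞ x) (hb : ContDiff ℝ ∞ b) (hz : ContDiff ℝ ∞ z) :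
    ContDiff ℝ ∞ fun p => G (fun v => M (ζ p, v)) (x p) (b p) (z p) := by
  have v := hz.fst
  have w := hz.snd.fst
  have t : ContDiff ℝ ∞ fun p => tau (z p) := (v.norm_sq ℝ).add (w.norm_sq ℝ)
  have a := (th_sm h).comp t
  exact (((((((a.cos.pow 2).mul (v.norm_sq ℝ)).add ((a.sin.pow 2).mul (w.norm_sq ℝ))).sub
    (((contDiff_const.mul a.sin).mul a.cos).mul ((hM.comp (hζ.prodMk v)).inner ℝ w))).add
    (hz.snd.snd.fst.pow 2)).add ((hz.snd.snd.snd.sub (hb.mul
      ((contDiff_const.mul t).sub contDiff_const))).pow 2)).sub (t.div_const _)).add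
    (contDiff_const.mul (h.sm.comp (contDiff_const.mul (t.sub hx)))) |>.sub contDiff_const

theorem G_lo (h : SM) {M : V → V} (hM : ∀ v, ‖M v‖ ≤ ‖v‖) (c b : ℝ) (z : V × V × ℝ × ℝ) :
    z.2.2.1 ^ 2 + (z.2.2.2 - b * (3 * tau z - 1)) ^ 2 - tau z / 1000 + Ee (tau z - c) - 1 / 100 ≤
      G M c b z := by
  obtain ⟨t0, t1⟩ := h.th_mem (tau z)
  have s0 : 0 ≤ sin (th (tau z)) := sin_nonneg_of_nonneg_of_le_pi t0 (by linarith [pi_pos])
  have c0 : 0 ≤ cos (th (tau z)) := cos_nonneg_of_neg_pi_div_two_le_of_le (by linarith [pi_pos]) t1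
  have i : ⟪M z.1, z.2.1⟫ ≤ ‖z.1‖ * ‖z.2.1‖ := (real_inner_le_norm _ _).trans (by gcongr; exact hM _)
  have := mul_le_mul_of_nonneg_left i (mul_nonneg s0 c0)
  rw [G]
  nlinarith [sq_nonneg (cos (th (tau z)) * ‖z.1‖ - sin (th (tau z)) * ‖z.2.1‖)]

theorem tau_nn (z : V × V × ℝ × ℝ) : 0 ≤ tau z := by unfold tau; positivity

theorem Ee_lo (h : SM) (x : ℝ) : 0 ≤ Ee x ∧ 1000 * x - 50 ≤ Ee x := by
  have := h.nn (10 * x); have := h.ge (10 * x)
  constructor <;> (rw [Ee]; linarith)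

theorem G_nn (h : SM) {M : V → V} (hM : ∀ v, ‖M v‖ ≤ ‖v‖) {c : ℝ} (hc : c ≤ 4) (b : ℝ)
    (z : V × V × ℝ × ℝ) : -(1 / 50) ≤ G M c b z := by
  have := G_lo h hM c b z
  obtain ⟨e0, e1⟩ := Ee_lo h (tau z - c)
  have := sq_nonneg z.2.2.1; have := sq_nonneg (z.2.2.2 - b * (3 * tau z - 1))
  rcases le_total (tau z) 5 with e | e <;> linarith

theorem G_big (h : SM) {M : V → V} (hM : ∀ v, ‖M v‖ ≤ ‖v‖) {c b : ℝ} (hc : c ≤ 4) (b0 : 0 ≤ b)
    (b1 : b ≤ 1) {y : Y} (hy : 39 ≤ ‖y‖) : 100 ≤ G M c b (co y) ∧ u1 y + 1 ≤ G M c b (co y) := by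
  have g := G_lo h hM c b (co y)
  obtain ⟨e0, e1⟩ := Ee_lo h (tau (co y) - c)
  have n := nsq y
  have t := tau_nn (co y)
  have : 39 ^ 2 ≤ ‖y‖ ^ 2 := by gcongr
  change u2 y ^ 2 + (u1 y - b * (3 * tau (co y) - 1)) ^ 2 - _ + _ - _ ≤ _ at g
  generalize tau (co y) = τ at *
  have k1 : b * (3 * τ - 1) ≤ 3 * τ := by nlinarith
  have k2 : -1 ≤ b * (3 * τ - 1) := by nlinarith
  generalize b * (3 * τ - 1) = k at *
  have := sq_nonneg (u2 y)
  rcases le_total τ 5 with e | e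
  · have : k ^ 2 ≤ 225 := by nlinarith
    constructor <;> nlinarith [sq_nonneg (u1 y - 2 * k), sq_nonneg (u1 y - 2)]
  · constructor <;> nlinarith [sq_nonneg (u1 y - k), sq_nonneg (u1 y - k - 1 / 2)]

theorem gm {M : ℂ × V → V} (hM : Mz M) (ζ : ℂ) {c : ℝ} (c0 : 0 ≤ c) (c4 : c ≤ 4)
    (hc : ‖ζ‖ ^ 2 ≤ 3 → c = 4) : GM (fun v => M (ζ, v)) c := by
  have d : Differentiable ℝ fun v => M (ζ, v) :=
    (hM.sm.differentiable (by simp)).comp (by fun_prop)
  refine ⟨d, hM.le ζ, c0, c4, ?_⟩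
  rcases le_total (‖ζ‖ ^ 2) 3 with e | e
  · refine .inl ⟨hc e, fun v hv => ⟨hM.nrm ζ v hv, ?_⟩⟩
    have a : HasDerivAt (fun t : ℝ => M (ζ, t • v)) (fderiv ℝ (fun v => M (ζ, v)) v v) 1 := by
      have := (d ((1 : ℝ) • v)).hasFDerivAt.comp_hasDerivAt (1 : ℝ)
        ((hasDerivAt_id (1 : ℝ)).smul_const v)
      rwa [one_smul] at this
    have b : HasDerivWithinAt (fun t : ℝ => M (ζ, t • v)) (M (ζ, v)) (Ici 1) 1 := by
      have := ((hasDerivAt_id (1 : ℝ)).smul_const (M (ζ, v))).hasDerivWithinAt (s := Ici 1)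
      rw [one_smul] at this
      exact this.congr (fun t ht => hM.hom ζ v t hv ht) (hM.hom ζ v 1 hv le_rfl)
    exact (uniqueDiffWithinAt_Ici 1).eq_deriv _ a.hasDerivWithinAt b
  · have z : ‖ζ‖ ≠ 0 := fun z => by rw [z] at e; norm_num at e
    have n : ‖ζ / (‖ζ‖ : ℂ)‖ = 1 := by simp [z]
    let L : V →ₗᵢ[ℝ] V :=
      { toFun := fun v => M (ζ, v)
        map_add' := fun x y => by
          simp only [hM.flat ζ _ e]; ext i; fin_cases i <;> simp [mul_add]
        map_smul' := fun x y => by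
          simp only [hM.flat ζ _ e]; ext i; fin_cases i <;> simp <;> ring
        norm_map' := fun v => by
          refine (sq_eq_sq₀ (norm_nonneg _) (norm_nonneg _)).1 ?_
          change ‖M (ζ, v)‖ ^ 2 = _
          rw [hM.flat ζ _ e, nV, nV]
          simp only [Matrix.cons_val_zero, Matrix.cons_val_one, norm_mul, norm_pow, n,
            RCLike.norm_conj, one_mul, one_pow] }
    exact .inr ⟨L.toLinearIsometryEquiv rfl, rfl⟩

/-- the field `X` increases `G` near the attaching region -/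
theorem G_X (h : SM) (M : V → V) {c : ℝ} (c0 : 0 ≤ c) {y : Y} (t : tau (co y) < 1)
    (g : 0 ≤ G M c 1 (co y)) :
    ∃ d, 0 < d ∧ HasDerivAt (fun r : ℝ => G M c 1 (co (y + r • (y + (u1 y + 2) • ev)))) d 0 := by
  have e : ∀ r : ℝ, co (y + r • (y + (u1 y + 2) • ev)) =
      ((1 + r) • pv y, (1 + r) • pw y, (1 + r) * u2 y, u1 y + r * (2 * (u1 y + 1))) := fun r => by
    rw [← coL_eq, map_add, map_smul, map_add, map_smul, coL_eq, coL_eq, co_ev]
    simp only [co, Prod.smul_mk, Prod.mk_add_mk, smul_zero, add_zero, add_smul, one_smul,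
      smul_eq_mul, mul_zero, mul_one]
    congr 3 <;> ring
  have et : ∀ r : ℝ, tau (co (y + r • (y + (u1 y + 2) • ev))) = (1 + r) ^ 2 * tau (co y) :=
    fun r => by rw [e]; simp only [tau, co, norm_smul, mul_pow, Real.norm_eq_abs, sq_abs]; ring
  have f : ∀ r : ℝ, (1 + r) ^ 2 * tau (co y) < 1 → G M c 1 (co (y + r • (y + (u1 y + 2) • ev))) =
      (1 + r) ^ 2 * (‖pw y‖ ^ 2 + u2 y ^ 2 - tau (co y) / 1000) +
        (u1 y + r * (2 * (u1 y + 1)) - (3 * ((1 + r) ^ 2 * tau (co y)) - 1)) ^ 2 +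
        100 * S1 (10 * ((1 + r) ^ 2 * tau (co y) - c)) - 1 / 100 := fun r hr => by
    rw [G, et, h.th_lo _ hr.le, cos_pi_div_two, sin_pi_div_two, e, Ee]
    simp only [norm_smul, mul_pow, Real.norm_eq_abs, sq_abs]
    ring
  have f0 := f 0 (by simpa using t)
  simp only [zero_smul, add_zero, one_pow, one_mul, zero_mul] at f0
  have n := tau_nn (co y)
  generalize tau (co y) = τ at *
  have q : HasDerivAt (fun r : ℝ => (1 + r) ^ 2) 2 0 := by
    exact (((hasDerivAt_id (0 : ℝ)).const_add 1).pow 2).congr_deriv (by simp)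
  have d1 := ((((q.mul_const (‖pw y‖ ^ 2 + u2 y ^ 2 - τ / 1000)).add
    (((((hasDerivAt_id (0 : ℝ)).mul_const (2 * (u1 y + 1))).const_add (u1 y)).sub
      (((q.mul_const τ).const_mul 3).sub_const 1)).pow 2)).add
    (((h.d _).comp (0 : ℝ) (((q.mul_const τ).sub_const c).const_mul 10)).const_mul 100)).sub_const
      (1 / 100))
  refine ⟨_, ?_, d1.congr_of_eventuallyEq ?_⟩
  · have k : S1 (10 * (τ - c)) ≤ 10 * τ * st (10 * (τ - c)) := by
      have := st_mem (10 * (τ - c))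
      rcases le_total (10 * (τ - c)) 0 with z | z
      · rw [h.z _ z]; exact mul_nonneg (by linarith) this.1
      · nlinarith [h.le _ z]
    simp only [add_zero, one_pow, one_mul, id, zero_mul, Pi.sub_apply]
    nlinarith [sq_nonneg (u1 y - (3 * τ - 1))]
  · have : ∀ᶠ r : ℝ in 𝓝 0, (1 + r) ^ 2 * τ < 1 :=
      (q.mul_const τ).continuousAt.eventually_lt continuousAt_const (by simpa using t)
    exact this.mono fun r hr => f r hr

/-- the parameters along the path -/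
def sP (s t : ℝ) : ℝ := s + st (3 * t) * (1 - s)
/-- the width of the rim -/
def cP (t : ℝ) (ζ : ℂ) : ℝ := c0 ζ + st (3 * t) * (4 - c0 ζ)
/-- the body along the path -/
def bP (s t : ℝ) (y : Y) : ℝ := boY (sP s t) y + 2 * st (3 * t - 1)
/-- the tube along the path -/
def gP (M : ℂ × V → V) (t : ℝ) (ζ : ℂ) (y : Y) : ℝ :=
  G (fun v => M (ζ, v)) (cP t ζ) (1 - st (3 * t - 2)) (co y)
/-- the path -/
def fP (M : ℂ × V → V) (s : ℝ) (p : ℝ × ℂ × Y) : ℝ :=
  smin (3 / 4) (smin (bP s p.1 p.2.2) (gP M p.1 p.2.1 p.2.2))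

theorem sP_mem {s : ℝ} (hs : 1 ≤ s) (t : ℝ) : 1 ≤ sP s t ∧ sP s t ≤ s := by
  have := st_mem (3 * t)
  constructor <;> (rw [sP]; nlinarith)

theorem cP_mem (t : ℝ) (ζ : ℂ) : 0 ≤ cP t ζ ∧ cP t ζ ≤ 4 ∧ (‖ζ‖ ^ 2 ≤ 3 → cP t ζ = 4) := by
  have := st_mem (3 * t)
  have := st_mem (4 - ‖ζ‖ ^ 2)
  refine ⟨by rw [cP, c0]; nlinarith, by rw [cP, c0]; nlinarith, fun e => ?_⟩
  rw [cP, c0, show st (4 - ‖ζ‖ ^ 2) = 1 from smoothTransition.one_of_one_le (by linarith)]; ring

theorem st_sm {E : Type} [NormedAddCommGroup E] [NormedSpace ℝ E] {f : E → ℝ}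
    (hf : ContDiff ℝ ∞ f) : ContDiff ℝ ∞ fun p => st (f p) := smoothTransition.contDiff.comp hf

theorem bP_sm (hB : BO) {s : ℝ} (hs : 1 ≤ s) :
    ContDiff ℝ ∞ fun p : ℝ × ℂ × Y => bP s p.1 p.2.2 := by
  have a : ContDiff ℝ ∞ fun p : ℝ × ℂ × Y => sP s p.1 :=
    contDiff_const.add ((st_sm (by fun_prop)).mul contDiff_const)
  exact (a.mul ((hB Y ev norm_ev).1.comp (((a.inv fun p => by
    linarith [(sP_mem hs p.1).1]).smul contDiff_snd.snd).add contDiff_const))).add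
    (contDiff_const.mul (st_sm (by fun_prop)))

theorem gP_sm (h : SM) {M : ℂ × V → V} (hM : Mz M) :
    ContDiff ℝ ∞ fun p : ℝ × ℂ × Y => gP M p.1 p.2.1 p.2.2 := by
  have c : ContDiff ℝ ∞ fun p : ℝ × ℂ × Y => c0 p.2.1 :=
    contDiff_const.mul (st_sm (contDiff_const.sub (contDiff_snd.fst.norm_sq ℝ)))
  exact G_sm h hM.sm contDiff_snd.fst
    (c.add ((st_sm (by fun_prop)).mul (contDiff_const.sub c)))
    (contDiff_const.sub (st_sm (by fun_prop))) (coL.contDiff.comp contDiff_snd.snd)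

theorem bo_d (hB : BO) {s : ℝ} (hs : 1 ≤ s) (a : ℝ) (y ξ : Y) : HasDerivAt
    (fun r : ℝ => boY s (y + r • ξ) + a) (fderiv ℝ (bo ev) (s⁻¹ • y + ev) ξ) 0 := by
  have l : HasDerivAt (fun r : ℝ => s⁻¹ • (y + r • ξ) + ev) (s⁻¹ • ξ) 0 := by
    simpa using ((((hasDerivAt_id (0 : ℝ)).smul_const ξ).const_add y).const_smul s⁻¹).add_const ev
  have d := ((hB Y ev norm_ev).1.differentiable (by simp) (s⁻¹ • (y + (0 : ℝ) • ξ) + ev)).hasFDerivAt
  have := ((d.comp_hasDerivAt (0 : ℝ) l).const_mul s).add_const a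
  simp only [zero_smul, add_zero, map_smul, smul_eq_mul] at this
  rwa [← mul_assoc, mul_inv_cancel₀ (by linarith), one_mul] at this

theorem boY_lo (hB : BO) {s : ℝ} (hs : 1 ≤ s) (y : Y) :
    u1 y ≤ boY s y ∧ s * (‖s⁻¹ • y + ev‖ ^ 2 / 10000 - 3 / 4) ≤ boY s y := by
  obtain ⟨-, -, b1, b2, -⟩ := hB Y ev norm_ev
  refine ⟨?_, mul_le_mul_of_nonneg_left (b2 _) (by linarith)⟩
  have := mul_le_mul_of_nonneg_left (b1 (s⁻¹ • y + ev)) (show 0 ≤ s by linarith)
  rwa [inner_ev, u1_aff, add_sub_cancel_right, ← mul_assoc, mul_inv_cancel₀ (by linarith),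
    one_mul] at this

theorem n_aff {s : ℝ} (hs : 1 ≤ s) (y : Y) :
    ‖s⁻¹ • y + ev‖ ≤ ‖y‖ + 1 ∧ s⁻¹ * ‖y‖ - 1 ≤ ‖s⁻¹ • y + ev‖ := by
  have i : 0 ≤ s⁻¹ := by positivity
  have n : ‖s⁻¹ • y‖ = s⁻¹ * ‖y‖ := by rw [norm_smul, Real.norm_of_nonneg i]
  have a := norm_add_le (s⁻¹ • y) ev
  have b := norm_sub_le (s⁻¹ • y + ev) ev
  rw [add_sub_cancel_right] at b
  rw [n, norm_ev] at a b
  have := mul_le_of_le_one_left (norm_nonneg y) (inv_le_one_of_one_le₀ hs)
  constructor <;> linarith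

theorem reg (h : SM) (hC : CRIT) (hB : BO) {M : ℂ × V → V} (hM : Mz M) {s : ℝ} (hs : 1 ≤ s)
    (t : ℝ) (ζ : ℂ) (y : Y) (z : smin (bP s t y) (gP M t ζ y) = 0) : ∃ (ξ : Y) (d : ℝ), d ≠ 0 ∧
      HasDerivAt (fun r : ℝ => smin (bP s t (y + r • ξ)) (gP M t ζ (y + r • ξ))) d 0 := by
  obtain ⟨s1, -⟩ := sP_mem hs t
  obtain ⟨c1, c2, c3⟩ := cP_mem t ζ
  have gM := gm hM ζ c1 c2 c3
  have gd : Differentiable ℝ (G (fun v => M (ζ, v)) (cP t ζ) (1 - st (3 * t - 2))) :=
    (G_sm h hM.sm contDiff_const contDiff_const contDiff_const contDiff_id).differentiable (by simp)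
  have dG : ∀ ξ : Y, HasDerivAt (fun r : ℝ => gP M t ζ (y + r • ξ))
      (fderiv ℝ (G (fun v => M (ζ, v)) (cP t ζ) (1 - st (3 * t - 2))) (co y) (co ξ)) 0 := fun ξ => by
    have l : HasDerivAt (fun r : ℝ => coL (y + r • ξ)) (coL ξ) 0 := by
      exact (coL.hasFDerivAt.comp_hasDerivAt (0 : ℝ)
        (((hasDerivAt_id (0 : ℝ)).smul_const ξ).const_add y)).congr_deriv (by rw [one_smul])
    have := (gd (coL (y + (0 : ℝ) • ξ))).hasFDerivAt.comp_hasDerivAt (0 : ℝ) l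
    rwa [zero_smul, add_zero] at this
  have dB := fun ξ => bo_d hB s1 (2 * st (3 * t - 1)) y ξ
  obtain ⟨l1, l2⟩ := smin_le h (bP s t y) (gP M t ζ y)
  have l3 := smin_ge h (bP s t y) (gP M t ζ y)
  rw [z] at l1 l2 l3
  obtain ⟨b1, b2⟩ := boY_lo hB s1 y
  obtain ⟨a0, a1⟩ := st_mem (3 * t - 1)
  -- the phases
  have ph : (st (3 * t - 1) = 0 ∧ st (3 * t - 2) = 0) ∨ (sP s t = 1 ∧ st (3 * t - 2) = 0) ∨
      5 / 4 ≤ bP s t y := by
    rcases le_total (3 * t) 1 with e | e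
    · exact .inl ⟨smoothTransition.zero_of_nonpos (by linarith),
        smoothTransition.zero_of_nonpos (by linarith)⟩
    have s2 : sP s t = 1 := by rw [sP, show st (3 * t) = 1 from smoothTransition.one_of_one_le e]; ring
    rcases le_total (3 * t) 2 with e | e
    · exact .inr (.inl ⟨s2, smoothTransition.zero_of_nonpos (by linarith)⟩)
    · refine .inr (.inr ?_)
      rw [bP, show st (3 * t - 1) = 1 from smoothTransition.one_of_one_le (by linarith)]
      rw [s2] at b2 ⊢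
      nlinarith [sq_nonneg ‖(1 : ℝ)⁻¹ • y + ev‖]
  have y0 : bP s t y < 5 / 4 → (sP s t)⁻¹ • y + ev ≠ 0 := fun lt e => by
    rcases ph with ⟨p1, -⟩ | ⟨p1, p2⟩ | p
    · obtain ⟨-, -, -, -, -, b, -⟩ := hB Y ev norm_ev
      have := b 0 (by simp) (by simp)
      rw [bP, boY, e, p1] at l1
      nlinarith
    · rw [p1, inv_one, one_smul, add_eq_zero_iff_eq_neg] at e
      have c : co y = (0, 0, 0, -1) := by
        rw [e, ← coL_eq, map_neg, coL_eq, co_ev]; simp
      have : tau (co y) = 0 := by rw [c]; simp [tau]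
      rw [gP, G, this, c, p2, Ee, h.z _ (by linarith)] at l2
      norm_num at l2
    · linarith
  by_cases k1 : bP s t y + 1 / 1000 ≤ gP M t ζ y
  · refine ⟨(sP s t)⁻¹ • y + ev, _, ?_, smin_d h (dB _) (dG _)⟩
    rw [zero_smul, add_zero, show st _ = 0 from smoothTransition.zero_of_nonpos (by
      linarith), zero_mul, sub_zero]
    exact ((hB Y ev norm_ev).2.2.2.2.2.2 _ (y0 (by rw [smin_l h k1] at z; linarith))).1.ne'
  by_cases k2 : gP M t ζ y + 1 / 1000 ≤ bP s t y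
  · rw [smin_r h k2] at z
    have : fderiv ℝ (G (fun v => M (ζ, v)) (cP t ζ) (1 - st (3 * t - 2))) (co y) ≠ 0 := fun e => by
      rcases hC _ _ _ _ gM e (by change gP M t ζ y ≤ _; linarith) with c | c
      · have : tau (co y) = 0 := by rw [c]; simp [tau]
        rw [gP, G, this, c, Ee, h.z _ (by linarith)] at z
        norm_num at z
      · have : gP M t ζ y ≤ _ := c.1
        linarith
    obtain ⟨w, hw⟩ := ContinuousLinearMap.exists_ne_zero this
    obtain ⟨ξ, rfl⟩ := co_surj w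
    refine ⟨ξ, _, ?_, smin_d h (dB _) (dG _)⟩
    rwa [zero_smul, add_zero, show st _ = 1 from smoothTransition.one_of_one_le (by
      linarith), one_mul, sub_sub_cancel]
  have B1 : bP s t y ≤ 1 / 500 := by rcases l3 with e | e <;> linarith
  have G1 : gP M t ζ y ≤ 1 / 500 := by rcases l3 with e | e <;> linarith
  have p2 : st (3 * t - 2) = 0 := by
    rcases ph with p | p | p
    exacts [p.2, p.2, by linarith]
  have u : u1 y ≤ 1 / 500 := by rw [bP] at B1; linarith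
  have tl : tau (co y) < 1 := by
    have g := G_lo h (hM.le ζ) (cP t ζ) 1 (co y)
    have := (Ee_lo h (tau (co y) - cP t ζ)).1
    rw [gP, p2, sub_zero] at G1
    change u2 y ^ 2 + (u1 y - 1 * (3 * tau (co y) - 1)) ^ 2 - _ + _ - _ ≤ _ at g
    by_contra k
    nlinarith [sq_nonneg (u2 y)]
  obtain ⟨γ, γ0, dγ⟩ := G_X h (fun v => M (ζ, v)) c1 tl (by rwa [gP, p2, sub_zero] at l2)
  have β0 : 0 < fderiv ℝ (bo ev) ((sP s t)⁻¹ • y + ev) (y + (u1 y + 2) • ev) := by
    rcases ph with ⟨p1, -⟩ | ⟨p1, -⟩ | p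
    · obtain ⟨-, -, -, -, b3, b4, -⟩ := hB Y ev norm_ev
      have n : ‖y‖ < 39 := by
        by_contra k
        have := (G_big h (hM.le ζ) c2 zero_le_one le_rfl (not_lt.1 k)).1
        rw [gP, p2, sub_zero] at G1
        linarith
      have n1 := (n_aff s1 y).1
      rw [bP, boY, p1] at l1
      have k : 1 / 2 < ⟪ev, (sP s t)⁻¹ • y + ev⟫ := by
        by_contra k
        nlinarith [b4 _ (by linarith) (not_lt.1 k)]
      have ee : bo ev =ᶠ[𝓝 ((sP s t)⁻¹ • y + ev)] fun x => innerSL ℝ ev x - 1 := by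
        filter_upwards [continuous_norm.continuousAt.eventually_lt continuousAt_const
          (show ‖(sP s t)⁻¹ • y + ev‖ < 40 by linarith), continuousAt_const.eventually_lt
          (innerSL ℝ ev).continuous.continuousAt k] with x x1 x2 using b3 x x1.le x2.le
      rw [ee.fderiv_eq, ((innerSL ℝ ev).hasFDerivAt.sub_const 1).fderiv, innerSL_apply_apply,
        inner_ev]
      rw [b3 _ (by linarith) k.le, inner_ev, u1_aff, add_sub_cancel_right, ← mul_assoc,
        mul_inv_cancel₀ (by linarith)] at l1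
      have : u1 (y + (u1 y + 2) • ev) = 2 * (u1 y + 1) := by simp [u1, ev]; ring
      linarith
    · have := ((hB Y ev norm_ev).2.2.2.2.2.2 _ (y0 (by linarith))).2
      rw [inner_ev, u1_aff] at this
      rw [p1] at this ⊢
      convert this using 2
      rw [inv_one, one_smul, one_mul, add_smul, add_smul, two_smul, one_smul]
      abel
    · linarith
  refine ⟨y + (u1 y + 2) • ev, _, ?_, smin_d h (dB _) (B := fun r => gP M t ζ (y + r • _))
    (by simpa only [gP, p2, sub_zero] using dγ)⟩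
  obtain ⟨σ0, σ1⟩ := st_mem (500 * (bP s t (y + (0 : ℝ) • (y + (u1 y + 2) • ev)) -
    gP M t ζ (y + (0 : ℝ) • (y + (u1 y + 2) • ev))) + 1 / 2)
  refine ne_of_gt ?_
  change 0 < _ - st (500 * (bP s t _ - _) + _) * _
  rcases le_total γ (fderiv ℝ (bo ev) ((sP s t)⁻¹ • y + ev) (y + (u1 y + 2) • ev)) with e | e <;>
    nlinarith

theorem zero (h : SM) (hB : BO) {M : ℂ × V → V} (hM : Mz M) {s : ℝ} (hs : 1 ≤ s) (ζ : ℂ) (y : Y) :
    fP M s (0, ζ, y) = smin (3 / 4) (boY s y + (F M (ζ, y) - u1 y)) := by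
  have a : ∀ x ≤ 0, st x = 0 := fun x hx => smoothTransition.zero_of_nonpos hx
  have c := (cP_mem 0 ζ).2.1
  simp only [fP, bP, gP, sP, cP, mul_zero, a 0 le_rfl, a (0 - 1) (by norm_num),
    a (0 - 2) (by norm_num), zero_mul, add_zero, sub_zero, F] at c ⊢
  obtain ⟨-, -, -, -, b3, b4, -⟩ := hB Y ev norm_ev
  have g := G_nn h (hM.le ζ) c 1 (co y)
  by_cases n : ‖s⁻¹ • y + ev‖ ≤ 40
  · rcases le_total (1 / 2) ⟪ev, s⁻¹ • y + ev⟫ with k | k
    · have : boY s y = u1 y := by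
        rw [boY, b3 _ n k, inner_ev, u1_aff, add_sub_cancel_right, ← mul_assoc,
          mul_inv_cancel₀ (by linarith), one_mul]
      rw [this, add_sub_cancel]
    · have b : boY s y ≤ -(1 / 4) := by rw [boY]; nlinarith [b4 _ n k]
      have := (boY_lo hB hs y).1
      rw [smin_l h (show boY s y + _ ≤ _ by linarith), smin_l h (show u1 y + _ ≤ _ by linarith),
        sub_self, add_zero]
  · obtain ⟨g1, g2⟩ := G_big h (hM.le ζ) c zero_le_one le_rfl
      (show 39 ≤ ‖y‖ by linarith [(n_aff hs y).1])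
    rw [smin_l h (show u1 y + _ ≤ _ by linarith), sub_self, add_zero]
    rcases le_total (boY s y) 99 with k | k
    · rw [smin_l h (show boY s y + _ ≤ _ by linarith)]
    · rw [smin_l h (show _ ≤ boY s y by linarith), smin_l h]
      rcases smin_ge h (boY s y) (G (fun v => M (ζ, v)) (c0 ζ) 1 (co y)) with e | e <;> linarith

end Pa

open Pa in
theorem path (h : SM) (hC : CRIT) (hB : BO) : PATH := fun M hM s hs => by
  have z : ∀ x ≤ 0, st x = 0 := fun x hx => smoothTransition.zero_of_nonpos hx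
  have o : ∀ x, 1 ≤ x → st x = 1 := fun x hx => smoothTransition.one_of_one_le hx
  have sm : ContDiff ℝ ∞ (fP M s) := smin_sm h contDiff_const (smin_sm h (bP_sm hB hs) (gP_sm h hM))
  refine ⟨fP M s, 201 * s, sm, fun t ζ y n => smin_l h ?_, fun t ζ y e => ?_, fun t ζ y e => ?_,
    fun t ζ y e => ?_, fun c t ζ y hc => ?_, zero h hB hM hs, fun ζ y e => ?_⟩
  · obtain ⟨s1, s2⟩ := sP_mem hs t
    obtain ⟨a0, a1⟩ := st_mem (3 * t - 1)
    obtain ⟨b0, b1⟩ := st_mem (3 * t - 2)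
    have g : 100 ≤ gP M t ζ y :=
      (G_big h (hM.le ζ) (cP_mem t ζ).2.1 (by linarith) (by linarith) (by linarith)).1
    have k : 201 ≤ (sP s t)⁻¹ * ‖y‖ := by
      rw [le_inv_mul_iff₀ (by linarith)]; linarith
    have k2 : 200 ^ 2 ≤ ‖(sP s t)⁻¹ • y + ev‖ ^ 2 := by
      gcongr; linarith [(n_aff s1 y).2]
    have b : 1 ≤ bP s t y := by rw [bP]; nlinarith [(boY_lo hB s1 y).2]
    rcases smin_ge h (bP s t y) (gP M t ζ y) with e | e <;> linarith
  · simp only [fP, bP, gP, sP, cP, z (3 * t) (by linarith), z (3 * t - 1) (by linarith),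
      z (3 * t - 2) (by linarith), z (3 * 0) (by norm_num), z (3 * 0 - 1) (by norm_num),
      z (3 * 0 - 2) (by norm_num)]
  · simp only [fP, bP, gP, sP, cP, o (3 * t) (by linarith), o (3 * t - 1) (by linarith),
      o (3 * t - 2) (by linarith), o (3 * 1) (by norm_num), o (3 * 1 - 1) (by norm_num),
      o (3 * 1 - 2) (by norm_num)]
  · have e' : smin (3 / 4) (smin (bP s t y) (gP M t ζ y)) = 0 := e
    have k : smin (bP s t y) (gP M t ζ y) ≤ 1 / 1000 := by
      rcases smin_ge h (3 / 4) (smin (bP s t y) (gP M t ζ y)) with e | e <;> linarith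
    rw [smin_r h (by linarith)] at e'
    obtain ⟨ξ, d, d0, hd⟩ := reg h hC hB hM hs t ζ y e'
    have a := smin_d h (hasDerivAt_const (0 : ℝ) (3 / 4 : ℝ)) hd
    rw [zero_smul, add_zero, e', o _ (by norm_num)] at a
    have l : HasDerivAt (fun r : ℝ => ((t, ζ, y + r • ξ) : ℝ × ℂ × Y)) (0, 0, ξ) 0 :=
      ((hasDerivAt_const _ t).prodMk ((hasDerivAt_const _ ζ).prodMk
        (((hasDerivAt_id (0 : ℝ)).smul_const ξ).const_add y))).congr_deriv (by rw [one_smul])
    have b := (sm.differentiable (by simp) (t, ζ, y + (0 : ℝ) • ξ)).hasFDerivAt.comp_hasDerivAt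
      (0 : ℝ) l
    rw [zero_smul, add_zero] at b
    exact ⟨ξ, fun w => d0 (by have := b.unique a; linarith)⟩
  · have : c0 (c * ζ) = c0 ζ := by rw [c0, c0, norm_mul, hc, one_mul]
    simp only [fP, bP, gP, cP, boY, this, act_aff, bo_act hc, G_act hM hc]
  · have g : gP M 1 ζ y = LL M (ζ, y) := by
      rw [gP, cP, o _ (by norm_num), o _ (by norm_num), LL, one_mul, add_sub_cancel, sub_self]
    have b : 5 / 4 ≤ bP s 1 y := by
      have s2 : sP s 1 = 1 := by rw [sP, o _ (by norm_num)]; ring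
      have := (boY_lo hB le_rfl y).2
      rw [bP, o _ (by norm_num), s2]
      nlinarith [sq_nonneg ‖(1 : ℝ)⁻¹ • y + ev‖]
    change smin (3 / 4) (smin (bP s 1 y) (gP M 1 ζ y)) ≤ _ ∨ _ at e
    change smin (3 / 4) (smin (bP s 1 y) (gP M 1 ζ y)) = _
    rw [g] at e ⊢
    have : LL M (ζ, y) ≤ 2 / 3 := by
      rcases e with e | e
      · rcases smin_ge h (3 / 4) (smin (bP s 1 y) (LL M (ζ, y))) with k | k
        · linarith
        · rcases smin_ge h (bP s 1 y) (LL M (ζ, y)) with k | k <;> linarith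
      · linarith
    rw [smin_r h (show LL M (ζ, y) + _ ≤ bP s 1 y by linarith), smin_r h (by linarith)]

end

end Crest.Agent.N218.P
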