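import Crest.Agent.N218.P.Reg0

/-! # Row 218 (helper26): the leaf REG -/

set_option autoImplicit false
open Set Real
open scoped ContDiff RealInnerProductSpace ComplexConjugate Topology

namespace Crest.Agent.N218.P

noncomputable section

namespace Rg

variable {M : ℂ × V → V}

theorem nV_dg {a b : ℂ} (ha : ‖a‖ = 1) (hb : ‖b‖ = 1) (v : V) :
    ‖(!₂[a * v 0, b * v 1] : V)‖ = ‖v‖ := by
  rw [← sq_eq_sq₀ (norm_nonneg _) (norm_nonneg _), nV, nV]
  simp [ha, hb]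

/-- a diagonal unitary map -/
def dg {a b : ℂ} (ha : ‖a‖ = 1) (hb : ‖b‖ = 1) : V ≃ₗᵢ[ℝ] V :=
  LinearIsometry.toLinearIsometryEquiv
    { toFun := fun v => !₂[a * v 0, b * v 1]
      map_add' := fun x y => by ext i; fin_cases i <;> simp [mul_add]
      map_smul' := fun t x => by ext i; fin_cases i <;> simp <;> ring
      norm_map' := nV_dg ha hb } rfl

theorem dg_apply {a b : ℂ} (ha : ‖a‖ = 1) (hb : ‖b‖ = 1) (v : V) :
    dg ha hb v = !₂[a * v 0, b * v 1] := rfl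

theorem n_aV {c : ℂ} (hc : ‖c‖ = 1) (v : V) : ‖aV c v‖ = ‖v‖ :=
  nV_dg (by simp [hc]) (by simp [hc]) v

theorem n_aW {c : ℂ} (hc : ‖c‖ = 1) (v : V) : ‖aW c v‖ = ‖v‖ := nV_dg hc (by simp [hc]) v

theorem in_aW {c : ℂ} (hc : ‖c‖ = 1) (v w : V) : ⟪aW c v, aW c w⟫ = ⟪v, w⟫ :=
  (dg hc (b := c ^ 6) (by simp [hc])).inner_map_map v w

theorem co_act (c : ℂ) (η : Y) : co (act c η) = (aV c (pv η), aW c (pw η), u2 η, u1 η) := by
  refine Prod.ext ?_ (Prod.ext ?_ (Prod.ext ?_ ?_))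
  · ext i; fin_cases i <;> simp [co, pv, act, aV]
  · ext i; fin_cases i <;> simp [co, pw, act, aW]
  · simp [co, u2, act]
  · simp [co, u1, act]

theorem u1_act (c : ℂ) (η : Y) : u1 (act c η) = u1 η := by simp [u1, act]

/-- invariance of `G` -/
theorem G_act (hM : Mz M) {c : ℂ} (hc : ‖c‖ = 1) (ζ : ℂ) (k b : ℝ) (η : Y) :
    G (fun v => M (c * ζ, v)) k b (co (act c η)) = G (fun v => M (ζ, v)) k b (co η) := by
  rw [co_act]
  simp only [G, tau, co, hM.eqv _ _ _ hc, n_aV hc, n_aW hc, in_aW hc]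

theorem c0_nn (ζ : ℂ) : 0 ≤ c0 ζ := mul_nonneg (by norm_num) (st_nn _)
theorem c0_le (ζ : ℂ) : c0 ζ ≤ 4 := by have := st_le (4 - ‖ζ‖ ^ 2); unfold c0; linarith
theorem c0_lo {ζ : ℂ} (h : ‖ζ‖ ^ 2 ≤ 3) : c0 ζ = 4 := by
  rw [c0, st, Real.smoothTransition.one_of_one_le (by linarith), mul_one]
theorem c0_hi {ζ : ℂ} (h : 2 ≤ ‖ζ‖) : c0 ζ = 0 := by
  rw [c0, st, Real.smoothTransition.zero_of_nonpos (by nlinarith), mul_zero]
theorem c0_sm : ContDiff ℝ ∞ c0 :=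
  contDiff_const.mul (st_sm (contDiff_const.sub (contDiff_norm_sq ℝ)))

theorem M_sm (hM : Mz M) (ζ : ℂ) : ContDiff ℝ ∞ fun v => M (ζ, v) :=
  hM.sm.comp (contDiff_const.prodMk contDiff_id)

theorem euler (hM : Mz M) (ζ : ℂ) {v : V} (hv : 1 / 10000 < ‖v‖) :
    fderiv ℝ (fun v => M (ζ, v)) v v = M (ζ, v) := by
  have d := ((M_sm hM ζ).differentiable (by simp) ((1 : ℝ) • v)).hasFDerivAt.comp_hasDerivAt
    (1 : ℝ) ((hasDerivAt_id (1 : ℝ)).smul_const v)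
  have d' : HasDerivWithinAt (fun t : ℝ => M (ζ, t • v)) (M (ζ, v)) (Ici 1) 1 := by
    refine HasDerivWithinAt.congr (f := fun t : ℝ => t • M (ζ, v)) ?_
      (fun t k => hM.hom ζ v t hv k) (hM.hom ζ v 1 hv le_rfl)
    simpa using ((hasDerivAt_id (1 : ℝ)).smul_const (M (ζ, v))).hasDerivWithinAt
  simpa using (uniqueDiffWithinAt_Ici (1 : ℝ)).eq_deriv _ d.hasDerivWithinAt d'

/-- the attaching maps are admissible -/
theorem gm (hM : Mz M) (ζ : ℂ) {c : ℝ} (h0 : 0 ≤ c) (h4 : c ≤ 4) (h : c = 4 ∨ 3 ≤ ‖ζ‖ ^ 2) :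
    GM (fun v => M (ζ, v)) c := by
  refine ⟨(M_sm hM ζ).differentiable (by simp), hM.le ζ, h0, h4, h.imp
    (fun e => ⟨e, fun v k => ⟨hM.nrm ζ v k, euler hM ζ k⟩⟩) fun e => ?_⟩
  have z : ‖ζ‖ ≠ 0 := fun k => by rw [k] at e; norm_num at e
  have u : ‖ζ / (‖ζ‖ : ℂ)‖ = 1 := by simp [z]
  exact ⟨dg (a := conj (ζ / ‖ζ‖)) (b := (ζ / ‖ζ‖) ^ 3) (by rw [Complex.norm_conj, u])
    (by rw [norm_pow, u, one_pow]), funext fun v => hM.flat ζ v e⟩

theorem gm0 (hM : Mz M) (ζ : ℂ) : GM (fun v => M (ζ, v)) (c0 ζ) :=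
  gm hM ζ (c0_nn ζ) (c0_le ζ) ((le_total _ _).imp_left c0_lo)

theorem F_sm (h : SM) (hM : Mz M) : ContDiff ℝ ∞ (F M) := by
  have z : ContDiff ℝ ∞ fun p : ℂ × Y => co p.2 := co_sm.comp contDiff_snd
  have a : ContDiff ℝ ∞ fun p : ℂ × Y => u1 p.2 := u1_sm.comp contDiff_snd
  have c : ContDiff ℝ ∞ fun p : ℂ × Y => c0 p.1 := c0_sm.comp contDiff_fst
  have m : ContDiff ℝ ∞ fun p : ℂ × Y => M (p.1, (co p.2).1) :=
    hM.sm.comp (contDiff_fst.prodMk z.fst)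
  have g := G_sm h (M := fun (p : ℂ × Y) v => M (p.1, v)) (z := fun p => co p.2)
    (b := fun _ => 1) m c contDiff_const z
  exact smin_sm h a g

theorem out (h : SM) (hM : Mz M) (ζ : ℂ) (η : Y) (e : 2 ≤ ‖ζ‖ ∨ 25 ≤ ‖η‖ ∨ u1 η ≤ -(1 / 2)) :
    u1 η + 1 / 1000 ≤ G (fun v => M (ζ, v)) (c0 ζ) 1 (co η) := by
  refine le_trans ?_ (G_ge (hM.le ζ) _ _ _)
  have n := nY η
  have t := tau_nn (co η)
  have e0 := Ee_nn h (tau (co η) - c0 ζ)
  have e1 := Ee_ge h (tau (co η) - c0 ζ)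
  have c4 := c0_le ζ
  change _ ≤ u2 η ^ 2 + (u1 η - _) ^ 2 - _ + _ - _
  generalize tau (co η) = τ, u1 η = u, u2 η = a at *
  have q := sq_nonneg (u - 1 * (3 * τ - 1) - 1 / 2)
  have a0 := sq_nonneg a
  rcases e with e | e | e
  · rw [c0_hi e] at *
    rcases le_total τ (6 / 25) with k | k <;> nlinarith
  · rcases le_total (41 / 10) τ with k | k
    · nlinarith
    have n' : 625 ≤ τ + a ^ 2 + u ^ 2 := by rw [← n]; nlinarith
    rcases le_total 20 (a ^ 2) with k' | k'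
    · nlinarith
    rcases le_total 24 u with k1 | k1
    · nlinarith
    have : u ≤ -24 := by nlinarith
    nlinarith [sq_nonneg (u - 1 * (3 * τ - 1))]
  · rcases le_total τ 400 with k | k <;> nlinarith [sq_nonneg (u - 1 * (3 * τ - 1))]

/-- directional derivatives of `F` -/
theorem F_d (h : SM) (hM : Mz M) (ζ : ℂ) (η ξ : Y) {D : ℝ}
    (hD : HasDerivAt (fun t : ℝ => G (fun v => M (ζ, v)) (c0 ζ) 1 (co η + t • co ξ)) D 0) :
    fderiv ℝ (F M) (ζ, η) (0, ξ) =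
      (1 - st (500 * (u1 η - G (fun v => M (ζ, v)) (c0 ζ) 1 (co η)) + 1 / 2)) * u1 ξ +
        st (500 * (u1 η - G (fun v => M (ζ, v)) (c0 ζ) 1 (co η)) + 1 / 2) * D := by
  have l : HasDerivAt (fun t : ℝ => u1 η + t * u1 ξ) (u1 ξ) 0 := by
    simpa using ((hasDerivAt_id (0 : ℝ)).mul_const (u1 ξ)).const_add (u1 η)
  have d := smin_d h l hD
  have k : HasDerivAt (fun t : ℝ => ((ζ, η) : ℂ × Y) + t • (0, ξ)) (0, ξ) 0 := by
    simpa using ((hasDerivAt_id (0 : ℝ)).smul_const ((0, ξ) : ℂ × Y)).const_add (ζ, η)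
  have d' := ((F_sm h hM).differentiable (by simp) _).hasFDerivAt.comp_hasDerivAt (0 : ℝ) k
  simp only [zero_mul, add_zero, zero_smul] at d d'
  refine d'.unique (d.congr_of_eventuallyEq (.of_forall fun t => ?_))
  have := congrArg (fun z => z.2.2.2) (co_line η ξ t)
  simp only [Function.comp, F, Prod.smul_mk, Prod.mk_add_mk, smul_zero, add_zero, co_line]
  exact congrArg (smin · _) this

theorem G_line (h : SM) (hM : Mz M) (ζ : ℂ) (c b : ℝ) (z z' : V × V × ℝ × ℝ) :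
    HasDerivAt (fun t : ℝ => G (fun v => M (ζ, v)) c b (z + t • z'))
      (fderiv ℝ (G (fun v => M (ζ, v)) c b) z z') 0 := by
  have k : HasDerivAt (fun t : ℝ => z + t • z') z' 0 := by
    simpa using ((hasDerivAt_id (0 : ℝ)).smul_const z').const_add z
  have s : ContDiff ℝ ∞ (G (fun v => M (ζ, v)) c b) := G_sm h (M := fun _ v => M (ζ, v))
    ((M_sm hM ζ).comp contDiff_fst) contDiff_const contDiff_const contDiff_id
  simpa [Function.comp_def] using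
    (s.differentiable (by simp) _).hasFDerivAt.comp_hasDerivAt (0 : ℝ) k

theorem co_X (η : Y) : co (η + (u1 η + 2) • ev) =
    ((co η).1, (co η).2.1, (co η).2.2.1, 2 * ((co η).2.2.2 + 1)) := by
  rw [co_line, co_ev]
  simp [co]
  ring

theorem rg (h : SM) (hC : CRIT) (hM : Mz M) (ζ : ℂ) (η : Y) (e : |F M (ζ, η)| ≤ 1 / 1000) :
    ∃ ξ, fderiv ℝ (F M) (ζ, η) (0, ξ) ≠ 0 := by
  obtain ⟨e1, e2⟩ := abs_le.1 e
  set g := G (fun v => M (ζ, v)) (c0 ζ) 1 (co η) with hg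
  change _ ≤ smin (u1 η) g at e1
  change smin (u1 η) g ≤ _ at e2
  rcases le_or_gt (u1 η + 1 / 1000) g with k | k
  · refine ⟨ev, ?_⟩
    rw [F_d h hM ζ η ev (G_line h hM ζ _ _ _ _), ← hg, st,
      Real.smoothTransition.zero_of_nonpos (by linarith)]
    simp [u1, ev]
  rcases le_or_gt (g + 1 / 1000) (u1 η) with k' | k'
  · rw [smin_r h k'] at e1 e2
    by_contra! n
    have z : fderiv ℝ (G (fun v => M (ζ, v)) (c0 ζ) 1) (co η) = 0 := by
      refine ContinuousLinearMap.ext fun z' => ?_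
      obtain ⟨ξ, rfl⟩ := co_surj z'
      have := n ξ
      rw [F_d h hM ζ η ξ (G_line h hM ζ _ _ _ _), ← hg, st,
        Real.smoothTransition.one_of_one_le (by linarith)] at this
      simpa using this
    rcases hC _ _ _ _ (gm0 hM ζ) z (by linarith) with t | t
    · have : u1 η = -1 := congrArg (fun z => z.2.2.2) t
      linarith
    · linarith [t.1]
  have a1 := smin_le h (u1 η) g
  have a2 : u1 η ≤ 3 / 1000 := by
    have := h.Sm_le (u1 η - g)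
    have := max_le (a := u1 η - g) (b := 0) (c := 1 / 1000) (by linarith) (by norm_num)
    unfold smin at e2
    linarith
  have t1 : tau (co η) < 1 := by
    by_contra! t
    have q : u2 η ^ 2 + (u1 η - _) ^ 2 - _ + _ - _ ≤ g :=
      G_ge (M := fun v => M (ζ, v)) (hM.le ζ) (c0 ζ) 1 (co η)
    have := Ee_nn h (tau (co η) - c0 ζ)
    have := sq_nonneg (u2 η)
    have := mul_self_le_mul_self (a := 2 * tau (co η) - 3 / 1000)
      (b := 1 * (3 * tau (co η) - 1) - u1 η) (by linarith) (by linarith)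
    nlinarith
  obtain ⟨D, d, hD⟩ := X_G h (fun v => M (ζ, v)) (c0_nn ζ) 1 t1
  rw [← co_X] at d
  refine ⟨_, (F_d h hM ζ η _ d).trans_ne (ne_of_gt ?_)⟩
  have u : u1 (η + (u1 η + 2) • ev) = 2 * (u1 η + 1) := congrArg (fun z => z.2.2.2) (co_X η)
  rw [u, ← hg]
  rw [← hg] at hD
  have := st_nn (500 * (u1 η - g) + 1 / 2)
  have := st_le (500 * (u1 η - g) + 1 / 2)
  nlinarith

end Rg

theorem reg (h : SM) (hC : CRIT) : REG := fun M hM =>
  { sm := Rg.F_sm h hM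
    inv := fun c ζ η hc => by
      simp only [F, Rg.u1_act, Rg.G_act hM hc, c0, norm_mul, hc, one_mul]
    out := fun ζ η e => Rg.smin_l h (Rg.out h hM ζ η e)
    le := fun _ _ => Rg.smin_le h _ _
    reg := Rg.rg h hC hM }

end

end Crest.Agent.N218.P
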