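import Crest.Agent.N218.P.Defs

/-!
# Row 218, block P (helper11): the Newton step on the collar (leaf STEP)
-/

set_option autoImplicit false
open Set Real
open scoped ContDiff RealInnerProductSpace ComplexConjugate

namespace Crest.Agent.N218.P
namespace Step

noncomputable section

theorem act_lin (c : ℂ) (a b : Y) (s : ℝ) : act c (a + s • b) = act c a + s • act c b := by
  ext i
  fin_cases i <;> simp [act] <;> ring

theorem act_inner {c : ℂ} (hc : ‖c‖ = 1) (a b : Y) : ⟪act c a, act c b⟫ = ⟪a, b⟫ := by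
  have h1 : ∀ (n : ℕ) (x y : ℂ), ⟪c ^ n * x, c ^ n * y⟫ = ⟪x, y⟫ := by
    intro n x y
    have h2 : conj (c ^ n) * c ^ n = 1 := by
      rw [Complex.conj_mul', norm_pow, hc]; simp
    rw [Complex.inner, Complex.inner, map_mul]
    congr 1
    linear_combination (y * conj x) * h2
  have h3 := h1 1
  simp only [pow_one] at h3
  simp only [PiLp.inner_apply, Fin.sum_univ_five, act]
  simp only [Matrix.cons_val_zero, Matrix.cons_val_one, Matrix.cons_val]
  rw [h1, h1, h3, h1]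

theorem act_surj {c : ℂ} (hc : ‖c‖ = 1) (b : Y) : ∃ a, act c a = b := by
  have h0 : c ≠ 0 := by rintro rfl; simp at hc
  refine ⟨act c⁻¹ b, ?_⟩
  ext i
  fin_cases i <;> simp [act] <;> field_simp

theorem act_norm {c : ℂ} (hc : ‖c‖ = 1) (a : Y) : ‖act c a‖ = ‖a‖ := by
  rw [norm_eq_sqrt_real_inner, act_inner hc, ← norm_eq_sqrt_real_inner]

theorem ev_inner (ξ : Y) : ⟪ev, ξ⟫ = u1 ξ := by
  simp only [PiLp.inner_apply, Fin.sum_univ_five, ev, u1]
  simp [Complex.inner]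

theorem ev_norm : ‖ev‖ = 1 := by
  rw [norm_eq_sqrt_real_inner, ev_inner]; simp [u1, ev]

theorem u1_lin (a b : Y) (s : ℝ) : u1 (a + s • b) = u1 a + s * u1 b := by
  simp [u1]

/-- the vertical gradient -/
def vg (F : ℂ × Y → ℝ) (z : ℂ × Y) : Y :=
  ∑ i, (fderiv ℝ F z (0, stdOrthonormalBasis ℝ Y i)) • stdOrthonormalBasis ℝ Y i

variable {F : ℂ × Y → ℝ}

theorem vg_inner (z : ℂ × Y) (ξ : Y) : ⟪vg F z, ξ⟫ = fderiv ℝ F z (0, ξ) := by
  have h : ((0 : ℂ), ξ) =
      ∑ i, ⟪stdOrthonormalBasis ℝ Y i, ξ⟫ • ((0 : ℂ), stdOrthonormalBasis ℝ Y i) := by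
    ext1
    · simp [Prod.fst_sum]
    · simp only [Prod.snd_sum, Prod.smul_mk]
      exact ((stdOrthonormalBasis ℝ Y).sum_repr' ξ).symm
  rw [h, map_sum, vg, sum_inner]
  refine Finset.sum_congr rfl fun i _ => ?_
  rw [real_inner_smul_left, map_smul, smul_eq_mul, mul_comm]

theorem vg_sm (h : ContDiff ℝ ∞ F) : ContDiff ℝ ∞ (vg F) := by
  unfold vg
  refine ContDiff.sum fun i _ => ContDiff.fun_smul ?_ contDiff_const
  exact (h.fderiv_right (m := ∞) (by simp)).clm_apply contDiff_const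

theorem line (h : ContDiff ℝ ∞ F) (ζ : ℂ) (η v : Y) (s : ℝ) :
    HasDerivAt (fun t : ℝ => F (ζ, η + t • v)) ⟪vg F (ζ, η + s • v), v⟫ s := by
  rw [vg_inner]
  have h1 : HasDerivAt (fun t : ℝ => (ζ, η + t • v)) ((0 : ℂ), v) s := by
    refine (hasDerivAt_const s ζ).prodMk ?_
    simpa using ((hasDerivAt_id s).smul_const v).const_add η
  exact ((h.differentiable (by simp)) _).hasFDerivAt.comp_hasDerivAt s h1

theorem vg_eqv (hF : LF F) {c : ℂ} (hc : ‖c‖ = 1) (ζ : ℂ) (η : Y) :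
    vg F (c * ζ, act c η) = act c (vg F (ζ, η)) := by
  refine ext_inner_right ℝ fun b => ?_
  obtain ⟨a, rfl⟩ := act_surj hc b
  rw [act_inner hc]
  have h1 := line hF.sm (c * ζ) (act c η) (act c a) 0
  have h2 := line hF.sm ζ η a 0
  simp only [← act_lin, hF.inv _ _ _ hc] at h1
  simpa using h1.unique h2

theorem vg_out (hF : LF F) {ζ : ℂ} {η : Y} (h : 2 < ‖ζ‖ ∨ 25 < ‖η‖) : vg F (ζ, η) = ev := by
  refine ext_inner_right ℝ fun b => ?_
  have h1 := line hF.sm ζ η b 0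
  have h2 : HasDerivAt (fun t : ℝ => u1 η + t * u1 b) (u1 b) 0 := by
    simpa using ((hasDerivAt_id (0 : ℝ)).mul_const (u1 b)).const_add (u1 η)
  have h3 : (fun t : ℝ => F (ζ, η + t • b)) =ᶠ[nhds 0] fun t : ℝ => u1 η + t * u1 b := by
    rcases h with h | h
    · exact Filter.Eventually.of_forall fun t => by
        simp only [hF.out ζ _ (Or.inl h.le), u1_lin]
    · have h4 : ContinuousAt (fun t : ℝ => ‖η + t • b‖) 0 := by fun_prop
      have h5 : ∀ᶠ t : ℝ in nhds 0, 25 < ‖η + t • b‖ := h4.eventually (lt_mem_nhds (by simpa using h))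
      filter_upwards [h5] with t ht
      simp only [hF.out ζ _ (Or.inr (Or.inl ht.le)), u1_lin]
  have h6 := (h1.congr_of_eventuallyEq h3.symm).unique h2
  rw [ev_inner]
  simpa using h6

theorem out_of {z : ℂ × Y} (hz : z ∉ Metric.closedBall (0 : ℂ × Y) 25) :
    2 < ‖z.1‖ ∨ 25 < ‖z.2‖ := by
  rw [mem_closedBall_zero_iff, Prod.norm_def, not_le, lt_max_iff] at hz
  rcases hz with h | h
  · left; linarith
  · right; exact h

theorem vg_uc (hF : LF F) : UniformContinuous (vg F) := by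
  have h1 : HasCompactSupport (fun z => vg F z - ev) :=
    HasCompactSupport.intro (isCompact_closedBall (0 : ℂ × Y) 25) fun z hz => by
      rw [show z = (z.1, z.2) from rfl, vg_out hF (out_of hz), sub_self]
  have h2 := h1.uniformContinuous_of_continuous
    ((vg_sm hF.sm).continuous.sub continuous_const)
  simpa using h2.add (uniformContinuous_const (b := ev))

theorem vg_lo (hF : LF F) : ∃ m > 0, m ≤ 1 ∧ ∀ z, |F z| ≤ 1 / 1000 → m ≤ ‖vg F z‖ := by
  have hK : IsCompact (Metric.closedBall (0 : ℂ × Y) 25 ∩ {z | |F z| ≤ 1 / 1000}) :=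
    (isCompact_closedBall _ _).inter_right
      (isClosed_le hF.sm.continuous.abs continuous_const)
  obtain ⟨m, hm, h⟩ := hK.exists_forall_le' (f := fun z => ‖vg F z‖) (a := 0)
    (vg_sm hF.sm).continuous.norm.continuousOn (fun z hz => by
      obtain ⟨ξ, hξ⟩ := hF.reg z.1 z.2 hz.2
      refine norm_pos_iff.2 fun h0 => hξ ?_
      rw [← vg_inner, show (z.1, z.2) = z from rfl, h0, inner_zero_left])
  refine ⟨min m 1, lt_min hm one_pos, min_le_right _ _, fun z hz => ?_⟩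
  by_cases hb : z ∈ Metric.closedBall (0 : ℂ × Y) 25
  · exact (min_le_left _ _).trans (h z ⟨hb, hz⟩)
  · rw [show z = (z.1, z.2) from rfl, vg_out hF (out_of hb), ev_norm]
    exact min_le_right _ _

/-- the denominator -/
def dn (F : ℂ × Y → ℝ) (m : ℝ) (z : ℂ × Y) : ℝ := ‖vg F z‖ ^ 2 + st (1 - ‖vg F z‖ ^ 2 / m ^ 2)

theorem dn_pos (m : ℝ) (z : ℂ × Y) : 0 < dn F m z := by
  unfold dn
  by_cases h : vg F z = 0
  · simp [h]
  · have := norm_pos_iff.2 h
    have := Real.smoothTransition.nonneg (1 - ‖vg F z‖ ^ 2 / m ^ 2)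
    positivity

theorem dn_eq {m : ℝ} (hm : 0 < m) {z : ℂ × Y} (h : m ≤ ‖vg F z‖) : dn F m z = ‖vg F z‖ ^ 2 := by
  unfold dn
  have h1 : 1 ≤ ‖vg F z‖ ^ 2 / m ^ 2 := by
    rw [one_le_div (by positivity)]; gcongr
  rw [show st (1 - ‖vg F z‖ ^ 2 / m ^ 2) = 0 from
    Real.smoothTransition.zero_of_nonpos (by linarith), add_zero]

theorem dn_sm (h : ContDiff ℝ ∞ F) (m : ℝ) : ContDiff ℝ ∞ (dn F m) := by
  have h1 : ContDiff ℝ ∞ fun z => ‖vg F z‖ ^ 2 := (vg_sm h).norm_sq ℝ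
  exact h1.add (Real.smoothTransition.contDiff.comp (contDiff_const.sub (h1.div_const _)))

/-- the step -/
def kk (F : ℂ × Y → ℝ) (m : ℝ) (p : ℝ → ℝ) (z : ℂ × Y) : Y :=
  z.2 + (-((F z - p (F z)) / dn F m z)) • vg F z

end
end Step
open Step

theorem step : STEP := by
  intro F hF
  obtain ⟨m, hm, hm1, hlo⟩ := vg_lo hF
  obtain ⟨δ, hδ, huc⟩ := Metric.uniformContinuous_iff.1 (vg_uc hF) (m / 8) (by positivity)
  refine ⟨min (1 / 2000) (min (m / 2) (m * δ / 4)), by positivity, 2 / m, fun w hw hw0 p hp => ?_⟩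
  have hw1 : w ≤ 1 / 2000 := hw0.trans (min_le_left _ _)
  have hw2 : w ≤ m / 2 := hw0.trans ((min_le_right _ _).trans (min_le_left _ _))
  have hw3 : w ≤ m * δ / 4 := hw0.trans ((min_le_right _ _).trans (min_le_right _ _))
  refine ⟨kk F m p, ?_, ?_, ?_, ?_, ?_⟩
  · unfold kk
    refine contDiff_snd.add (ContDiff.fun_smul (ContDiff.neg ?_) (vg_sm hF.sm))
    exact (hF.sm.sub (hp.sm.comp hF.sm)).div (dn_sm hF.sm m) fun z => (dn_pos m z).ne'
  · intro c ζ η hc
    simp only [kk, dn, act_lin, vg_eqv hF hc, hF.inv _ _ _ hc, act_norm hc]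
  · intro ζ η h
    have h1 : 2 < ‖ζ‖ ∨ 25 < ‖η‖ := h.imp (fun h => by linarith) fun h => by linarith
    have h2 := vg_out hF h1
    have h3 : F (ζ, η) = u1 η := hF.out ζ η (h1.imp le_of_lt fun h => Or.inl h.le)
    have h4 : dn F m (ζ, η) = 1 := by
      rw [dn_eq hm (by rw [h2, ev_norm]; exact hm1), h2, ev_norm]; norm_num
    simp only [kk, h2, h3, h4, piH, div_one, neg_smul, sub_eq_add_neg]
  · intro ζ η h
    simp [kk, hp.id _ h]
  · intro ζ η h0 h2
    have hg : m ≤ ‖vg F (ζ, η)‖ := hlo _ (by rw [abs_of_pos h0]; linarith)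
    have hg0 : 0 < ‖vg F (ζ, η)‖ := hm.trans_le hg
    have hp0 := hp.nn _ h0
    have hp1 := hp.lt _ h0
    have hp2 := hp.le (F (ζ, η)) (by linarith)
    obtain ⟨d, hd⟩ : ∃ d, d = F (ζ, η) - p (F (ζ, η)) := ⟨_, rfl⟩
    have hd0 : 0 < d := by linarith
    obtain ⟨v, hv⟩ : ∃ v : Y, v = (-(d / ‖vg F (ζ, η)‖ ^ 2)) • vg F (ζ, η) := ⟨_, rfl⟩
    have hk : kk F m p (ζ, η) = η + v := by simp only [kk, dn_eq hm hg, hv, hd]
    have hvn : ‖v‖ ≤ d / m := by
      rw [hv, norm_smul, norm_neg, Real.norm_of_nonneg (by positivity)]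
      calc d / ‖vg F (ζ, η)‖ ^ 2 * ‖vg F (ζ, η)‖ = d / ‖vg F (ζ, η)‖ := by field_simp
        _ ≤ d / m := by gcongr
    have hvi : ⟪vg F (ζ, η), v⟫ = -d := by
      rw [hv, real_inner_smul_right, real_inner_self_eq_norm_sq]; field_simp
    have hdw : d / m ≤ 2 * w / m := by gcongr; linarith
    have hv1 : ‖v‖ ≤ 1 := by
      refine (hvn.trans hdw).trans ?_
      rw [div_le_one hm]; linarith
    have hv2 : ‖v‖ < δ := by
      refine (hvn.trans hdw).trans_lt ?_
      rw [div_lt_iff₀ hm]; nlinarith [mul_pos hm hδ]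
    obtain ⟨s, hs, hs'⟩ := exists_hasDerivAt_eq_slope (fun t : ℝ => F (ζ, η + t • v))
      (fun t : ℝ => ⟪vg F (ζ, η + t • v), v⟫) one_pos
      (fun t _ => (line hF.sm ζ η v t).continuousAt.continuousWithinAt)
      (fun t _ => line hF.sm ζ η v t)
    simp only [one_smul, zero_smul, add_zero, sub_zero, div_one] at hs'
    have h5 : dist (vg F (ζ, η + s • v)) (vg F (ζ, η)) < m / 8 := by
      refine huc ?_
      rw [Prod.dist_eq, dist_self, dist_self_add_left, norm_smul, Real.norm_of_nonneg hs.1.le]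
      refine max_lt hδ ?_
      nlinarith [hs.1, hs.2, norm_nonneg v]
    have h6 : |⟪vg F (ζ, η + s • v) - vg F (ζ, η), v⟫| ≤ d / 8 := by
      refine (abs_real_inner_le_norm _ _).trans ?_
      rw [← dist_eq_norm]
      calc _ ≤ m / 8 * (d / m) := by gcongr
        _ = d / 8 := by field_simp
    rw [inner_sub_left, hvi, hs', abs_le] at h6
    rw [hk, add_sub_cancel_left]
    refine ⟨hv1, by linarith [h6.2], by linarith [h6.1], by linarith [h6.2], hvn.trans ?_⟩
    rw [div_mul_eq_mul_div]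
    gcongr
    linarith [h6.2]

end Crest.Agent.N218.P
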