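import Crest.Agent.N218.P.Kit
import Crest.Agent.N218.P.Mz
import Crest.Agent.N218.P.Step
import Crest.Agent.N218.P.Isop

/-!
# Row 218, block A1 (helper84): the local retraction
-/

set_option autoImplicit false
open Set Filter
open scoped ContDiff RealInnerProductSpace ComplexConjugate Topology

namespace Crest.Agent.N218.P
open Mk

noncomputable section

namespace Rt1

/-- squared horizontal norm -/
def hz (y : Y) : ℝ := ‖y‖ ^ 2 - u1 y ^ 2

theorem hz_sub (y : Y) (s : ℝ) : hz (y - s • ev) = hz y := by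
  rw [hz, hz, norm_sub_sq_real, inner_smul_right, real_inner_comm, inner_ev, norm_smul, norm_ev,
    u1_sub, u1_smul, u1_ev, mul_one, Real.norm_eq_abs, sq_abs]
  ring

/-- push down -/
def vl (l : ℝ) (y : Y) : Y := y - (26 * l * st (626 - hz y)) • ev

/-- the trap -/
def Tr (v : ℝ) (y : Y) : Prop := u1 y ≤ v ∧ (u1 y ≤ -25 ∨ 625 ≤ hz y)

theorem Tr.norm {v : ℝ} {y : Y} (h : Tr v y) : 25 ≤ ‖y‖ := by
  rcases h.2 with a | a
  · linarith [neg_abs_le (u1 y), abs_u1_le y]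
  · exact (abs_le_of_sq_le_sq' (by unfold hz at a; nlinarith [sq_nonneg (u1 y)])
      (norm_nonneg y)).2

theorem Tr.act {v : ℝ} {y : Y} {c : ℂ} (hc : ‖c‖ = 1) (h : Tr v y) : Tr v (act c y) := by
  simpa only [Tr, hz, u1_act, norm_act hc] using h

theorem u1_vl {l : ℝ} (hl : 0 ≤ l) (y : Y) : u1 (vl l y) ≤ u1 y := by
  have := Real.smoothTransition.nonneg (626 - hz y)
  rw [vl, u1_sub, u1_smul, u1_ev, mul_one]
  exact sub_le_self _ (by positivity)

theorem Tr.vl {v l : ℝ} {y : Y} (hl : 0 ≤ l) (h : Tr v y) : Tr v (vl l y) :=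
  ⟨(u1_vl hl y).trans h.1, h.2.imp (u1_vl hl y).trans fun a => by rwa [Rt1.vl, hz_sub]⟩

theorem tr_one {v : ℝ} {y : Y} (hv : v ≤ 1) (h : u1 y ≤ v) : Tr v (vl 1 y) := by
  refine ⟨(u1_vl zero_le_one y).trans h, ?_⟩
  rcases le_total (hz y) 625 with a | a
  · left
    rw [vl, u1_sub, u1_smul, u1_ev, st, Real.smoothTransition.one_of_one_le (by linarith)]
    linarith
  · right; rwa [vl, hz_sub]

theorem norm_vl {l : ℝ} (h0 : 0 ≤ l) (h1 : l ≤ 1) (y : Y) : ‖vl l y‖ ≤ ‖y‖ + 26 := by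
  have a := Real.smoothTransition.nonneg (626 - hz y)
  have b := Real.smoothTransition.le_one (626 - hz y)
  refine (norm_sub_le _ _).trans ?_
  rw [norm_smul, norm_ev, mul_one, Real.norm_of_nonneg (by positivity)]
  nlinarith

theorem vl_sm : ContDiff ℝ ∞ fun z : ℝ × Y => vl z.1 z.2 :=
  contDiff_snd.sub (((contDiff_const.mul contDiff_fst).mul (st_sm.comp (contDiff_const.sub
    ((contDiff_snd.norm_sq ℝ).sub ((u1_sm.comp contDiff_snd).pow 2))))).smul contDiff_const)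

section
variable {X A : Type} [NormedAddCommGroup X] [NormedSpace ℝ X] [NormedAddCommGroup A]
  [NormedSpace ℝ A] {a : X → A} {y : X → Y} {x : X}

theorem cmp1 {g : A × Y → Y} (hg : ContDiff ℝ ∞ g) (ha : ContDiffAt ℝ ∞ a x)
    (hy : ContDiffAt ℝ ∞ y x) : ContDiffAt ℝ ∞ (fun x => g (a x, y x)) x :=
  hg.contDiffAt.comp x (ha.prodMk hy)

theorem cmp2 {g : A → Y → Y} (hg : ContDiff ℝ ∞ fun z : A × Y => g z.1 z.2)
    (ha : ContDiffAt ℝ ∞ a x) (hy : ContDiffAt ℝ ∞ y x) :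
    ContDiffAt ℝ ∞ (fun x => g (a x) (y x)) x := cmp1 hg ha hy
end

/-- a local trivialisation of the family -/
structure Tv (F : ℂ × Y → ℝ) (wI : ℝ) (D D' : ℂ × Y → Y) : Prop where
  s : ContDiff ℝ ∞ D
  s' : ContDiff ℝ ∞ D'
  ri : ∀ b y, D (b, D' (b, y)) = y
  out : ∀ b y, 25 ≤ ‖y‖ → D (b, y) = y
  out' : ∀ b y, 25 ≤ ‖y‖ → D' (b, y) = y
  nb : ∀ b y, ‖D (b, y)‖ ≤ max ‖y‖ 25
  nb' : ∀ b y, ‖D' (b, y)‖ ≤ max ‖y‖ 25
  lv : ∀ b y v, ‖b‖ ≤ 3 → 0 ≤ v → v ≤ wI → (F (b, D (b, y)) ≤ v ↔ u1 y ≤ v)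

theorem tv {F : ℂ × Y → ℝ} (hF : LF F) : ∃ wI > 0, ∃ D D', Tv F wI D D' := by
  have sa : ContDiff ℝ ∞ fun z : ℝ × ℂ × Y => (z.2.1 + (6 * (1 - st z.1) : ℝ), z.2.2) :=
    (contDiff_snd.fst.add (Complex.ofRealCLM.contDiff.comp
      (contDiff_const.mul (contDiff_const.sub (st_sm.comp contDiff_fst))))).prodMk contDiff_snd.snd
  have s0 : ∀ t : ℝ, t ≤ 0 → st t = 0 := fun t => Real.smoothTransition.zero_of_nonpos
  have s1 : ∀ t : ℝ, 1 ≤ t → st t = 1 := fun t => Real.smoothTransition.one_of_one_le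
  obtain ⟨w, w0, D, D', a1, a2, a3, a4, a5, -, a7, -⟩ := isop
    (fun z => F (z.2.1 + (6 * (1 - st z.1) : ℝ), z.2.2)) 25 3 (hF.sm.comp sa)
    (fun t b z h => by simp only [hF.out _ z (.inr (.inl h))])
    (fun t b z h => by simp only [s0 t h, s0 0 le_rfl])
    (fun t b z h => by simp only [s1 t h, s1 1 le_rfl])
    (fun t b z h => by
      obtain ⟨ξ, hξ⟩ := hF.reg _ z (h.symm ▸ by norm_num : |F (b + (6 * (1 - st t) : ℝ), z)| ≤ _)
      refine ⟨ξ, ?_⟩
      have d := hF.sm.differentiable (by simp)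
      have e1 := (((d.comp (sa.differentiable (by simp))) (t, b, z)).hasFDerivAt.comp z
        ((hasFDerivAt_prodMk_right t (b, z)).comp z (hasFDerivAt_prodMk_right b z))).fderiv
      have e2 := ((d (b + (6 * (1 - st t) : ℝ), z)).hasFDerivAt.comp z
        (hasFDerivAt_prodMk_right _ z)).fderiv
      have := DFunLike.congr_fun (e1.symm.trans e2) ξ
      simp only [ContinuousLinearMap.comp_apply, ContinuousLinearMap.inr_apply] at this
      exact fun q => hξ (this.symm.trans q))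
  have o := fun b y (h : 25 ≤ ‖y‖) => a5 1 b y (.inr h)
  have o' : ∀ b y, 25 ≤ ‖y‖ → D' (1, b, y) = y := fun b y h => by
    nth_rewrite 1 [← o b y h]; exact a3 _ _ _
  refine ⟨w, w0, fun z => D (1, z), fun z => D' (1, z), a1.comp (by fun_prop),
    a2.comp (by fun_prop), a4 1, o, o', fun b y => ?_, fun b y => ?_, fun b y v hb v0 v1 => ?_⟩
  · rcases le_total 25 ‖D (1, b, y)‖ with h | h
    · have := o' b _ h
      rw [a3] at this
      exact (congrArg norm this).symm.le.trans (le_max_left _ _)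
    · exact h.trans (le_max_right _ _)
  · rcases le_total 25 ‖D' (1, b, y)‖ with h | h
    · have := o b _ h
      rw [a4] at this
      exact (congrArg norm this).symm.le.trans (le_max_left _ _)
    · exact h.trans (le_max_right _ _)
  · obtain ⟨c1, c2, c3⟩ := a7 1 b y hb
    have e : F (b + (6 * (1 - st 0) : ℝ), y) = u1 y := hF.out _ _ (.inl (by
      have := norm_sub_norm_le ((6 * (1 - st 0) : ℝ) : ℂ) (-b)
      rw [sub_neg_eq_add, add_comm, norm_neg, s0 0 le_rfl] at this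
      rw [s0 0 le_rfl]
      norm_num at this ⊢
      linarith))
    simp only [e, s1 1 le_rfl, sub_self, mul_zero, Complex.ofReal_zero, add_zero] at c1 c2 c3
    rcases lt_or_ge w (u1 y) with h | h
    · exact iff_of_false (by linarith [c2 h]) (by linarith)
    rcases lt_or_ge (u1 y) (-w) with h' | h'
    · exact iff_of_true (by linarith [c3 h']) (by linarith)
    · rw [c1 (abs_le.2 ⟨h', h⟩)]

/-- the contraction in the chart of `a` -/
def cj (D D' : ℂ × Y → Y) (l : ℝ) (a b : ℂ) (y : Y) : Y :=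
  act (ph a) (D (conj (ph a) * b, vl l (D' (conj (ph a) * b, act (conj (ph a)) y))))

theorem ncj (a : ℂ) : ‖conj (ph a)‖ = 1 := by simp [ph_norm]

theorem back (a : ℂ) (y : Y) : act (ph a) (act (conj (ph a)) y) = y := by
  rw [← act_mul, mul_cj (ph_norm a), act_one]

section
variable {F : ℂ × Y → ℝ} {wI : ℝ} {D D' : ℂ × Y → Y} (h : Tv F wI D D') {l v : ℝ} {a b : ℂ} {y : Y}
include h

theorem Tv.zero (a b : ℂ) (y : Y) : cj D D' 0 a b y = y := by
  simp [cj, vl, h.ri, back]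

theorem Tv.far (hy : 626 ≤ hz y) : cj D D' l a b y = y := by
  have n : 25 ≤ ‖act (conj (ph a)) y‖ := Tr.norm (v := u1 y) (Tr.act (ncj a) ⟨le_rfl, .inr (by linarith)⟩)
  have e : hz (act (conj (ph a)) y) = hz y := by rw [hz, hz, u1_act, norm_act (ncj a)]
  rw [cj, h.out' _ _ n, vl, e, st, Real.smoothTransition.zero_of_nonpos (by linarith), mul_zero,
    zero_smul, sub_zero, h.out _ _ n, back]

theorem Tv.tr (hl : 0 ≤ l) (hy : Tr v y) : Tr v (cj D D' l a b y) := by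
  have n := hy.act (ncj a)
  rw [cj, h.out' _ _ n.norm, h.out _ _ (n.vl hl).norm]
  exact (n.vl hl).act (ph_norm a)

theorem Tv.nrm (h0 : 0 ≤ l) (h1 : l ≤ 1) {R : ℝ} (hR : 25 ≤ R) (hy : ‖y‖ ≤ R) :
    ‖cj D D' l a b y‖ ≤ R + 26 := by
  rw [cj, norm_act (ph_norm a)]
  refine (h.nb _ _).trans (max_le ((norm_vl h0 h1 _).trans ?_) (by linarith))
  linarith [(h.nb' (conj (ph a) * b) (act (conj (ph a)) y)).trans
    (max_le (by rwa [norm_act (ncj a)]) hR)]

theorem Tv.low (hF : LF F) (hb : ‖b‖ ≤ 3) (v0 : 0 ≤ v) (v1 : v ≤ wI) (hy : F (b, y) ≤ v) :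
    u1 (D' (conj (ph a) * b, act (conj (ph a)) y)) ≤ v := by
  rw [← h.lv (conj (ph a) * b) _ v (by rwa [norm_mul, ncj, one_mul]) v0 v1, h.ri, hF.inv _ _ _ (ncj a)]
  exact hy

theorem Tv.keep (hF : LF F) (hl : 0 ≤ l) (hb : l = 0 ∨ ‖b‖ ≤ 3) (v0 : 0 ≤ v) (v1 : v ≤ wI)
    (hy : F (b, y) ≤ v) : F (b, cj D D' l a b y) ≤ v := by
  rcases hb with rfl | hb
  · rwa [h.zero]
  have e : b = ph a * (conj (ph a) * b) := by rw [← mul_assoc, mul_cj (ph_norm a), one_mul]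
  rw [cj]
  nth_rewrite 1 [e]
  rw [hF.inv _ _ _ (ph_norm a), h.lv _ _ v (by rwa [norm_mul, ncj, one_mul]) v0 v1]
  exact (u1_vl hl _).trans (h.low hF hb v0 v1 hy)

theorem Tv.full (hF : LF F) (hb : ‖b‖ ≤ 3) (v0 : 0 ≤ v) (v1 : v ≤ wI) (v2 : v ≤ 1)
    (hy : F (b, y) ≤ v) : Tr v (cj D D' 1 a b y) := by
  have n := tr_one v2 (h.low (a := a) hF hb v0 v1 hy)
  rw [cj, h.out _ _ n.norm]
  exact n.act (ph_norm a)

theorem Tv.eqv {c : ℂ} (hc : ‖c‖ = 1) (ha : a = 0 → l = 0) :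
    cj D D' l (c * a) (c * b) (act c y) = act c (cj D D' l a b y) := by
  by_cases q : a = 0
  · rw [ha q, h.zero, h.zero]
  have e : conj (c * ph a) * c = conj (ph a) := by
    rw [map_mul, mul_right_comm, cj_mul hc, one_mul]
  rw [cj, cj, ph_mul hc q, ← mul_assoc, ← act_mul (conj (c * ph a)), e, act_mul]

theorem Tv.sm {X : Type} [NormedAddCommGroup X] [NormedSpace ℝ X] {l : X → ℝ} {a b : X → ℂ}
    {y : X → Y} {x : X} (hl : ContDiffAt ℝ ∞ l x) (ha : ContDiffAt ℝ ∞ a x)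
    (hb : ContDiffAt ℝ ∞ b x) (hy : ContDiffAt ℝ ∞ y x) (h0 : a x = 0 → ∀ᶠ x' in 𝓝 x, l x' = 0) :
    ContDiffAt ℝ ∞ (fun x => cj D D' (l x) (a x) (b x) (y x)) x := by
  by_cases q : a x = 0
  · exact hy.congr_of_eventuallyEq ((h0 q).mono fun x' e => by
      show cj D D' (l x') (a x') (b x') (y x') = y x'
      rw [e, h.zero])
  have p : ContDiffAt ℝ ∞ (fun x => ph (a x)) x :=
    ContDiffAt.comp (g := fun q : ℂ × V => ph q.1) (f := fun x => (a x, (0 : V))) x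
      (ph_sm (p := (a x, 0)) q) (ha.prodMk contDiffAt_const)
  have p' := smj p
  unfold cj
  exact cmp2 (g := act) act_sm p (cmp1 h.s (p'.mul hb) (cmp2 (g := vl) vl_sm hl
    (cmp1 h.s' (p'.mul hb) (cmp2 (g := act) act_sm p' hy))))
end

/-- chart weight -/
def ch (a b : ℂ) : ℝ := st (4 * ‖a‖ ^ 2 / (‖a‖ ^ 2 + ‖b‖ ^ 2) - 1)

theorem ch_zero (b : ℂ) : ch 0 b = 0 := Real.smoothTransition.zero_of_nonpos (by simp)

theorem ch_one {a b : ℂ} (h : a ≠ 0) (hab : ‖b‖ ≤ ‖a‖) : ch a b = 1 := by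
  have := norm_pos_iff.2 h
  refine Real.smoothTransition.one_of_one_le ?_
  rw [le_sub_iff_add_le, le_div_iff₀ (by positivity)]
  nlinarith [norm_nonneg b]

theorem ch_sm {X : Type} [NormedAddCommGroup X] [NormedSpace ℝ X] {a b : X → ℂ} {x : X}
    (ha : ContDiffAt ℝ ∞ a x) (hb : ContDiffAt ℝ ∞ b x) (h : a x ≠ 0 ∨ b x ≠ 0) :
    ContDiffAt ℝ ∞ (fun x => ch (a x) (b x)) x ∧
      (a x = 0 → ∀ᶠ x' in 𝓝 x, ch (a x') (b x') = 0) := by
  have n : ‖a x‖ ^ 2 + ‖b x‖ ^ 2 ≠ 0 := by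
    rcases h with h | h <;> (have := norm_pos_iff.2 h; positivity)
  have s : ContDiffAt ℝ ∞ (fun x => 4 * ‖a x‖ ^ 2 / (‖a x‖ ^ 2 + ‖b x‖ ^ 2) - 1) x :=
    ((contDiffAt_const.mul (ha.norm_sq ℝ)).div ((ha.norm_sq ℝ).add (hb.norm_sq ℝ)) n).sub
      contDiffAt_const
  exact ⟨st_sm.contDiffAt.comp x s, fun q => (s.continuousAt.eventually_lt continuousAt_const
    (show _ < (0 : ℝ) by simp [q])).mono fun x' e => Real.smoothTransition.zero_of_nonpos e.le⟩

/-- common weight -/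
def lm (F : ℂ × Y → ℝ) (w : ℝ) (z : ℂ × Y) : ℝ := st (4 * F z / w - 4) * st (5 - ‖z.1‖ ^ 2)

/-- the two contractions after the step -/
def c2c (F : ℂ × Y → ℝ) (w : ℝ) (D D' k : ℂ × Y → Y) (z : (ℂ × ℂ × ℂ) × Y) : Y :=
  cj D D' (lm F w (z.1.1, z.2) * ch z.1.2.2 z.1.2.1) z.1.2.2 z.1.1
    (cj D D' (lm F w (z.1.1, z.2) * ch z.1.2.1 z.1.2.2) z.1.2.1 z.1.1 (k (z.1.1, z.2)))

/-- the retraction -/
def RR (F : ℂ × Y → ℝ) (w : ℝ) (p : ℝ → ℝ) (D D' k : ℂ × Y → Y) (z : (ℂ × ℂ × ℂ) × Y) : Y :=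
  (1 - st (4 * F (z.1.1, z.2) / w - 5)) • c2c F w D D' k z +
    st (4 * F (z.1.1, z.2) / w - 5) • piH p z.2

end Rt1

open Rt1 in
theorem ret1 : RET := by
  intro F hF
  obtain ⟨w1, w10, C, hs⟩ := step F hF
  obtain ⟨wI, wI0, D, D', h⟩ := tv hF
  refine ⟨min (min w1 wI) 1, by positivity, max C 200, by positivity, fun w w0 hw p hp => ?_⟩
  have hw1 : w ≤ w1 := hw.trans ((min_le_left _ _).trans (min_le_left _ _))
  have hwI : w ≤ wI := hw.trans ((min_le_left _ _).trans (min_le_right _ _))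
  have hw2 : w ≤ 1 := hw.trans (min_le_right _ _)
  obtain ⟨k, ks, ke, ko, ki, kc⟩ := hs w w0 hw1 p hp
  have s0 : ∀ t : ℝ, t ≤ 0 → st t = 0 := fun t => Real.smoothTransition.zero_of_nonpos
  have s1 : ∀ t : ℝ, 1 ≤ t → st t = 1 := fun t => Real.smoothTransition.one_of_one_le
  have sn : ∀ t : ℝ, 0 ≤ st t := Real.smoothTransition.nonneg
  have sl : ∀ t : ℝ, st t ≤ 1 := Real.smoothTransition.le_one
  have l0 : ∀ z a b, 0 ≤ lm F w z * ch a b := fun z a b =>
    mul_nonneg (mul_nonneg (sn _) (sn _)) (sn _)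
  have l1 : ∀ z a b, lm F w z * ch a b ≤ 1 := fun z a b =>
    mul_le_one₀ (mul_le_one₀ (sl _) (sn _) (sl _)) (sn _) (sl _)
  have lz : ∀ ζ η, 3 ≤ ‖ζ‖ ∨ F (ζ, η) ≤ w → lm F w (ζ, η) = 0 := fun ζ η q => by
    rcases q with q | q
    · rw [lm, s0 (5 - _) (by simp only; nlinarith), mul_zero]
    · rw [lm, s0 (_ - 4) (by rw [sub_nonpos, div_le_iff₀ w0]; linarith), zero_mul]
  have lb : ∀ ζ η a b, lm F w (ζ, η) * ch a b = 0 ∨ ‖ζ‖ ≤ 3 := fun ζ η a b =>
    (le_total 3 ‖ζ‖).imp_left fun q => by rw [lz ζ η (.inl q), zero_mul]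
  have cz : ∀ l η, lm F w (l.1, η) = 0 → c2c F w D D' k (l, η) = k (l.1, η) := fun l η q => by
    simp only [c2c, q, zero_mul, h.zero]
  have m0 : ∀ ζ η, F (ζ, η) ≤ 5 * w / 4 → st (4 * F (ζ, η) / w - 5) = 0 := fun ζ η q =>
    s0 _ (by rw [sub_nonpos, div_le_iff₀ w0]; linarith)
  have m1 : ∀ ζ η, 3 * w / 2 ≤ F (ζ, η) → st (4 * F (ζ, η) / w - 5) = 1 := fun ζ η q =>
    s1 _ (by rw [le_sub_iff_add_le, le_div_iff₀ w0]; linarith)
  have Rk : ∀ l η, F (l.1, η) ≤ w → RR F w p D D' k (l, η) = k (l.1, η) := fun l η q => by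
    simp only [RR, m0 l.1 η (by linarith), cz l η (lz _ _ (.inr q)), sub_zero, one_smul, zero_smul,
      add_zero]
  have Rp : ∀ l η, 3 * w / 2 ≤ F (l.1, η) ∨ c2c F w D D' k (l, η) = piH p η →
      RR F w p D D' k (l, η) = piH p η := fun l η q => by
    rcases q with q | q
    · simp only [RR, m1 l.1 η q, sub_self, one_smul, zero_smul, zero_add]
    · simp only [RR, q, ← add_smul, sub_add_cancel, one_smul]
  have kk : ∀ ζ η, F (ζ, η) ≤ 2 * w → F (ζ, k (ζ, η)) ≤ w / 2 ∧ ‖k (ζ, η) - η‖ ≤ 1 := fun ζ η q => by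
    rcases le_or_gt (F (ζ, η)) 0 with a | a
    · rw [ki ζ η a]; exact ⟨by linarith, by simp⟩
    · exact ⟨(kc ζ η a q).2.2.2.1, (kc ζ η a q).1⟩
  have out : ∀ l η, 3 ≤ ‖l.1‖ ∨ 30 ≤ ‖η‖ → RR F w p D D' k (l, η) = piH p η := fun l η q => by
    refine Rp l η ?_
    rcases q with q | q
    · exact .inr (by rw [cz l η (lz _ _ (.inl q)), ko _ _ (.inl q)])
    rcases le_total (F (l.1, η)) w with a | a
    · exact .inr (by rw [cz l η (lz _ _ (.inr a)), ko _ _ (.inr (by linarith))])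
    refine (le_total _ _).imp_right fun b => ?_
    rw [hF.out _ _ (.inr (.inl (by linarith)))] at a b
    have f : 626 ≤ hz (piH p η) := by rw [piH, hz_sub, hz]; nlinarith
    simp only [c2c, ko _ η (.inr (by linarith)), h.far f]
  refine ⟨RR F w p D D' k, fun z hz => ContDiffAt.contDiffWithinAt ?_, fun c ζ a b η hc => ?_, out,
    fun l η => ?_, fun l η q => by rw [Rk l η (by linarith), ki _ _ q],
    fun l η a b => by rw [Rk l η b]; exact (kc _ _ a (by linarith)).2.1,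
    fun l η a b => by rw [Rk l η b]; exact (kc _ _ a (by linarith)).2.2.1, fun l η a b => ?_,
    fun l η a b => ?_⟩
  · have n : z.1.2.1 ≠ 0 ∨ z.1.2.2 ≠ 0 := not_and_or.1 fun q => hz (Prod.ext q.1 q.2)
    have sF : ContDiff ℝ ∞ fun z : (ℂ × ℂ × ℂ) × Y => F (z.1.1, z.2) := hF.sm.comp (by fun_prop)
    have sm2 : ContDiff ℝ ∞ fun z : (ℂ × ℂ × ℂ) × Y => st (4 * F (z.1.1, z.2) / w - 5) :=
      st_sm.comp (((contDiff_const.mul sF).div_const w).sub contDiff_const)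
    have sl : ContDiff ℝ ∞ fun z : (ℂ × ℂ × ℂ) × Y => lm F w (z.1.1, z.2) :=
      (st_sm.comp (((contDiff_const.mul sF).div_const w).sub contDiff_const)).mul
        (st_sm.comp (contDiff_const.sub (contDiff_fst.fst.norm_sq ℝ)))
    have a1 : ContDiffAt ℝ ∞ (fun z : (ℂ × ℂ × ℂ) × Y => z.1.2.1) z := by fun_prop
    have a2 : ContDiffAt ℝ ∞ (fun z : (ℂ × ℂ × ℂ) × Y => z.1.2.2) z := by fun_prop
    have a0 : ContDiffAt ℝ ∞ (fun z : (ℂ × ℂ × ℂ) × Y => z.1.1) z := by fun_prop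
    obtain ⟨c1, c1'⟩ := ch_sm a1 a2 n
    obtain ⟨c2, c2'⟩ := ch_sm a2 a1 n.symm
    have t1 := h.sm (sl.contDiffAt.mul c1) a1 a0
      (ks.comp (show ContDiff ℝ ∞ fun z : (ℂ × ℂ × ℂ) × Y => (z.1.1, z.2) by fun_prop)).contDiffAt
      fun q => (c1' q).mono fun x e => by simp only [e, mul_zero]
    have t2 := h.sm (sl.contDiffAt.mul c2) a2 a0 t1
      fun q => (c2' q).mono fun x e => by simp only [e, mul_zero]
    have sp : ContDiff ℝ ∞ fun z : (ℂ × ℂ × ℂ) × Y => piH p z.2 :=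
      contDiff_snd.sub (((u1_sm.comp contDiff_snd).sub
        (hp.sm.comp (u1_sm.comp contDiff_snd))).smul contDiff_const)
    exact ((contDiff_const.sub sm2).contDiffAt.smul t2).add (sm2.smul sp).contDiffAt
  · have e1 : ∀ a b, ch (c * a) (c * b) = ch a b := fun a b => by
      simp only [ch, norm_mul, hc, one_mul]
    have e2 : lm F w (c * ζ, act c η) = lm F w (ζ, η) := by
      simp only [lm, hF.inv _ _ _ hc, norm_mul, hc, one_mul]
    simp only [RR, c2c, e1, e2, hF.inv _ _ _ hc, ke _ _ _ hc, piH_act, act_add, act_smul]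
    rw [h.eqv hc fun q => by rw [q, ch_zero, mul_zero],
      h.eqv hc fun q => by rw [q, ch_zero, mul_zero]]
  · refine le_trans ?_ (le_max_right _ _)
    rcases le_total 30 ‖η‖ with q | q
    · rw [out l η (.inr q)]; simp
    rcases le_total (3 * w / 2) (F (l.1, η)) with a | a
    · rw [Rp l η (.inl a)]; simp
    have n1 : ‖k (l.1, η)‖ ≤ 31 := by
      linarith [(kk l.1 η (by linarith)).2, norm_sub_norm_le (k (l.1, η)) η]
    have n2 : ‖c2c F w D D' k (l, η)‖ ≤ 31 + 26 + 26 :=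
      h.nrm (l0 _ _ _) (l1 _ _ _) (by norm_num) (h.nrm (l0 _ _ _) (l1 _ _ _) (by norm_num) n1)
    have n3 : ‖piH p η‖ ≤ 90 := by
      refine (norm_sub_le _ _).trans ?_
      have := hp.lip (u1 η) 0
      rw [hp.id 0 le_rfl, sub_zero, sub_zero] at this
      rw [norm_smul, norm_ev, mul_one, Real.norm_eq_abs]
      linarith [abs_sub (u1 η) (p (u1 η)), abs_u1_le η]
    rw [show RR F w p D D' k (l, η) - piH p η = (1 - st (4 * F (l.1, η) / w - 5)) •
      (c2c F w D D' k (l, η) - piH p η) by simp only [RR]; module, norm_smul,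
      Real.norm_of_nonneg (sub_nonneg.2 (sl _))]
    nlinarith [norm_sub_le (c2c F w D D' k (l, η)) (piH p η), sn (4 * F (l.1, η) / w - 5),
      norm_nonneg (c2c F w D D' k (l, η) - piH p η)]
  · obtain ⟨-, c1, -, -, c2⟩ := kc _ _ a (by linarith)
    rw [Rk l η b]
    exact c2.trans (mul_le_mul_of_nonneg_right (le_max_left _ _) (by linarith))
  · have pu : u1 (piH p η) ≤ w / 2 := by rw [u1_piH]; linarith [hp.le _ b]
    rcases le_total (3 * w / 2) (F (l.1, η)) with q | q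
    · rw [Rp l η (.inl q)]; exact (hF.le _ _).trans pu
    have k1 := (kk l.1 η (by linarith)).1
    have v0 : 0 ≤ w / 2 := by linarith
    have v1 : w / 2 ≤ wI := by linarith
    have k2 := h.keep (a := l.2.1) hF (l0 (l.1, η) l.2.1 l.2.2) (lb _ _ _ _) v0 v1 k1
    have k3 : F (l.1, c2c F w D D' k (l, η)) ≤ w / 2 := h.keep hF (l0 _ _ _) (lb _ _ _ _) v0 v1 k2
    rcases le_total (F (l.1, η)) (5 * w / 4) with q' | q'
    · simpa only [RR, m0 l.1 η q', sub_zero, one_smul, zero_smul, add_zero] using k3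
    have k4 : u1 (c2c F w D D' k (l, η)) ≤ w / 2 := by
      rcases le_total 2 ‖l.1‖ with r | r
      · rwa [hF.out _ _ (.inl r)] at k3
      have e : lm F w (l.1, η) = 1 := by
        rw [lm, s1 (_ - 4) (by rw [le_sub_iff_add_le, le_div_iff₀ w0]; linarith),
          s1 (5 - _) (by simp only; nlinarith [norm_nonneg l.1]), one_mul]
      rcases le_total ‖l.2.2‖ ‖l.2.1‖ with r' | r'
      · have n : l.2.1 ≠ 0 := fun z => a (Prod.ext z (by simpa [z] using r'))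
        refine (h.tr (l0 _ _ _) ?_).1
        simp only [e, ch_one n r', one_mul]
        exact h.full hF (by linarith) v0 v1 (by linarith) k1
      · have n : l.2.2 ≠ 0 := fun z => a (Prod.ext (by simpa [z] using r') z)
        simp only [c2c, ch_one n r', mul_one]
        rw [e] at k2 ⊢
        exact (h.full hF (by linarith) v0 v1 (by linarith) k2).1
    refine (hF.le _ _).trans ?_
    simp only [RR, u1_add, u1_smul]
    nlinarith [sn (4 * F (l.1, η) / w - 5), sl (4 * F (l.1, η) / w - 5)]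

end

end Crest.Agent.N218.P
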