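import Crest.Agent.N218.P.PreP
import Crest.Agent.N218.P.Fam
import Crest.Agent.N218.P.Body
import Crest.Agent.N218.P.Bo
import Crest.Agent.N218.P.Reg
import Crest.Agent.N218.P.Crit
import Crest.Agent.N218.P.Mz
import Crest.Agent.N218.P.Fr
import Crest.Agent.N218.P.Desc
import Crest.Agent.N218.P.Step
import Crest.Agent.N218.P.Isop
import Crest.Agent.N218.P.Path
import Crest.Agent.N218.P.Ret1
import Crest.Agent.N218.A.TotI

/-! # Row 218, block A4 (helper77): closure -/

namespace Crest.Agent.N218.P

theorem a4' (h : RET) : A4 :=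
  a4_of (bo_ sm) fam (pre Sh.totI mz (reg sm (crit sm)) h (body sm) fr desc)

theorem a4 : A4 := a4' ret1

theorem path0 : PATH := path sm (crit sm) (bo_ sm)

end Crest.Agent.N218.P
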