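import Crest.Agent.N218.P.Bo

/-! Row 218 (helper50): leaf BODY, part 0: gradient steps of convex functions. -/

set_option autoImplicit false
open Set Real
open scoped ContDiff RealInnerProductSpace

namespace Crest.Agent.N218.P
namespace Bd

variable {E : Type} [NormedAddCommGroup E] [InnerProductSpace ℝ E]

/-- the descent inequality -/
theorem desc {f : E → ℝ} {G : E → E} {L : ℝ} (hL : 0 ≤ L)
    (hd : ∀ y, HasFDerivAt f (innerSL ℝ (G y)) y) (hG : ∀ x y, ‖G x - G y‖ ≤ L * ‖x - y‖)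
    (y v : E) : f (y + v) ≤ f y + ⟪G y, v⟫ + L * ‖v‖ ^ 2 := by
  have h1 := (convex_closedBall y ‖v‖).norm_image_sub_le_of_norm_hasFDerivWithin_le
    (f := fun z => f z - ⟪G y, z⟫) (f' := fun z => innerSL ℝ (G z) - innerSL ℝ (G y))
    (C := L * ‖v‖)
    (fun z _ => ((hd z).sub (innerSL ℝ (G y)).hasFDerivAt).hasFDerivWithinAt)
    (fun z hz => by
      rw [← map_sub, innerSL_apply_norm]
      exact (hG z y).trans (mul_le_mul_of_nonneg_left (mem_closedBall_iff_norm.1 hz) hL))
    (Metric.mem_closedBall_self (norm_nonneg v)) (by simp : y + v ∈ Metric.closedBall y ‖v‖)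
  rw [add_sub_cancel_left, Real.norm_eq_abs, inner_add_right] at h1
  have := (abs_le.1 h1).2
  nlinarith

/-- the first-order inequality of a convex function -/
theorem cvx {f : E → ℝ} {g x : E} (hc : ConvexOn ℝ univ f) (hd : HasFDerivAt f (innerSL ℝ g) x)
    (z : E) : f x + ⟪g, z - x⟫ ≤ f z := by
  have h1 : ConvexOn ℝ univ (fun t : ℝ => f (x + t • (z - x))) := by
    refine ⟨convex_univ, fun s _ t _ a b ha hb hab => ?_⟩
    have := hc.2 (mem_univ (x + s • (z - x))) (mem_univ (x + t • (z - x))) ha hb hab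
    have e : a • (x + s • (z - x)) + b • (x + t • (z - x)) = x + (a • s + b • t) • (z - x) := by
      obtain rfl : b = 1 - a := by linarith
      simp only [smul_eq_mul]; module
    rwa [e] at this
  have h2 : HasDerivAt (fun t : ℝ => x + t • (z - x)) (z - x) 0 := by
    simpa using ((hasDerivAt_id (0:ℝ)).smul_const (z - x)).const_add x
  have h3 : HasDerivAt (fun t : ℝ => f (x + t • (z - x))) ⟪g, z - x⟫ 0 :=
    HasFDerivAt.comp_hasDerivAt_of_eq (0:ℝ) hd h2 (by simp)
  have h4 := h1.le_slope_of_hasDerivAt (mem_univ 0) (mem_univ 1) zero_lt_one h3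
  simp [slope_def_field] at h4
  linarith

/-- a short gradient step of a convex function is nonexpansive -/
theorem nonexp {f : E → ℝ} {G : E → E} {L η : ℝ} (hL : 0 ≤ L) (hc : ConvexOn ℝ univ f)
    (hd : ∀ y, HasFDerivAt f (innerSL ℝ (G y)) y) (hG : ∀ x y, ‖G x - G y‖ ≤ L * ‖x - y‖)
    (h0 : 0 ≤ η) (hη : η * L ≤ 1) (x y : E) : ‖(x - η • G x) - (y - η • G y)‖ ≤ ‖x - y‖ := by
  have key : ∀ x y, f x - f y + ⟪G x, y - x⟫ ≤ -(η / 4) * ‖G y - G x‖ ^ 2 := fun x y => by
    have h1 := cvx hc (hd x) (y + (-(η / 2)) • (G y - G x))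
    have h2 := desc hL hd hG y ((-(η / 2)) • (G y - G x))
    have h3 : ⟪G y, G y - G x⟫ - ⟪G x, G y - G x⟫ = ‖G y - G x‖ ^ 2 := by
      rw [← inner_sub_left, real_inner_self_eq_norm_sq]
    rw [add_sub_right_comm, inner_add_right, real_inner_smul_right] at h1
    rw [real_inner_smul_right, norm_smul, mul_pow, Real.norm_eq_abs, sq_abs] at h2
    have h4 : η * L * (η * ‖G y - G x‖ ^ 2) ≤ 1 * (η * ‖G y - G x‖ ^ 2) :=
      mul_le_mul_of_nonneg_right hη (by positivity)
    have h5 : η * ⟪G y, G y - G x⟫ - η * ⟪G x, G y - G x⟫ = η * ‖G y - G x‖ ^ 2 := by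
      rw [← h3]; ring
    nlinarith
  have h1 := key x y
  have h2 := key y x
  rw [norm_sub_rev (G y)] at h1
  have h3 : ⟪x - y, G x - G y⟫ = ⟪G x, x - y⟫ - ⟪G y, x - y⟫ := by
    rw [real_inner_comm, inner_sub_left]
  have h4 : ⟪G x, y - x⟫ = -⟪G x, x - y⟫ := by rw [← inner_neg_right, neg_sub]
  have e : (x - η • G x) - (y - η • G y) = (x - y) - η • (G x - G y) := by module
  refine (pow_le_pow_iff_left₀ (norm_nonneg _) (norm_nonneg _) two_ne_zero).1 ?_
  rw [e, norm_sub_sq_real (x - y), real_inner_smul_right, norm_smul, mul_pow, Real.norm_eq_abs,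
    sq_abs]
  have h5 : η / 2 * ‖G x - G y‖ ^ 2 ≤ ⟪x - y, G x - G y⟫ := by linarith
  nlinarith [mul_le_mul_of_nonneg_left h5 h0]

theorem lip_of [FiniteDimensional ℝ E] {G : E → E} (hs : ContDiff ℝ ∞ G)
    (h : ∀ y, 20000 ≤ ‖y‖ → G y = (1 / 5000 : ℝ) • y) :
    ∃ L > 0, ∀ x y, ‖G x - G y‖ ≤ L * ‖x - y‖ := by
  have hc : HasCompactSupport fun y => G y - (1 / 5000 : ℝ) • y :=
    HasCompactSupport.intro (isCompact_closedBall (0 : E) 20000) fun y hy => by
      rw [h y (by simpa using (not_le.1 (mem_closedBall_zero_iff.not.1 hy)).le), sub_self]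
  obtain ⟨C, hC⟩ := ContDiff.lipschitzWith_of_hasCompactSupport hc
    (hs.sub (contDiff_id.const_smul _)) (by simp)
  refine ⟨C + 1, by positivity, fun x y => ?_⟩
  have h1 := hC.dist_le_mul x y
  rw [dist_eq_norm, dist_eq_norm] at h1
  have e : G x - G y = ((G x - (1 / 5000 : ℝ) • x) - (G y - (1 / 5000 : ℝ) • y)) +
      (1 / 5000 : ℝ) • (x - y) := by module
  have h2 := norm_add_le ((G x - (1 / 5000 : ℝ) • x) - (G y - (1 / 5000 : ℝ) • y))
    ((1 / 5000 : ℝ) • (x - y))
  rw [← e, norm_smul, Real.norm_of_nonneg (by norm_num)] at h2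
  nlinarith [norm_nonneg (x - y)]

theorem st0 {x : ℝ} (h : x ≤ 0) : st x = 0 := Real.smoothTransition.zero_of_nonpos h
theorem st1 {x : ℝ} (h : 1 ≤ x) : st x = 1 := Real.smoothTransition.one_of_one_le h
theorem stn (x : ℝ) : 0 ≤ st x := Real.smoothTransition.nonneg x
theorem stl (x : ℝ) : st x ≤ 1 := Real.smoothTransition.le_one x
theorem stp {x : ℝ} (h : 0 < x) : 0 < st x := Real.smoothTransition.pos_of_pos h
theorem stm : Monotone st := Real.smoothTransition.monotone
theorem sts : ContDiff ℝ ∞ st := Real.smoothTransition.contDiff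

theorem st_lip : ∃ K > 0, ∀ u u' : ℝ, u' ≤ u → st u - st u' ≤ K * (u - u') := by
  have hc : HasCompactSupport fun x : ℝ => st x * st (3 - x) :=
    HasCompactSupport.intro (isCompact_Icc (a := (0:ℝ)) (b := 3)) fun x hx => by
      rcases not_and_or.1 hx with h | h
      · rw [st0 (not_le.1 h).le, zero_mul]
      · rw [st0 (x := 3 - x) (by linarith [not_le.1 h]), mul_zero]
  obtain ⟨C, hC⟩ := ContDiff.lipschitzWith_of_hasCompactSupport (n := ∞) (𝕂 := ℝ) hc
    (Real.smoothTransition.contDiff.mul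
      (Real.smoothTransition.contDiff.comp (contDiff_const.sub contDiff_id))) (by simp)
  have e : ∀ x : ℝ, st (min x 1) * st (3 - min x 1) = st x := fun x => by
    rw [st1 (x := 3 - min x 1) (by linarith [min_le_right x 1]), mul_one]
    rcases le_total x 1 with h | h
    · rw [min_eq_left h]
    · rw [min_eq_right h, st1 h, st1 le_rfl]
  refine ⟨C + 1, by positivity, fun u u' h => ?_⟩
  have h1 := hC.dist_le_mul (min u 1) (min u' 1)
  rw [e, e, Real.dist_eq, Real.dist_eq] at h1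
  have h2 : |min u 1 - min u' 1| ≤ u - u' := by
    rw [abs_le]
    rcases min_cases u 1 with a | a <;> rcases min_cases u' 1 with b | b <;>
      rw [a.1, b.1] <;> constructor <;> linarith [a.2, b.2]
  have h3 := mul_le_mul_of_nonneg_left h2 C.2
  have h4 := le_abs_self (st u - st u')
  have h5 : (C : ℝ) * |min u 1 - min u' 1| ≤ C * (u - u') := h3
  nlinarith

end Bd
end Crest.Agent.N218.P
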