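import Crest.Agent.N218.P.Bd0

/-! Row 218 (helper50): leaf BODY, part 1: the radial cut-off and one gradient step. -/

set_option autoImplicit false
open Set Real
open scoped ContDiff RealInnerProductSpace

namespace Crest.Agent.N218.P
namespace Bd
open Bo

noncomputable section

variable {E : Type} [NormedAddCommGroup E] [InnerProductSpace ℝ E]

/-- the radial factor -/
def rho (s : ℝ) : ℝ := 1 - S1 (s - 140) / s
/-- the radial cut-off -/
def k1 (y : E) : E := rho ‖y‖ • y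

theorem rho_mul (h : SM) (s : ℝ) : rho s * s = s - S1 (s - 140) := by
  unfold rho
  rcases eq_or_ne s 0 with rfl | hs
  · rw [h.z _ (by norm_num)]; simp
  · field_simp

theorem rho_one (h : SM) {s : ℝ} (hs : s ≤ 140) : rho s = 1 := by
  unfold rho; rw [h.z _ (by linarith)]; simp

theorem sub_mono (h : SM) : Monotone fun x => x - S1 x :=
  monotone_of_hasDerivAt_nonneg (fun x => (hasDerivAt_id x).sub (h.d x))
    fun x => sub_nonneg.2 (stl x)

theorem rho_mem (h : SM) {s : ℝ} (hs : 0 ≤ s) : 0 ≤ rho s ∧ rho s ≤ 1 := by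
  rcases le_or_gt s 140 with h1 | h1
  · rw [rho_one h h1]; norm_num
  · have h2 := h.le (s - 140) (by linarith)
    have h3 : (s - 140) * st (s - 140) ≤ (s - 140) * 1 :=
      mul_le_mul_of_nonneg_left (stl _) (by linarith)
    unfold rho
    refine ⟨sub_nonneg.2 ((div_le_one (by linarith)).2 (by linarith)), ?_⟩
    linarith [div_nonneg (h.nn (s - 140)) hs]

theorem k1_id (h : SM) {y : E} (hy : ‖y‖ ≤ 140) : k1 y = y := by
  rw [k1, rho_one h hy, one_smul]

theorem k1_norm (h : SM) (y : E) : ‖k1 y‖ = ‖y‖ - S1 (‖y‖ - 140) := by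
  rw [k1, norm_smul, Real.norm_of_nonneg (rho_mem h (norm_nonneg y)).1, rho_mul h]

theorem k1_le (h : SM) (y : E) : ‖k1 y‖ ≤ 141 := by
  rw [k1_norm h]; linarith [h.ge (‖y‖ - 140)]

theorem k1_ge (h : SM) {y : E} (hy : 140 ≤ ‖y‖) : 140 ≤ ‖k1 y‖ := by
  have := sub_mono h (show (0:ℝ) ≤ ‖y‖ - 140 by linarith)
  simp only [h.z 0 le_rfl] at this
  rw [k1_norm h]; linarith

theorem k1_sm (h : SM) : ContDiff ℝ ∞ (k1 : E → E) := by
  refine contDiff_iff_contDiffAt.2 fun y => ?_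
  rcases eq_or_ne y 0 with rfl | hy
  · refine contDiffAt_id.congr_of_eventuallyEq ?_
    filter_upwards [Metric.ball_mem_nhds (0 : E) (by norm_num : (0:ℝ) < 140)] with z hz
    exact k1_id h (mem_ball_zero_iff.1 hz).le
  · have h1 : ContDiffAt ℝ ∞ (fun z : E => ‖z‖) y := contDiffAt_norm ℝ hy
    exact (contDiffAt_const.sub ((h.sm.contDiffAt.comp y (h1.sub contDiffAt_const)).div h1
      (norm_ne_zero_iff.2 hy))).smul contDiffAt_id

theorem k1_lip (h : SM) (x y : E) : ‖k1 x - k1 y‖ ≤ ‖x - y‖ := by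
  obtain ⟨a0, a1⟩ := rho_mem h (norm_nonneg x)
  obtain ⟨b0, b1⟩ := rho_mem h (norm_nonneg y)
  have h1 : (rho ‖x‖ * ‖x‖ - rho ‖y‖ * ‖y‖) ^ 2 ≤ (‖x‖ - ‖y‖) ^ 2 := by
    rw [rho_mul h, rho_mul h]
    rcases le_total ‖x‖ ‖y‖ with c | c
    · have h2 := h.mono (show ‖x‖ - 140 ≤ ‖y‖ - 140 by linarith)
      have h3 := sub_mono h (show ‖x‖ - 140 ≤ ‖y‖ - 140 by linarith)
      simp only at h3
      nlinarith
    · have h2 := h.mono (show ‖y‖ - 140 ≤ ‖x‖ - 140 by linarith)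
      have h3 := sub_mono h (show ‖y‖ - 140 ≤ ‖x‖ - 140 by linarith)
      simp only at h3
      nlinarith
  have h2 : 0 ≤ ‖x‖ * ‖y‖ - ⟪x, y⟫ := sub_nonneg.2 (real_inner_le_norm x y)
  have h3 : rho ‖x‖ * rho ‖y‖ ≤ 1 := mul_le_one₀ a1 b0 b1
  refine (pow_le_pow_iff_left₀ (norm_nonneg _) (norm_nonneg _) two_ne_zero).1 ?_
  rw [k1, k1, norm_sub_sq_real, norm_sub_sq_real, norm_smul, norm_smul, Real.norm_of_nonneg a0,
    Real.norm_of_nonneg b0, real_inner_smul_left, real_inner_smul_right]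
  nlinarith [mul_le_mul_of_nonneg_right h3 h2]

theorem bo_zero (h : SM) (e : E) : bo e 0 ≤ -(1 / 4) := bo_in h (by simp) (by simp)

theorem k1_bo (h : SM) (e y : E) (hy : 0 < bo e y) : 0 < bo e (k1 y) ∧ bo e (k1 y) ≤ bo e y := by
  rcases le_total ‖y‖ 140 with c | c
  · rw [k1_id h c]; exact ⟨hy, le_rfl⟩
  · obtain ⟨a0, a1⟩ := rho_mem h (norm_nonneg y)
    have h1 := pow_le_pow_left₀ (by norm_num) (k1_ge h c) 2
    refine ⟨by linarith [q_le h e (k1 y)], ?_⟩
    have h2 := (bo_cv h e).2 (mem_univ y) (mem_univ 0) a0 (sub_nonneg.2 a1) (by ring)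
    rw [smul_zero, add_zero, smul_eq_mul, smul_eq_mul] at h2
    have h3 := mul_le_mul_of_nonneg_left ((bo_zero h e).trans (by linarith : -(1 / 4) ≤ bo e y))
      (sub_nonneg.2 a1)
    unfold k1; linarith

theorem small (h : SM) {e y : E} (hy : bo e y ≤ 1) : ‖y‖ ≤ 140 := by
  have := q_le h e y
  nlinarith [norm_nonneg y]

/-- one gradient step -/
def T (e : E) (η : ℝ) (y : E) : E := y - η • (st (bo e y) • gr e y)

theorem T_sm (h : SM) (e : E) (η : ℝ) : ContDiff ℝ ∞ (T e η) :=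
  contDiff_id.sub (((sts.comp (bo_sm h e)).smul (gr_sm e)).const_smul η)

theorem T_id {e y : E} (η : ℝ) (hy : bo e y ≤ 0) : T e η y = y := by
  simp [T, st0 hy]

theorem T_eqv {e : E} (η : ℝ) (A : E ≃ₗᵢ[ℝ] E) (hA : A e = e) (y : E) :
    T e η (A y) = A (T e η y) := by
  have h1 : ⟪e, A y⟫ = ⟪e, y⟫ := by rw [← A.inner_map_map e y, hA]
  have h2 : tt e (A y) = tt e y := by simp [tt, h1]
  simp [T, gr, sg, bo_eq, h1, h2, hA]

theorem gr_far {e y : E} (he : ‖e‖ = 1) (hy : 20000 ≤ ‖y‖) : gr e y = (1 / 5000 : ℝ) • y := by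
  have h1 := real_inner_le_norm e y
  rw [he, one_mul] at h1
  have : sg e y = 1 := st1 (by unfold tt; nlinarith)
  simp [gr, this]

theorem gr_le {e y : E} (he : ‖e‖ = 1) (hy : ‖y‖ ≤ 141) : ‖gr e y‖ ≤ 1 := by
  have h0 := sg0 e y
  have h1 := sg1 e y
  refine (norm_add_le _ _).trans ?_
  rw [norm_smul, norm_smul, he, Real.norm_of_nonneg (sub_nonneg.2 h1),
    Real.norm_of_nonneg (by positivity)]
  nlinarith

theorem phi_d (h : SM) (e y : E) :
    HasFDerivAt (fun y => S1 (bo e y)) (innerSL ℝ (st (bo e y) • gr e y)) y :=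
  HasFDerivAt.congr_fderiv ((h.d (bo e y)).comp_hasFDerivAt y (bo_d h e y)) (by ext v; simp)

theorem phi_cv (h : SM) (e : E) : ConvexOn ℝ univ fun y => S1 (bo e y) :=
  ⟨convex_univ, fun x _ y _ _ _ ha hb hab =>
    (h.mono ((bo_cv h e).2 (mem_univ x) (mem_univ y) ha hb hab)).trans
      (h.conv.2 (mem_univ _) (mem_univ _) ha hb hab)⟩

/-- what is used of the step -/
structure Good (e : E) (η : ℝ) : Prop where
  pos : 0 < η
  one : ∀ x y, ‖T e η x - T e η y‖ ≤ ‖x - y‖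
  p1 : ∀ u u' : ℝ, u' ≤ u → η * (st u - st u') ≤ (u - u') / 2
  step : ∀ y, ‖y‖ ≤ 141 → 0 < bo e y → 0 < bo e (T e η y) ∧
    ‖T e η y - y‖ ≤ 1128 * (bo e y - bo e (T e η y)) ∧
    η * st (bo e y) ≤ 636192 * (bo e y - bo e (T e η y))

theorem good [FiniteDimensional ℝ E] (h : SM) {e : E} (he : ‖e‖ = 1) : ∃ η, Good e η := by
  obtain ⟨L, L0, hL⟩ := lip_of (G := fun y => st (bo e y) • gr e y)
    ((sts.comp (bo_sm h e)).smul (gr_sm e)) fun y hy => by
      have := q_le h e y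
      simp only [gr_far he hy, st1 (show 1 ≤ bo e y by nlinarith), one_smul]
  obtain ⟨M, M0, hM⟩ := lip_of (gr_sm e) fun y hy => gr_far he hy
  obtain ⟨K, K0, hK⟩ := st_lip
  set η : ℝ := 1 / (2 * (L + M + K)) with hη
  have e0 : 0 < η := by positivity
  have e1 : η * L + η * M + η * K = 1 / 2 := by rw [hη]; field_simp
  have eL := mul_pos e0 L0
  have eM := mul_pos e0 M0
  have eK := mul_pos e0 K0
  have p1 : ∀ u u' : ℝ, u' ≤ u → η * (st u - st u') ≤ (u - u') / 2 := fun u u' c => by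
    have h1 := mul_le_mul_of_nonneg_left (hK u u' c) e0.le
    nlinarith
  refine ⟨η, e0, nonexp L0.le (phi_cv h e) (phi_d h e) hL e0.le (by linarith), p1,
    fun y hy hb => ?_⟩
  set a : ℝ := η * st (bo e y) with ha
  have a0 : 0 < a := mul_pos e0 (stp hb)
  have a1 : a ≤ η := by nlinarith [stl (bo e y)]
  have a2 : a ≤ bo e y / 2 := by simpa [st0 le_rfl] using p1 _ 0 hb.le
  have eT : T e η y = y + (-a) • gr e y := by rw [T, smul_smul, neg_smul, sub_eq_add_neg]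
  have g1 := gr_le he hy
  have g0 := norm_nonneg (gr e y)
  have g2 : 1 / 564 ≤ ‖gr e y‖ := by
    have h1 := cvx (bo_cv h e) (bo_d h e y) 0
    rw [zero_sub, inner_neg_right] at h1
    have h2 := real_inner_le_norm (gr e y) y
    nlinarith [bo_zero h e, mul_le_mul_of_nonneg_left hy g0]
  have h1 := cvx (bo_cv h e) (bo_d h e y) (y + (-a) • gr e y)
  have h2 := desc M0.le (bo_d h e) hM y ((-a) • gr e y)
  rw [add_sub_cancel_left, real_inner_smul_right, real_inner_self_eq_norm_sq] at h1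
  rw [real_inner_smul_right, real_inner_self_eq_norm_sq, norm_smul, norm_neg,
    Real.norm_of_nonneg a0.le] at h2
  rw [eT, add_sub_cancel_left, norm_smul, norm_neg, Real.norm_of_nonneg a0.le]
  set n := ‖gr e y‖
  have n2 : n ^ 2 ≤ 1 := by nlinarith
  have h3 : a * M ≤ 1 / 2 := by nlinarith
  have h4 : a * M * (a * n ^ 2) ≤ 1 / 2 * (a * n ^ 2) :=
    mul_le_mul_of_nonneg_right h3 (by positivity)
  have h5 : a * n ^ 2 / 2 ≤ bo e y - bo e (y + (-a) • gr e y) := by nlinarith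
  have h6 : a * n * (1 / 564) ≤ a * n * n := mul_le_mul_of_nonneg_left g2 (by positivity)
  have h7 : a * (1 / 564) ≤ a * n := mul_le_mul_of_nonneg_left g2 a0.le
  have h8 : a * n ^ 2 ≤ a * 1 := mul_le_mul_of_nonneg_left n2 a0.le
  refine ⟨by linarith, by nlinarith, by nlinarith⟩

end

end Bd
end Crest.Agent.N218.P
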