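import Crest.Agent.N218.P.Defs

/-!
# Row 218, block A4 (helper84): body + compactly supported perturbation = `Fam`
-/

set_option autoImplicit false
open Set Filter
open scoped ContDiff RealInnerProductSpace Topology

namespace Crest.Agent.N218.P
open A

theorem ev_norm' : ‖ev‖ = 1 := by
  rw [EuclideanSpace.norm_eq]; simp [ev, Fin.sum_univ_five]

/-- the local conditions near the top of the body -/
structure Lo (w C : ℝ) (ρ : Y → ℝ) (r : Y → Y) (η : Y) : Prop where
  reg : |ρ η| ≤ w → ∃ ξ, fderiv ℝ ρ η ξ ≠ 0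
  id : ρ η ≤ 0 → r η = η
  lt : 0 < ρ η → ρ η ≤ w → ρ (r η) < ρ η
  low : 0 < ρ η → ρ η ≤ w → -(w / 4) ≤ ρ (r η)
  lip : 0 < ρ η → ρ η ≤ w → ‖r η - η‖ ≤ C * (ρ η - ρ (r η))
  inn : ρ (r η) ≤ w / 2

theorem fam0 (hB : BO) {e : Eu 11} (he : ‖e‖ = 1) (i : Y ≃ₗᵢ[ℝ] Eu 9) {w C C' : ℝ} {p : ℝ → ℝ}
    {rY : Y → Y} (hb : BR ev w C p rY) (w0 : 0 < w) (w1 : w ≤ 1 / 100000)
    {d : Eu 11 × Y → ℝ} {k : Eu 11 × Y → Y} (ds : ContDiff ℝ ∞ d) (ks : ContDiff ℝ ∞ k)
    (dle : ∀ x η, ‖x‖ = 1 → d (x, η) ≤ 0)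
    (cap : ∀ x η, ‖x‖ = 1 → 3 / 4 ≤ |⟪e, x⟫| → d (x, η) = 0)
    (far : ∀ x η, ‖x‖ = 1 → 10 ≤ ‖η‖ ∨ ‖η‖ ≤ 1 / 4 → d (x, η) = 0)
    (kfar : ∀ x η, ‖x‖ = 1 → 10 ≤ ‖η‖ → k (x, η) = 0) (kb : ∀ z, ‖k z‖ ≤ 1)
    (loc : ∀ x η, ‖x‖ = 1 → ‖η‖ ≤ 20 →
      Lo w C' (fun η => bo ev η + d (x, η)) (fun η => rY η + k (x, η)) η) :
    ∃ Φ : Fam, (∀ x η, Φ.ρ (x, i η) = bo ev η + d (x, η)) ∧ Φ.w = w ∧
      ∀ x η, Φ.r (x, i η) = i (rY η + k (x, η)) := by
  obtain ⟨b1, b2, -, b4, -, b6, b7⟩ := hB Y ev ev_norm'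
  have db := b1.differentiable (by simp)
  have dd := ds.differentiable (by simp)
  have sj : ContDiff ℝ ∞ fun z : Eu 11 × Eu 9 => (z.1, i.symm z.2) :=
    contDiff_fst.prodMk (i.symm.contDiff.comp contDiff_snd)
  have sρ : ContDiff ℝ ∞ fun z : Eu 11 × Eu 9 => bo ev (i.symm z.2) + d (z.1, i.symm z.2) :=
    (b1.comp sj.snd).add (ds.comp sj)
  have dx : ∀ x, Differentiable ℝ fun η => bo ev η + d (x, η) := fun x =>
    db.add (dd.comp (by fun_prop))
  have fd : ∀ x y v, fderiv ℝ (fun z : Eu 11 × Eu 9 => bo ev (i.symm z.2) + d (z.1, i.symm z.2))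
      (x, y) (0, v) = fderiv ℝ (fun η => bo ev η + d (x, η)) (i.symm y) (i.symm v) := fun x y v => by
    have h1 := (((sρ.differentiable (by simp)) (x, y)).hasFDerivAt.comp y
      (hasFDerivAt_prodMk_right x y)).fderiv
    have h2 := ((dx x (i.symm y)).hasFDerivAt.comp y
      i.symm.toContinuousLinearEquiv.hasFDerivAt).fderiv
    simpa using DFunLike.congr_fun (h1.symm.trans h2) v
  have b0 : bo ev 0 ≤ -(1 / 4) := b6 0 (by simp) (by simp)
  have nb : ∀ η, bo ev η ≤ w → ‖η‖ ≤ 100 := fun η h => by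
    have := b4 η
    nlinarith [norm_nonneg η]
  have mv : ∀ η, bo ev η ≤ w → ‖rY η - η‖ ≤ 1 := fun η h => by
    have h1 := b2.2 (mem_univ η) (mem_univ 0) (show 0 ≤ 1 - 4 * w by linarith)
      (show 0 ≤ 4 * w by linarith) (by ring)
    simp only [smul_zero, add_zero, smul_eq_mul] at h1
    have h2 : bo ev ((1 - 4 * w) • η) ≤ 0 := by nlinarith
    have h3 : ‖η - (1 - 4 * w) • η‖ ≤ 1 / 2 := by
      rw [show η - (1 - 4 * w) • η = (4 * w) • η by module, norm_smul,
        Real.norm_of_nonneg (by linarith)]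
      nlinarith [nb η h, norm_nonneg η]
    have h4 := hb.one η ((1 - 4 * w) • η)
    rw [hb.id _ h2] at h4
    have h5 := norm_sub_le_norm_sub_add_norm_sub (rY η) ((1 - 4 * w) • η) η
    rw [norm_sub_rev ((1 - 4 * w) • η) η] at h5
    linarith
  have lo : ∀ x η, ‖x‖ = 1 →
      Lo w (max C C') (fun η => bo ev η + d (x, η)) (fun η => rY η + k (x, η)) η := fun x η hx => by
    rcases le_or_gt ‖η‖ 20 with h | h
    · have l := loc x η hx h
      exact ⟨l.reg, l.id, l.lt, l.low, fun a b => (l.lip a b).trans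
        (mul_le_mul_of_nonneg_right (le_max_right _ _) (sub_nonneg.2 (l.lt a b).le)), l.inn⟩
    have d0 := far x η hx (.inl (by linarith))
    have k0 := kfar x η hx (by linarith)
    have d1 : bo ev η ≤ w → d (x, rY η) = 0 := fun a => far x _ hx (.inl (by
      have := norm_sub_norm_le η (rY η)
      rw [norm_sub_rev] at this
      linarith [mv η a]))
    have e1 : (fun η => bo ev η + d (x, η)) =ᶠ[𝓝 η] bo ev :=
      ((isOpen_lt continuous_const continuous_norm).eventually_mem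
        (show η ∈ {η : Y | 10 < ‖η‖} from by simp; linarith)).mono fun η' h' => by
          simp [far x η' hx (.inl (le_of_lt h'))]
    refine ⟨fun _ => ⟨η, ?_⟩, fun a => ?_, fun a b => ?_, fun a b => ?_, fun a b => ?_, ?_⟩
    · rw [e1.fderiv_eq]
      exact (b7 η (by rintro rfl; simp at h; linarith)).1.ne'
    all_goals simp only [d0, k0, add_zero] at *
    · exact hb.id η a
    · linarith [hb.lt η a, dle x (rY η) hx]
    · linarith [hb.low η a, d1 b]
    · rw [d1 b, add_zero]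
      exact (hb.lip η a b).trans
        (mul_le_mul_of_nonneg_right (le_max_left _ _) (sub_nonneg.2 (hb.lt η a).le))
    · linarith [hb.inn η, dle x (rY η) hx]
  refine ⟨⟨fun z => bo ev (i.symm z.2) + d (z.1, i.symm z.2),
    fun z => i (rY (i.symm z.2) + k (z.1, i.symm z.2)), e, w, 1 / 4, 201, 1 / 4, max C C', sρ,
    i.contDiff.comp ((hb.sm.comp sj.snd).add (ks.comp sj)), he, w0, by norm_num, by norm_num,
    fun x y hx h => ?_, fun x y hx h => ?_, fun x y hx h => ?_, fun x hx h => ?_,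
    fun x y hx h h1 _ => ?_, fun x y hx h => ?_, fun x y hx a b => ?_, fun x y hx a b => ?_,
    fun x y hx a b => ?_, fun x y hx => ?_, fun z => ?_⟩, fun x η => by simp, rfl,
    fun x η => by simp⟩
  · obtain ⟨ξ, hξ⟩ := (lo x _ hx).reg h
    exact ⟨i ξ, by rwa [fd, i.symm_apply_apply]⟩
  · rw [← i.symm.norm_map y]
    rcases le_or_gt 10 ‖i.symm y‖ with a | a
    · simp only [far x _ hx (.inl a), add_zero] at h
      linarith [nb _ h]
    · linarith
  · rw [← i.symm.norm_map y] at h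
    have := real_inner_le_norm ev (i.symm y)
    rw [ev_norm'] at this
    simp only [far x _ hx (.inr h), add_zero]
    linarith [b6 (i.symm y) (by linarith) (by linarith)]
  · simp only [cap x _ hx (by linarith), add_zero]
    exact (b2.comp_linearMap i.symm.toLinearEquiv.toLinearMap :)
  · rw [fd]
    simp only [cap x _ hx (by linarith), add_zero]
    refine (b7 _ fun h0 => ?_).1
    rw [← i.symm.norm_map y, h0, norm_zero] at h1
    linarith
  · have := (lo x _ hx).id h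
    simp only at this ⊢
    rw [this, i.apply_symm_apply]
  · simpa using (lo x _ hx).lt a b
  · simpa using (lo x _ hx).low a b
  · have := (lo x _ hx).lip a b
    rw [← i.norm_map, map_sub, i.apply_symm_apply] at this
    simpa using this
  · simpa using (lo x (i.symm y) hx).inn
  · rw [i.norm_map]
    linarith [norm_add_le (rY (i.symm z.2)) (k (z.1, i.symm z.2)), hb.bd (i.symm z.2),
      kb (z.1, i.symm z.2)]

end Crest.Agent.N218.P
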