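import Crest.Agent.N218.P.Sw
import Crest.Agent.N218.P.Shape
import Crest.Agent.N218.P.Kit
import Crest.Agent.N218.P.PreP

/-!
# Row 218 (helper77): kit for the first step of PIECE (lifts, descent, the upstairs family)
-/

set_option autoImplicit false
set_option linter.unusedSectionVars false
open Set Topology
open scoped RealInnerProductSpace ComplexConjugate

noncomputable section

namespace Crest.Agent.N218.P.P1
open Pm Sh A Sk

/-- upstairs -/
abbrev SS := S3 × S3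

theorem nrm (a : S3) : ‖(a : V)‖ = 1 := by simp
theorem nrm2 (a : S2) : ‖(a : E 3)‖ = 1 := by simp

/-- `y` lies over `x` -/
def Lf (x : X22) (y : SS) : Prop := (x.1 : E 3) = Hf y.1 ∧ (x.2 : E 3) = Hf y.2

theorem lab_ct (s : ℝ) : Continuous fun y : SS => lab s y.1 y.2 := by
  unfold lab; fun_prop

theorem le_of_sq_le_sq₀' {E : Type} [NormedAddCommGroup E] {a b : E} (h : ‖a‖ ^ 2 ≤ ‖b‖ ^ 2) :
    ‖a‖ ≤ ‖b‖ := (sq_le_sq₀ (norm_nonneg _) (norm_nonneg _)).1 h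

theorem piH_lip {w A : ℝ} {p : ℝ → ℝ} (h : Pp w A p) (y y' : Y) :
    ‖piH p y - piH p y'‖ ≤ ‖y - y'‖ := by
  refine le_of_sq_le_sq₀' ?_
  have a := norm_sq_Y (piH p y - piH p y')
  have b := norm_sq_Y (y - y')
  have c := sq_le_sq.2 (h.lip (u1 y) (u1 y'))
  have e1 : pv (piH p y - piH p y') = pv (y - y') := V_ext (by simp [piH, ev]) (by simp [piH, ev])
  have e2 : pw (piH p y - piH p y') = pw (y - y') := V_ext (by simp [piH, ev]) (by simp [piH, ev])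
  have e3 : u2 (piH p y - piH p y') = u2 (y - y') := by simp [piH, ev, u2]
  rw [e1, e2, e3, u1_sub, u1_piH, u1_piH] at a
  rw [u1_sub] at b
  linarith

theorem piH_zero {w A : ℝ} {p : ℝ → ℝ} (h : Pp w A p) : piH p 0 = 0 := by
  have : u1 0 = 0 := rfl
  simp [piH, this, h.id 0 le_rfl]

variable {Φ : Fam} {Λ : ℝ} (h : Shape Φ Λ)

/-- the rescaled body retraction -/
def rYs (η : Y) : Y := h.ε⁻¹ • (h.rY (h.ε • η + ev) - ev)

theorem rYs_lip (y y' : Y) : ‖rYs h y - rYs h y'‖ ≤ ‖y - y'‖ := by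
  have e := h.ε0
  have a := h.hb.one (h.ε • y + ev) (h.ε • y' + ev)
  rw [add_sub_add_right_eq_sub, ← smul_sub, norm_smul, Real.norm_of_nonneg e.le] at a
  rw [rYs, rYs, ← smul_sub, sub_sub_sub_cancel_right, norm_smul,
    Real.norm_of_nonneg (inv_pos.2 e).le, inv_mul_le_iff₀ e]
  exact a

theorem rYs_ct : Continuous (rYs h) := by
  have := h.hb.sm.continuous
  unfold rYs; fun_prop

theorem rYs_eq {η : Y} (hη : h.ε * ‖η‖ ≤ 19) : rYs h η = piH (pl h.ε h.p) η := by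
  have e := h.ε0
  have n : ‖h.ε • η + ev‖ ≤ 20 := (norm_add_le _ _).trans (by
    rw [norm_smul, Real.norm_of_nonneg e.le, norm_ev]; linarith)
  have u : ⟪ev, h.ε • η + ev⟫ - 1 = h.ε * u1 η := by rw [inner_ev, u1_add, u1_smul, u1_ev]; ring
  rw [rYs, h.hb.flat _ n, u, piH, pl, add_sub_right_comm, add_sub_cancel_right, smul_sub, smul_smul,
    smul_smul, inv_mul_cancel₀ e.ne', one_smul]
  congr 2
  field_simp

theorem rYs_act {c : ℂ} (hc : ‖c‖ = 1) (η : Y) : rYs h (act c η) = act c (rYs h η) := by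
  have := h.hb.eqv (actL hc) (act_ev c) (h.ε • η + ev)
  simp only [actL_apply, act_add, act_smul, act_ev] at this
  simp only [rYs, this, act_smul, act_sub, act_ev]

theorem C0 : 0 ≤ h.C := (norm_nonneg _).trans (h.hR.bd 0 0)

theorem R_off {x : X22} {y : SS} (l : Lf x y) (a : ¬0 < ⟪(x.1 : E 3), (x.2 : E 3)⟫) (η : Y) :
    h.R (lab h.s y.1 y.2, η) = piH (pl h.ε h.p) η :=
  h.hR.out _ _ (Or.inl (h.far _ _ (nrm _) (nrm _) (l.1 ▸ l.2 ▸ not_lt.1 a)))

theorem nX_mem {x : X22} (a : 0 < ⟪(x.1 : E 3), (x.2 : E 3)⟫) : nX x ∈ N0 :=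
  ⟨nrm2 _, by
    simp only [nX, inner_sub_right, inner_smul_right, real_inner_self_eq_norm_sq, nrm2]
    rw [inv_mul_cancel₀ a.ne']; norm_num⟩

theorem ov_hp {x : X22} {y : SS} (l : Lf x y) (a : 0 < ⟪(x.1 : E 3), (x.2 : E 3)⟫) :
    Ov (nX x) y.1 y.2 := by
  refine ⟨nrm _, nrm _, l.1.symm, ?_⟩
  simp only [nX, add_sub_cancel]
  rw [norm_smul, nrm2, mul_one, Real.norm_of_nonneg (inv_pos.2 a).le, ← l.2]

theorem al_hp {x : X22} {y : SS} (l : Lf x y) (a : 0 < ⟪(x.1 : E 3), (x.2 : E 3)⟫) :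
    1 / 4 ≤ ‖(lab h.s y.1 y.2).2‖ := (h.al _ (nX_mem a) _ _ (ov_hp l a)).1

theorem ne_hp {x : X22} {y : SS} (l : Lf x y) (a : 0 < ⟪(x.1 : E 3), (x.2 : E 3)⟫) :
    (lab h.s y.1 y.2).2 ≠ 0 := fun e => by
  have := al_hp h l a
  rw [e] at this; norm_num at this

theorem rX_on {x : X22} {y : SS} (l : Lf x y) (a : 0 < ⟪(x.1 : E 3), (x.2 : E 3)⟫) (η : Y) :
    h.rX (x, η) = h.σ' (lab h.s y.1 y.2).2 (h.R (lab h.s y.1 y.2, h.σ (lab h.s y.1 y.2).2 η)) := by
  simp only [Shape.rX, gX, a, if_true]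
  rw [h.gv _ (nX_mem a) _ _ _ (ov_hp l a), add_sub_cancel]

theorem rX_off {x : X22} (a : ¬0 < ⟪(x.1 : E 3), (x.2 : E 3)⟫) (η : Y) :
    h.rX (x, η) = piH (pl h.ε h.p) η := by
  simp only [Shape.rX, gX, a, if_false, add_zero]

theorem rX_ct : Continuous h.rX := by
  have r0 := h.S.r0
  set t : ℝ := (1 + h.S.r / 2)⁻¹ with ht
  have t0 : 0 < t := by positivity
  have key : ∀ (x : X22) (η : Y) (u : ℝ), 0 < u → u ≤ t →
      h.g (((x.1 : E 3), u⁻¹ • (x.2 : E 3) - x.1), η) = 0 := fun x η u u0 ut => by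
    refine h.g0 _ _ (Or.inl ?_)
    have a := norm_sub_norm_le (u⁻¹ • (x.2 : E 3)) (x.1 : E 3)
    rw [norm_smul, nrm2, nrm2, mul_one, Real.norm_of_nonneg (inv_pos.2 u0).le] at a
    have : 1 + h.S.r / 2 ≤ u⁻¹ := by rw [← inv_inv (1 + h.S.r / 2)]; exact inv_anti₀ u0 ut
    linarith
  have e : gX h.g = fun z : X22 × Y => h.g (((z.1.1 : E 3),
      (max ⟪(z.1.1 : E 3), (z.1.2 : E 3)⟫ t)⁻¹ • (z.1.2 : E 3) - z.1.1), z.2) := by
    funext z
    rcases le_total ⟪(z.1.1 : E 3), (z.1.2 : E 3)⟫ t with a | a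
    · rw [max_eq_right a, key _ _ _ t0 le_rfl, gX]
      split_ifs with b
      · exact key _ _ _ b a
      · rfl
    · rw [max_eq_left a, gX, if_pos (t0.trans_le a)]; rfl
  have g := h.gs.continuous
  have m : Continuous fun z : X22 × Y => (max ⟪(z.1.1 : E 3), (z.1.2 : E 3)⟫ t)⁻¹ :=
    Continuous.inv₀ (by fun_prop) fun z => (t0.trans_le (le_max_right _ _)).ne'
  have c : Continuous (gX h.g) := by
    rw [e]; exact g.comp (by fun_prop)
  exact ((piH_smooth' h.hp.sm).continuous.comp continuous_snd).add c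

end Crest.Agent.N218.P.P1

end
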