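import Crest.Agent.N218.P.Defs

/-! # Row 218 (helper26): calculus of `smin`, `G` and the field `X` -/

set_option autoImplicit false
open Set Real
open scoped ContDiff RealInnerProductSpace ComplexConjugate Topology

namespace Crest.Agent.N218.P.Rg

noncomputable section

theorem st_nn (x : ℝ) : 0 ≤ st x := Real.smoothTransition.nonneg x
theorem st_le (x : ℝ) : st x ≤ 1 := Real.smoothTransition.le_one x

theorem Sm_d (h : SM) (t : ℝ) : HasDerivAt Sm (st (500 * t + 1 / 2)) t := by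
  have := ((h.d (500 * t + 1 / 2)).comp t
    (((hasDerivAt_id t).const_mul 500).add_const (1 / 2))).div_const 500
  exact this.congr_deriv (by ring)

theorem Ee_d (h : SM) (x : ℝ) : HasDerivAt Ee (1000 * st (10 * x)) x := by
  have := ((h.d (10 * x)).comp x ((hasDerivAt_id x).const_mul 10)).const_mul 100
  exact this.congr_deriv (by ring)

theorem Sm_z (h : SM) {t : ℝ} (e : t ≤ -(1 / 1000)) : Sm t = 0 := by
  rw [Sm, h.z _ (by linarith), zero_div]

theorem Sm_o (h : SM) {t : ℝ} (e : 1 / 1000 ≤ t) : Sm t = t := by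
  rw [Sm, h.o _ (by linarith)]; ring

theorem Sm_nn (h : SM) (t : ℝ) : 0 ≤ Sm t := (le_max_right _ _).trans (h.Sm_ge t)

theorem smin_le (h : SM) (a b : ℝ) : smin a b ≤ a := sub_le_self _ (Sm_nn h _)

theorem smin_l (h : SM) {a b : ℝ} (e : a + 1 / 1000 ≤ b) : smin a b = a := by
  rw [smin, Sm_z h (by linarith), sub_zero]

theorem smin_r (h : SM) {a b : ℝ} (e : b + 1 / 1000 ≤ a) : smin a b = b := by
  rw [smin, Sm_o h (by linarith), sub_sub_cancel]

theorem Ee_nn (h : SM) (x : ℝ) : 0 ≤ Ee x := mul_nonneg (by norm_num) (h.nn _)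

theorem Ee_ge (h : SM) (x : ℝ) : 1000 * x - 50 ≤ Ee x := by
  have := h.ge (10 * x)
  rw [Ee]; linarith

theorem Ee_z (h : SM) {x : ℝ} (e : x ≤ 0) : Ee x = 0 := by
  rw [Ee, h.z _ (by linarith), mul_zero]

theorem Ee_le (h : SM) {τ c : ℝ} (h0 : 0 ≤ τ) (hc : 0 ≤ c) :
    Ee (τ - c) ≤ τ * (1000 * st (10 * (τ - c))) := by
  have := st_nn (10 * (τ - c))
  rcases le_total (τ - c) 0 with e | e
  · rw [Ee_z h e]; positivity
  · have := h.le (10 * (τ - c)) (by linarith)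
    rw [Ee]; nlinarith

section smooth
variable {X : Type} [NormedAddCommGroup X] [NormedSpace ℝ X] {a b c : X → ℝ}

theorem Sm_sm (h : SM) (ha : ContDiff ℝ ∞ a) : ContDiff ℝ ∞ fun x => Sm (a x) :=
  (h.sm.comp ((contDiff_const.mul ha).add contDiff_const)).div_const 500

theorem smin_sm (h : SM) (ha : ContDiff ℝ ∞ a) (hb : ContDiff ℝ ∞ b) :
    ContDiff ℝ ∞ fun x => smin (a x) (b x) := ha.sub (Sm_sm h (ha.sub hb))

theorem th_sm (h : SM) (ha : ContDiff ℝ ∞ a) : ContDiff ℝ ∞ fun x => th (a x) :=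
  contDiff_const.mul ((h.sm.comp (contDiff_const.sub ha)).sub (h.sm.comp (contDiff_const.sub ha)))

theorem Ee_sm (h : SM) (ha : ContDiff ℝ ∞ a) : ContDiff ℝ ∞ fun x => Ee (a x) :=
  contDiff_const.mul (h.sm.comp (contDiff_const.mul ha))

theorem st_sm (ha : ContDiff ℝ ∞ a) : ContDiff ℝ ∞ fun x => st (a x) :=
  Real.smoothTransition.contDiff.comp ha

theorem tau_sm {z : X → V × V × ℝ × ℝ} (hz : ContDiff ℝ ∞ z) : ContDiff ℝ ∞ fun x => tau (z x) :=
  (hz.fst.norm_sq ℝ).add (hz.snd.fst.norm_sq ℝ)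

/-- `G` is smooth in all its arguments -/
theorem G_sm (h : SM) {M : X → V → V} {z : X → V × V × ℝ × ℝ}
    (hM : ContDiff ℝ ∞ fun x => M x (z x).1) (hc : ContDiff ℝ ∞ c) (hb : ContDiff ℝ ∞ b)
    (hz : ContDiff ℝ ∞ z) : ContDiff ℝ ∞ fun x => G (M x) (c x) (b x) (z x) := by
  have t := tau_sm hz
  have s := (th_sm h t).sin
  have k := (th_sm h t).cos
  exact (((((((k.pow 2).mul (hz.fst.norm_sq ℝ)).add ((s.pow 2).mul (hz.snd.fst.norm_sq ℝ))).sub
    (((contDiff_const.mul s).mul k).mul (hM.inner ℝ hz.snd.fst))).add (hz.snd.snd.fst.pow 2)).add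
    ((hz.snd.snd.snd.sub (hb.mul ((contDiff_const.mul t).sub contDiff_const))).pow 2)).sub
    (t.div_const _) |>.add (Ee_sm h (t.sub hc))).sub contDiff_const
end smooth

/-- the splitting of `Y` as a linear map -/
def coL : Y →ₗ[ℝ] V × V × ℝ × ℝ where
  toFun := co
  map_add' x y := by
    refine Prod.ext ?_ (Prod.ext ?_ (Prod.ext ?_ ?_))
    · ext i; fin_cases i <;> simp [co, pv]
    · ext i; fin_cases i <;> simp [co, pw]
    · simp [co, u2]
    · simp [co, u1]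
  map_smul' t x := by
    refine Prod.ext ?_ (Prod.ext ?_ (Prod.ext ?_ ?_))
    · ext i; fin_cases i <;> simp [co, pv]
    · ext i; fin_cases i <;> simp [co, pw]
    · simp [co, u2]
    · simp [co, u1]

theorem co_line (η ξ : Y) (t : ℝ) : co (η + t • ξ) = co η + t • co ξ := by
  change coL _ = coL _ + t • coL _
  rw [map_add, map_smul]

theorem co_sm : ContDiff ℝ ∞ co := (LinearMap.toContinuousLinearMap coL).contDiff

theorem u1_sm : ContDiff ℝ ∞ u1 := co_sm.snd.snd.snd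

theorem co_surj (z : V × V × ℝ × ℝ) : ∃ η, co η = z := by
  refine ⟨!₂[z.1 0, z.1 1, z.2.1 0, z.2.1 1, ⟨z.2.2.1, z.2.2.2⟩],
    Prod.ext ?_ (Prod.ext ?_ (Prod.ext ?_ ?_))⟩
  · ext i; fin_cases i <;> simp [co, pv]
  · ext i; fin_cases i <;> simp [co, pw]
  · simp [co, u2]
  · simp [co, u1]

theorem co_ev : co ev = (0, 0, 0, 1) := by
  refine Prod.ext ?_ (Prod.ext ?_ (Prod.ext ?_ ?_))
  · ext i; fin_cases i <;> simp [co, pv, ev]
  · ext i; fin_cases i <;> simp [co, pw, ev]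
  · simp [co, u2, ev]
  · simp [co, u1, ev]

theorem nV (v : V) : ‖v‖ ^ 2 = ‖v 0‖ ^ 2 + ‖v 1‖ ^ 2 := by
  rw [EuclideanSpace.norm_sq_eq, Fin.sum_univ_two]

theorem nY (η : Y) : ‖η‖ ^ 2 = tau (co η) + u2 η ^ 2 + u1 η ^ 2 := by
  rw [EuclideanSpace.norm_sq_eq, Fin.sum_univ_five, tau, nV, nV, Complex.sq_norm (η 4),
    Complex.normSq_apply]
  simp [co, pv, pw, u1, u2]
  ring

theorem tau_nn (z : V × V × ℝ × ℝ) : 0 ≤ tau z := by unfold tau; positivity

/-- the quadratic part is nonnegative -/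
theorem G_ge {M : V → V} (hM : ∀ v, ‖M v‖ ≤ ‖v‖) (c b : ℝ) (z : V × V × ℝ × ℝ) :
    z.2.2.1 ^ 2 + (z.2.2.2 - b * (3 * tau z - 1)) ^ 2 - tau z / 1000 + Ee (tau z - c) - 1 / 100 ≤
      G M c b z := by
  have m := (abs_real_inner_le_norm (M z.1) z.2.1).trans
    (mul_le_mul_of_nonneg_right (hM z.1) (norm_nonneg _))
  unfold G
  generalize sin (th (tau z)) = s, cos (th (tau z)) = k, ⟪M z.1, z.2.1⟫ = μ at m ⊢
  have : 2 * s * k * μ ≤ k ^ 2 * ‖z.1‖ ^ 2 + s ^ 2 * ‖z.2.1‖ ^ 2 := by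
    have e : 2 * s * k * μ ≤ 2 * (|s| * |k|) * (‖z.1‖ * ‖z.2.1‖) :=
      calc 2 * s * k * μ ≤ |2 * s * k * μ| := le_abs_self _
        _ = 2 * (|s| * |k|) * |μ| := by rw [abs_mul, abs_mul, abs_mul, abs_two]; ring
        _ ≤ _ := mul_le_mul_of_nonneg_left m (by positivity)
    rw [← sq_abs k, ← sq_abs s]
    nlinarith [sq_nonneg (|k| * ‖z.1‖ - |s| * ‖z.2.1‖)]
  linarith

theorem G_lo (h : SM) (M : V → V) (c b : ℝ) {z : V × V × ℝ × ℝ} (e : tau z ≤ 1) : G M c b z =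
    ‖z.2.1‖ ^ 2 + z.2.2.1 ^ 2 + (z.2.2.2 - b * (3 * tau z - 1)) ^ 2 - tau z / 1000 +
      Ee (tau z - c) - 1 / 100 := by
  simp [G, h.th_lo _ e]

/-- the field `X = (v, w, u₂, 2 (u₁ + b))` increases `G` on `τ < 1` -/
theorem X_G (h : SM) (M : V → V) {c : ℝ} (hc : 0 ≤ c) (b : ℝ) {z : V × V × ℝ × ℝ} (e : tau z < 1) :
    ∃ D, HasDerivAt (fun t : ℝ => G M c b (z + t • (z.1, z.2.1, z.2.2.1, 2 * (z.2.2.2 + b)))) D 0 ∧
      2 * (G M c b z + 1 / 100) ≤ D := by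
  obtain ⟨v, w, a, u⟩ := z
  set τ := tau (v, w, a, u) with hτ
  have n1 : ∀ (x : V) (t : ℝ), ‖x + t • x‖ ^ 2 = (1 + t) ^ 2 * ‖x‖ ^ 2 := fun x t => by
    rw [show x + t • x = (1 + t) • x by rw [add_smul, one_smul], norm_smul, mul_pow, Real.norm_eq_abs, sq_abs]
  have tt : ∀ t : ℝ, tau ((v, w, a, u) + t • (v, w, a, 2 * (u + b))) = (1 + t) ^ 2 * τ := fun t => by
    simp only [hτ, tau, Prod.smul_mk, Prod.mk_add_mk, n1]; ring
  have q : HasDerivAt (fun t : ℝ => (1 + t) ^ 2) 2 0 := by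
    simpa using ((hasDerivAt_id (0 : ℝ)).const_add 1).fun_pow 2
  have ev : ∀ᶠ t in 𝓝 (0 : ℝ), (1 + t) ^ 2 * τ < 1 :=
    (q.mul_const τ).continuousAt.eventually_lt continuousAt_const (by simpa using e)
  have l : ∀ x y : ℝ, HasDerivAt (fun t : ℝ => x + t * y) y 0 := fun x y => by
    simpa using ((hasDerivAt_id (0 : ℝ)).mul_const y).const_add x
  have dE : HasDerivAt (fun t : ℝ => Ee ((1 + t) ^ 2 * τ - c))
      (1000 * st (10 * (τ - c)) * (2 * τ)) 0 := by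
    have := (Ee_d h ((1 + 0) ^ 2 * τ - c)).comp (0 : ℝ) ((q.mul_const τ).sub_const c)
    simpa [Function.comp_def] using this
  have d := (((((q.mul_const (‖w‖ ^ 2)).fun_add ((l a a).fun_pow 2)).fun_add (((l u (2 * (u + b))).fun_sub
    ((((q.mul_const τ).const_mul 3).sub_const 1).const_mul b)).fun_pow 2)).fun_sub
    ((q.mul_const τ).div_const 1000)).fun_add dE).sub_const (1 / 100)
  refine ⟨_, d.congr_of_eventuallyEq (ev.mono fun t k => ?_), ?_⟩
  · simp only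
    rw [G_lo h _ _ _ (by rw [tt]; exact k.le), tt]
    simp only [Prod.smul_mk, Prod.mk_add_mk, n1, smul_eq_mul]
  · have := Ee_le h (tau_nn (v, w, a, u)) hc
    rw [G_lo h _ _ _ e.le, ← hτ]
    rw [← hτ] at this
    norm_num
    nlinarith [sq_nonneg (u - b * (3 * τ - 1))]

/-- the derivative of `smin` along a curve -/
theorem smin_d (h : SM) {a b : ℝ → ℝ} {a' b' t : ℝ} (ha : HasDerivAt a a' t)
    (hb : HasDerivAt b b' t) : HasDerivAt (fun s => smin (a s) (b s))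
      ((1 - st (500 * (a t - b t) + 1 / 2)) * a' + st (500 * (a t - b t) + 1 / 2) * b') t := by
  have := ha.fun_sub ((Sm_d h (a t - b t)).comp t (ha.fun_sub hb))
  exact this.congr_deriv (by ring)

end

end Crest.Agent.N218.P.Rg
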