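import Crest.Agent.N218.P.Defs

/-! Row 218, block A1/A4 (helper47): the profile functions. -/

set_option autoImplicit false
set_option maxHeartbeats 400000
open Set Real
open scoped ContDiff

namespace Crest.Agent.N218.P

theorem st_one_sub (x : ℝ) : st (1 - x) = 1 - st x := by
  have := smoothTransition.pos_denom x
  simp only [st, smoothTransition, sub_sub_cancel]
  rw [add_comm (expNegInvGlue (1 - x))]
  field_simp
  ring

theorem st_nn (x : ℝ) : 0 ≤ st x := smoothTransition.nonneg x
theorem st_le (x : ℝ) : st x ≤ 1 := smoothTransition.le_one x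
theorem st_z {x : ℝ} (h : x ≤ 0) : st x = 0 := smoothTransition.zero_of_nonpos h
theorem st_o {x : ℝ} (h : 1 ≤ x) : st x = 1 := smoothTransition.one_of_one_le h

theorem S1_d (x : ℝ) : HasDerivAt S1 (st x) x :=
  (smoothTransition.continuous.integral_hasStrictDerivAt 0 x).hasDerivAt

theorem S1_deriv : deriv S1 = st := funext fun x => (S1_d x).deriv

theorem S1_diff : Differentiable ℝ S1 := fun x => (S1_d x).differentiableAt

theorem S1_z (x : ℝ) (h : x ≤ 0) : S1 x = 0 := by
  rw [S1, intervalIntegral.integral_congr (g := fun _ => 0) fun t ht => st_z (by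
    rw [uIcc_of_ge h] at ht; exact ht.2)]
  simp

theorem S1_mono : Monotone S1 :=
  monotone_of_deriv_nonneg S1_diff fun x => by rw [S1_deriv]; exact st_nn x

theorem S1_nn (x : ℝ) : 0 ≤ S1 x := by
  rcases le_total x 0 with h | h
  · exact (S1_z x h).ge
  · exact (S1_z 0 le_rfl).ge.trans (S1_mono h)

theorem S1_sym (x : ℝ) : S1 x - S1 (1 - x) = x - 1 / 2 := by
  have d : ∀ x, HasDerivAt (fun x => S1 x - S1 (1 - x) - x) 0 x := fun x => by
    have := ((S1_d x).sub ((S1_d (1 - x)).comp x ((hasDerivAt_id x).const_sub 1))).sub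
      (hasDerivAt_id x)
    rw [st_one_sub] at this
    exact this.congr_deriv (by ring)
  have := is_const_of_deriv_eq_zero (fun x => (d x).differentiableAt) (fun x => (d x).deriv) x (1 / 2)
  norm_num at this
  linarith

theorem S1_le (x : ℝ) (h : 0 ≤ x) : S1 x ≤ x * st x := by
  have := intervalIntegral.integral_mono_on h
    (smoothTransition.continuous.intervalIntegrable (μ := MeasureTheory.volume) 0 x)
    (intervalIntegrable_const (c := st x)) fun t ht => smoothTransition.monotone ht.2
  simpa [S1] using this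

theorem S1_le' (x : ℝ) (h : 0 ≤ x) : S1 x ≤ x :=
  (S1_le x h).trans (mul_le_of_le_one_right h (st_le x))

theorem S1_o (x : ℝ) (h : 1 ≤ x) : S1 x = x - 1 / 2 := by
  rw [← S1_sym, S1_z (1 - x) (by linarith), sub_zero]

theorem th_d (τ : ℝ) : HasDerivAt th (-(π / 2 * (st (3 - τ) - st (2 - τ)))) τ :=
  ((((S1_d (3 - τ)).comp τ ((hasDerivAt_id τ).const_sub 3)).sub
    ((S1_d (2 - τ)).comp τ ((hasDerivAt_id τ).const_sub 2))).const_mul (π / 2)).congr_deriv (by ring)

theorem th_mem (τ : ℝ) : 0 ≤ th τ ∧ th τ ≤ π / 2 := by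
  have a := S1_mono (show 2 - τ ≤ 3 - τ by linarith)
  have b := S1_mono (show 1 - (3 - τ) ≤ 1 - (2 - τ) by linarith)
  have c := S1_sym (3 - τ)
  have d := S1_sym (2 - τ)
  exact ⟨mul_nonneg (by positivity) (by linarith),
    mul_le_of_le_one_right (by positivity) (by linarith)⟩

theorem sm : SM where
  sm := contDiff_infty_iff_deriv.2 ⟨S1_diff, S1_deriv ▸ smoothTransition.contDiff⟩
  d := S1_d
  z := S1_z
  o := S1_o
  nn := S1_nn
  ge x := by linarith [S1_sym x, S1_nn (1 - x)]
  le := S1_le
  mono := S1_mono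
  conv := Monotone.convexOn_univ_of_deriv S1_diff (S1_deriv ▸ smoothTransition.monotone)
  Sm_le t := by
    have a := le_max_left t 0
    have b := le_max_right t 0
    rw [Sm]
    rcases le_total (500 * t + 1 / 2) 0 with h | h
    · rw [S1_z _ h]; linarith
    · linarith [S1_le' _ h]
  Sm_ge t := by
    rw [Sm]
    exact max_le (by linarith [S1_sym (500 * t + 1 / 2), S1_nn (1 - (500 * t + 1 / 2))])
      (by linarith [S1_nn (500 * t + 1 / 2)])
  th_d := th_d
  th_mem := th_mem
  th_lo τ h := by rw [th, S1_o _ (by linarith), S1_o _ (by linarith)]; ring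
  th_hi τ h := by rw [th, S1_z _ (by linarith), S1_z _ (by linarith)]; ring
  th_d0 τ h := by
    have : -(π / 2 * (st (3 - τ) - st (2 - τ))) = 0 := by
      rcases h with h | h
      · exact IsLocalMin.hasDerivAt_eq_zero (.of_forall fun x => h ▸ (th_mem x).1) (th_d τ)
      · exact IsLocalMax.hasDerivAt_eq_zero (.of_forall fun x => h ▸ (th_mem x).2) (th_d τ)
    exact (mul_eq_zero.1 (neg_eq_zero.1 this)).resolve_left (by positivity)
  th_sm τ h := by
    rw [th] at h ⊢
    refine mul_le_mul_of_nonneg_left ?_ (by positivity)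
    have a : S1 (3 - τ) - S1 (2 - τ) < 1 / 2 :=
      lt_of_mul_lt_mul_left (h.trans_eq (by ring)) (by positivity : 0 ≤ π / 2)
    rcases le_total (2 - τ) 0 with k | k
    · rw [S1_z _ k, st_z k]
      rcases le_total (3 - τ) 0 with l | l
      · rw [S1_z _ l]; linarith [st_nn (3 - τ)]
      · nlinarith [S1_le _ l, st_nn (3 - τ)]
    · rw [S1_o (3 - τ) (by linarith)] at a
      linarith [S1_le' _ k]

end Crest.Agent.N218.P
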