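import Crest.Agent.N218.Pm.Cj
import Crest.Agent.N218.Pm.Pc
import Crest.Agent.N218.D3.Loc
import Crest.Agent.N218.Sk.Ec1

/-!
# Row 218 (helper77): change of the ambient space and of the background of a canonical problem
-/

set_option autoImplicit false
set_option linter.unusedSectionVars false
open Set Topology

local notation "I" => unitInterval

noncomputable section

namespace Crest.Agent.N218.Sw
open Pm

variable {X : Type} [TopologicalSpace X] {k : ℕ} {E E' : Type}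
  [NormedAddCommGroup E] [NormedSpace ℝ E] [NormedAddCommGroup E'] [NormedSpace ℝ E']

/-- the equation of `Ec` -/
def Zr (f : E → E) (s : ℝ) (z : V k E) : Prop := ∀ i, z i - f (z (i - 1)) + s • mn z i = 0

theorem mem_O {f : X × E → E} {x : (X × ℝ) × V k E} : x ∈ (Ec k univ f).O ↔ mn x.2 ≠ 0 := by
  simp [Ec, PM.Ec, Psi]

theorem h_apply (f : X × E → E) (x : (X × ℝ) × V k E) (i : Ix k) : (Ec k univ f).h x i =
    x.2 i - f (x.1.1, x.2 (i - 1)) + Real.exp x.1.2 • mn x.2 i := rfl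

theorem mem_Z {f : X × E → E} {x : (X × ℝ) × V k E} : x ∈ (Ec k univ f).Z ↔
    mn x.2 ≠ 0 ∧ Zr (fun y => f (x.1.1, y)) (Real.exp x.1.2) x.2 :=
  and_congr mem_O funext_iff

/-- `Ec` is a problem as soon as its zero set is compact -/
theorem ok_of {f : X × E → E} (hf : Continuous f) (c : IsCompact (Ec k univ f).Z) :
    (Ec k univ f).Ok := by
  have eO : (Ec k univ f).O = {x | mn x.2 ≠ 0} := Set.ext fun _ => mem_O
  refine ⟨eO ▸ isOpen_ne_fun (cont_mn continuous_snd) continuous_const,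
    fun x a => mem_O.2 (sh_ne (mem_O.1 a)), Continuous.continuousOn ?_, fun x _ => ?_, c,
    fun x a => mem_O.1 a⟩
  · change Continuous fun x : (X × ℝ) × V k E =>
      (fun i => x.2 i - f (x.1.1, x.2 (i - 1))) + Real.exp x.1.2 • mn x.2
    fun_prop
  · funext i
    simp [Ec, PM.Ec, Psi, mn_sh]

/-- the linear slot -/
def ph (c : ℝ) (s : ℝ) (z : V k E) : V k E := z - c • sh k E z + s • mn z

theorem ph_zero {c s : ℝ} (c0 : 0 ≤ c) (c1 : c < 1) (s0 : 0 ≤ s) {z : V k E} (h : ph c s z = 0) :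
    z = 0 := by
  have a : (1 + s) • mn z = c • sh k E (mn z) := by
    have := congrArg mn h
    rw [ph, mn_add, mn_sub, mn_smul, mn_smul, mn_mn, mn_sh, mn_zero] at this
    rw [← sub_eq_zero, ← this]; module
  have b := congrArg norm a
  rw [norm_smul, norm_smul, norm_sh, Real.norm_of_nonneg (by positivity),
    Real.norm_of_nonneg c0] at b
  have m : mn z = 0 := norm_eq_zero.1 (by nlinarith [norm_nonneg (mn z)])
  rw [ph, m, smul_zero, add_zero, sub_eq_zero] at h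
  have d := congrArg norm h
  rw [norm_smul, norm_sh, Real.norm_of_nonneg c0] at d
  exact norm_eq_zero.1 (by nlinarith [norm_nonneg z])

theorem ph_sh (c s : ℝ) (z : V k E) : ph c s (sh k E z) = sh k E (ph c s z) := by
  simp [ph, mn_sh]

/-- diagonal action of a linear map -/
def dg (k : ℕ) (a : E →L[ℝ] E') : V k E →L[ℝ] V k E' :=
  ContinuousLinearMap.pi fun i => a.comp (ContinuousLinearMap.proj i)

@[simp] theorem dg_apply (a : E →L[ℝ] E') (y : V k E) (i : Ix k) : dg k a y i = a (y i) := rfl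
theorem dg_sh (a : E →L[ℝ] E') (y : V k E) : dg k a (sh k E y) = sh k E' (dg k a y) := rfl
theorem dg_mn (a : E →L[ℝ] E') (y : V k E) : dg k a (mn y) = mn (dg k a y) := by
  funext i; simp [mn]

variable [FiniteDimensional ℝ E] [FiniteDimensional ℝ E']

theorem dg_ct {a : X → E →L[ℝ] E'} (h : Continuous a) : Continuous fun x => dg k (a x) :=
  continuous_clm_apply.2 fun y => continuous_pi fun i => by
    simp only [dg_apply]; exact h.clm_apply continuous_const

variable {A : Type} [AddCommGroup A] (T : Th X A)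

theorem ad_st {P : Pb (X × ℝ) k E} (h : P.Ok) {c : ℝ} (c0 : 0 ≤ c) (c1 : c < 1) (hk : 16 ≤ k) :
    (P.ad fun x : (X × ℝ) × V k E' => ph c (Real.exp x.1.2) x.2).Ok ∧
    Pe (T.pa k (sp (E × E')) (P.ad fun x : (X × ℝ) × V k E' => ph c (Real.exp x.1.2) x.2))
      (T.pa k (sp E) P) := by
  refine ⟨h.ad (by unfold ph; fun_prop) (fun _ _ => ph_sh _ _ _) (R := 0) fun b y e =>
    (norm_eq_zero.2 (ph_zero c0 c1 (Real.exp_pos _).le e)).le, ?_⟩
  have e := h.ht_ad (φ := fun x : ((X × ℝ) × I) × V k E' =>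
    ph (x.1.2 * c) (x.1.2 * Real.exp x.1.1.2) x.2) (by unfold ph; fun_prop)
    (fun _ _ => ph_sh _ _ _) (R := 0) fun b y e => (norm_eq_zero.2 (ph_zero
      (mul_nonneg b.2.2.1 c0) (by nlinarith [b.2.2.1, b.2.2.2])
      (mul_nonneg b.2.2.1 (Real.exp_pos _).le) e)).le
  have e0 : (P.ad fun x : (X × ℝ) × V k E' => ph (((0 : I) : ℝ) * c)
      (((0 : I) : ℝ) * Real.exp x.1.2) x.2) = P.st E' :=
    Cj.pb_ext rfl (funext fun x => by simp [Pb.ad, Pb.st, ph])
  simp only [e0, Icc.coe_one, one_mul] at e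
  rw [← T.pa_eqv k (sp (E × E')) _ _ hk e]
  exact T.pa_st k (sp E) (sp E') P hk h

/-- the swap of the slots -/
def swp (k : ℕ) (E E' : Type) [NormedAddCommGroup E] [NormedSpace ℝ E] [NormedAddCommGroup E']
    [NormedSpace ℝ E'] : V k (E × E') ≃L[ℝ] V k (E' × E) :=
  ContinuousLinearEquiv.piCongrRight fun _ => ContinuousLinearEquiv.prodComm ℝ E E'

/-- the shear path -/
def shr (a : V k E →L[ℝ] V k E') (b : V k E' →L[ℝ] V k E) (t : ℝ) :
    V k (E × E') →L[ℝ] V k (E × E') :=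
  Cj.blk 1 (t • b) 0 1 * Cj.blk 1 0 (-t • a) 1 * Cj.blk 1 (t • b) 0 1

theorem shr_gi {B : Type} [TopologicalSpace B] {a : B → E →L[ℝ] E'} {b : B → E' →L[ℝ] E}
    (ha : Continuous a) (hb : Continuous b) (ε : ℝ) :
    Gi (E := E × E') fun x : B × I => shr (dg k (a x.1)) (dg k (b x.1)) (ε * x.2) := by
  have c := dg_ct (k := k) ha
  have c' := dg_ct (k := k) hb
  have t : Continuous fun x : B × I => ε * (x.2 : ℝ) := by fun_prop
  refine ((Cj.gl_u ?_ ?_).mul (Cj.gl_l ?_ ?_)).mul (Cj.gl_u ?_ ?_)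
  · exact t.smul (c'.comp continuous_fst)
  · intro b y; simp [dg_sh]
  · exact t.neg.smul (c.comp continuous_fst)
  · intro b y; simp [dg_sh]
  · exact t.smul (c'.comp continuous_fst)
  · intro b y; simp [dg_sh]

/-- **change of the ambient space** -/
theorem sw [T2Space X] (hk : 16 ≤ k) {f : X × E → E} {f' : X × E' → E'} (hf : Continuous f)
    {a : X → E →L[ℝ] E'} {b : X → E' →L[ℝ] E} (ha : Continuous a) (hb : Continuous b) {U : Set X}
    (hU : IsOpen U) {c : ℝ} (c0 : 0 ≤ c) (c1 : c < 1) (ba : ∀ x ∈ U, ∀ y, b x (a x y) = y)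
    (e : ∀ x ∈ U, ∀ z, f' (x, z) = a x (f (x, b x z)) + c • (z - a x (b x z)))
    (h' : (Ec k univ f').Ok) (z : ∀ w ∈ (Ec k univ f).Z, w.1.1 ∈ U)
    (z' : ∀ w ∈ (Ec k univ f').Z, w.1.1 ∈ U) :
    (Ec k univ f).Ok ∧ Pe (T.pa k (sp E) (Ec k univ f)) (T.pa k (sp E') (Ec k univ f')) := by
  -- zeros correspond
  have up : ∀ w ∈ (Ec k univ f).Z, (w.1, dg k (a w.1.1) w.2) ∈ (Ec k univ f').Z := fun w hw => by
    have u := z w hw
    obtain ⟨m, q⟩ := mem_Z.1 hw
    refine mem_Z.2 ⟨fun n => m (funext fun i => ?_), fun i => ?_⟩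
    · have := congrArg (b w.1.1) (congrFun n i)
      rwa [← dg_mn, dg_apply, ba _ u, Pi.zero_apply, map_zero] at this
    · have := congrArg (a w.1.1) (q i)
      simp only [← dg_mn, dg_apply, e _ u, ba _ u, sub_self, smul_zero, add_zero]
      simpa using this
  have ab : ∀ w ∈ (Ec k univ f').Z, ∀ i, a w.1.1 (b w.1.1 (w.2 i)) = w.2 i := fun w hw => by
    have u := z' w hw
    have q := (mem_Z.1 hw).2
    have : ph c (Real.exp w.1.2) (dg k (1 - (a w.1.1).comp (b w.1.1)) w.2) = 0 := by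
      funext i
      have := congrArg (1 - (a w.1.1).comp (b w.1.1) : E' →L[ℝ] E') (q i)
      simp only [e _ u] at this
      simp only [ph, ← dg_mn, Pi.add_apply, Pi.sub_apply, Pi.smul_apply, sh_apply, dg_apply,
        Pi.zero_apply]
      rw [map_zero] at this
      rw [← this]
      simp [ba _ u, smul_sub]
      abel
    intro i
    have := congrFun (ph_zero c0 c1 (Real.exp_pos _).le this) i
    simp only [dg_apply, sub_apply, one_apply_eq_self,
      ContinuousLinearMap.comp_apply, Pi.zero_apply] at this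
    exact (sub_eq_zero.1 this).symm
  have dn : ∀ w ∈ (Ec k univ f').Z, (w.1, dg k (b w.1.1) w.2) ∈ (Ec k univ f).Z := fun w hw => by
    have u := z' w hw
    obtain ⟨m, q⟩ := mem_Z.1 hw
    refine mem_Z.2 ⟨fun n => m ?_, fun i => ?_⟩
    · have : w.2 = dg k (a w.1.1) (dg k (b w.1.1) w.2) := funext fun i => (ab w hw i).symm
      rw [this, ← dg_mn, n, map_zero]
    · have := congrArg (b w.1.1) (q i)
      simp only [e _ u] at this
      simp only [← dg_mn, dg_apply]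
      simpa [ba _ u, smul_sub] using this
  have cb : Continuous fun w : (X × ℝ) × V k E' => (w.1, dg k (b w.1.1) w.2) :=
    continuous_fst.prodMk (((dg_ct hb).comp (by fun_prop)).clm_apply continuous_snd)
  have h : (Ec k univ f).Ok := by
    refine ok_of hf ?_
    suffices e : (Ec k univ f).Z = _ from e ▸ h'.cp.image cb
    refine Set.ext fun w => ⟨fun hw => ⟨_, up w hw, Prod.ext rfl (funext fun i => ?_)⟩, ?_⟩
    · simp [ba _ (z w hw)]
    · rintro ⟨w, hw, rfl⟩; exact dn w hw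
  refine ⟨h, ?_⟩
  have o1 := (ad_st (E' := E') T h c0 c1 hk).1
  have p1 := (ad_st (E' := E') T h c0 c1 hk).2
  have o2 := (ad_st (E' := E) T h' c0 c1 hk).1
  have p2 := (ad_st (E' := E) T h' c0 c1 hk).2
  have g1 := shr_gi (k := k) (B := X × ℝ) (ha.comp continuous_fst) (hb.comp continuous_fst) 1
  have g2 := shr_gi (k := k) (B := X × ℝ) (ha.comp continuous_fst) (hb.comp continuous_fst) (-1)
  have s0 : ∀ (a : V k E →L[ℝ] V k E') (b : V k E' →L[ℝ] V k E), shr a b 0 = 1 := fun a b => by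
    ext1 w; simp [shr, Cj.blk_apply, pr_s]
  have q1 := o1.eqv_cf g1 g2 (fun _ => by simp [s0]) (fun _ => by simp [s0]) (fun _ => rfl)
    fun _ => rfl
  have sw_sh : ∀ y, swp k E E' (sh k _ y) = sh k _ (swp k E E' y) := fun _ => rfl
  have p3 := T.pa_cj k (sp (E' × E)) (sp (E × E')) (swp k E E') _ hk o2 sw_sh
  have o3 : (Pb.cj (swp k E E') ((Ec k univ f').ad fun x : (X × ℝ) × V k E =>
      ph c (Real.exp x.1.2) x.2)).Ok := by
    have cs : Continuous fun x : (X × ℝ) × V k (E × E') => (x.1, swp k E E' x.2) := by fun_prop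
    refine ⟨o2.op.preimage cs, fun x m => o2.inv _ m,
      (swp k E E').symm.continuous.comp_continuousOn (o2.ct.comp cs.continuousOn fun _ m => m),
      fun x m => congrArg (swp k E E').symm (o2.eq _ m), ?_, fun x m n => o2.fr _ m ?_⟩
    · convert ((Homeomorph.refl (X × ℝ)).prodCongr
        (swp k E E').toHomeomorph).isCompact_preimage.2 o2.cp using 1
      exact Set.ext fun x => and_congr Iff.rfl (swp k E E').symm.map_eq_zero_iff
    · exact (comm_mn (L := (swp k E E').toContinuousLinearMap) sw_sh x.2).symm.trans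
        (by rw [n, map_zero])
  have s1e : ∀ x ∈ U, ∀ (ε : ℝ) (w : V k (E × E')), ε * ε = 1 →
      shr (dg k (a x)) (dg k (b x)) ε w = pr (ε • dg k (b x) (s2 w))
        (s2 w - dg k (a x) (dg k (b x) (s2 w)) - ε • dg k (a x) (s1 w)) := fun x u ε w he => by
    funext i
    refine Prod.ext ?_ ?_
    · simp [shr, Cj.blk_apply, pr, s1, s2, ba _ u, smul_smul, he]
    · simp [shr, Cj.blk_apply, pr, s1, s2, smul_smul, he]; abel
  have q2 := (q1.ok.1 o1).eqv_germ o3
    (N := {w | w.1.1 ∈ U ∧ mn (dg k (b w.1.1) (s2 w.2)) ≠ 0})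
    ((hU.preimage (by fun_prop)).inter (isOpen_ne_fun (cont_mn
      (((dg_ct hb).comp (by fun_prop)).clm_apply (cont_s2 continuous_snd))) continuous_const))
    (fun w m => ⟨m.1, by rw [s2_sh, dg_sh]; exact sh_ne m.2⟩) ?_ ?_ ?_
  · rw [T.pa_eqv k (sp (E × E')) _ _ hk (q1.trans q2)] at p1
    exact p1.symm.trans (p3.trans p2)
  · rintro w ⟨m, n⟩
    have n1 := (g2.comp (φ := fun x => (x, 1)) (by fun_prop)).inj _ _ n
    have u : w.1.1 ∈ U := z (_, _) ⟨m, (pr_eq_zero.1 n1).1⟩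
    refine ⟨u, ?_⟩
    have m' := mem_O.1 m
    simp only [Function.comp, Icc.coe_one, mul_one] at m'
    rwa [s1e _ u 1 _ (by norm_num), s1_pr, one_smul] at m'
  · rintro w ⟨m, n⟩
    have n1 := pr_eq_zero.1 ((swp k E E').symm.map_eq_zero_iff.1 n)
    have hw : (w.1, s2 w.2) ∈ (Ec k univ f').Z := ⟨m, n1.1⟩
    exact ⟨z' _ hw, (mem_Z.1 (dn _ hw)).1⟩
  · rintro w ⟨u, m⟩
    refine ⟨iff_of_true (mem_O.2 ?_) (mem_O.2 fun n => m ?_), fun _ => ?_⟩
    · simp only [Function.comp, Icc.coe_one, mul_one]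
      rwa [s1e _ u 1 _ (by norm_num), s1_pr, one_smul]
    · have n' : mn (s2 w.2) = 0 := n
      rw [← dg_mn, n', map_zero]
    · simp only [Pb.cf, Pb.ad, Function.comp, Icc.coe_one, mul_one]
      rw [s1e _ u 1 _ (by norm_num), s1e _ u (-1) _ (by norm_num), s1_pr, s2_pr, s1_pr, s2_pr]
      funext i
      refine Prod.ext ?_ ?_
      · change _ = ph c (Real.exp w.1.2) (s1 w.2) i
        simp [pr, ph, mn, ba _ u, smul_sub]
        module
      · change _ = (Ec k univ f').h (w.1, s2 w.2) i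
        simp [pr, ph, mn, h_apply, ba _ u, e _ u, smul_sub]
        module

/-- **change of the background** -/
theorem germ {f f' : X × E → E} (hf : Continuous f) {r r' : X → E → E} {C a : ℝ} (C0 : 0 ≤ C)
    (h0 : ∀ x y y', ‖r x y - r x y'‖ ≤ ‖y - y'‖) (h0' : ∀ x y y', ‖r' x y - r' x y'‖ ≤ ‖y - y'‖)
    (hr : ∀ x y, ‖f (x, y) - r x y‖ ≤ C) (hr' : ∀ x y, ‖f' (x, y) - r' x y‖ ≤ C)
    (far : ∀ x y, f (x, y) ≠ r x y → ∃ c, ‖c‖ ≤ a ∧ r x c = c ∧ ‖y - c‖ ≤ a)
    (far' : ∀ x y, f' (x, y) ≠ r' x y → ∃ c, ‖c‖ ≤ a ∧ r' x c = c ∧ ‖y - c‖ ≤ a)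
    (e : ∀ x y, ‖y‖ < 2 * a + 2 * C * 2 ^ (k + 1) + 1 → f (x, y) = f' (x, y))
    (h' : (Ec k univ f').Ok) : (Ec k univ f).Ok ∧ Pb.Eqv (Ec k univ f) (Ec k univ f') := by
  have tr : ∀ i j : Ix k, ∃ n ≤ 2 ^ (k + 1), ((Equiv.addRight (1 : Ix k)) ^ n) i = j :=
    fun i j => ⟨(j - i).val, (ZMod.val_lt _).le, by simp⟩
  have key : ∀ {f : X × E → E} {r : X → E → E}, (∀ x y y', ‖r x y - r x y'‖ ≤ ‖y - y'‖) →
      (∀ x y, ‖f (x, y) - r x y‖ ≤ C) →
      (∀ x y, f (x, y) ≠ r x y → ∃ c, ‖c‖ ≤ a ∧ r x c = c ∧ ‖y - c‖ ≤ a) →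
      ∀ w ∈ (Ec k univ f).Z, ∀ i, ‖w.2 i‖ < 2 * a + 2 * C * 2 ^ (k + 1) + 1 := by
    intro f r h0 hr far w hw i
    obtain ⟨m, q⟩ := mem_Z.1 hw
    obtain ⟨c, hc, b⟩ := D3.loc (Sk.tau_sq (k := k)) (σ := Equiv.addRight (1 : Ix k))
      (fun i => add_right_comm _ _ _) tr (Real.exp_pos w.1.2) C0 (h0 w.1.1) (hr w.1.1)
      ((Sk.eq_iff (g := fun i => Real.exp w.1.2 • mn w.2 i) (F := fun y => f (w.1.1, y))).1 q) m
      (Z := {c | ‖c‖ ≤ a}) (a := a) (far w.1.1)
    have := b i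
    push_cast at this
    linarith [norm_le_insert' (w.2 i) c, show ‖c‖ ≤ a from hc]
  have eh : ∀ w : (X × ℝ) × V k E, (∀ i, ‖w.2 i‖ < 2 * a + 2 * C * 2 ^ (k + 1) + 1) →
      (Ec k univ f).h w = (Ec k univ f').h w := fun w hw => funext fun i => by
    rw [h_apply, h_apply, e _ _ (hw _)]
  have h : (Ec k univ f).Ok := by
    refine ok_of hf ?_
    convert h'.cp using 1
    exact Set.ext fun w => ⟨fun hw => ⟨mem_O.2 (mem_O.1 hw.1), (eh w (key h0 hr far w hw)).symm.trans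
      hw.2⟩, fun hw => ⟨mem_O.2 (mem_O.1 hw.1), (eh w (key h0' hr' far' w hw)).trans hw.2⟩⟩
  refine ⟨h, h.eqv_germ h' (N := {w | ∀ i, ‖w.2 i‖ < 2 * a + 2 * C * 2 ^ (k + 1) + 1}) ?_
    (fun w m i => m _) (key h0 hr far) (key h0' hr' far')
    fun w m => ⟨mem_O.trans mem_O.symm, fun _ => eh w m⟩⟩
  simp only [ofPred_forall]
  exact isOpen_iInter_of_finite fun i => isOpen_lt (by fun_prop) continuous_const

/-- no free zero over a point where the map is nonexpansive -/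
theorem no_zero {f : X × E → E} {w : (X × ℝ) × V k E} (hw : w ∈ (Ec k univ f).Z)
    (h : ∀ y y', ‖f (w.1.1, y) - f (w.1.1, y')‖ ≤ ‖y - y'‖) : False := by
  obtain ⟨m, q⟩ := mem_Z.1 hw
  exact m (D3.odd_zero (Sk.tau_sq (k := k)) (σ := Equiv.addRight (1 : Ix k))
    (fun i => add_right_comm _ _ _) (Real.exp_pos w.1.2) (r := fun y => f (w.1.1, y)) h (fun _ => rfl)
    ((Sk.eq_iff (g := fun i => Real.exp w.1.2 • mn w.2 i) (F := fun y => f (w.1.1, y))).1 q))

end Crest.Agent.N218.Sw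

end
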